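import Vale.Agent.P095.H.Pos

/-! Rotations, ordered products, partitions of unity, lifting lemmas. -/

open Filter Topology
open scoped BoundedContinuousFunction

namespace Vale.Agent.P095.H

variable {G Q : Type} [Group G] [CStarAlgebra Q]


theorem rot_add {w : Q} (h : Sy w) (θ φ : ℝ) : rot θ w * rot φ w = rot (θ + φ) w := by
  simp only [rot, add_mul, mul_add, smul_mul_smul_comm, mul_one, one_mul, h.2, Real.cos_add,
    Real.sin_add]
  match_scalars
  · linear_combination (Complex.sin θ * Complex.sin φ) * Complex.I_sq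
  · ring
theorem rot_pow {w : Q} (h : Sy w) (θ : ℝ) (m : ℕ) : rot θ w ^ m = rot (m * θ) w := by
  induction m with
  | zero => simp [rot]
  | succ m ih => rw [pow_succ, ih, rot_add h, Nat.cast_succ, add_mul, one_mul]
theorem star_rot {w : Q} (h : Sy w) (θ : ℝ) : star (rot θ w) = rot (-θ) w := by
  simp only [rot, star_add, star_smul, star_one, h.1.star_eq, Real.cos_neg, Real.sin_neg,
    Complex.star_def, map_mul, Complex.conj_ofReal, Complex.conj_I, Complex.ofReal_neg, mul_neg,
    neg_mul]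
theorem rot_unitary {w : Q} (h : Sy w) (θ : ℝ) : rot θ w ∈ unitary Q := by
  rw [Unitary.mem_iff, star_rot h, rot_add h, rot_add h]
  simp [rot]
theorem norm_rot_sub_one {w : Q} (h : Sy w) (θ : ℝ) : ‖rot θ w - 1‖ ≤ 2 * |θ| := by
  have e : rot θ w - 1 =
      ((Real.cos θ - 1 : ℝ) : ℂ) • (1 : Q) + ((Real.sin θ : ℂ) * Complex.I) • w := by
    rw [rot, Complex.ofReal_sub, sub_smul, Complex.ofReal_one, one_smul]
    abel
  have h1 : |Real.cos θ - 1| ≤ |θ| := by simpa using Real.abs_cos_sub_cos_le θ 0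
  have h2 : |Real.sin θ| ≤ |θ| := Real.abs_sin_le_abs
  have h3 : ‖(1 : Q)‖ ≤ 1 := norm_le_of_unitary (one_mem _)
  have h4 := h.norm_le
  rw [e]
  refine (norm_add_le _ _).trans ?_
  rw [norm_smul, norm_smul, norm_mul, Complex.norm_real, Complex.norm_real, Complex.norm_I,
    mul_one, Real.norm_eq_abs, Real.norm_eq_abs]
  nlinarith [abs_nonneg (Real.cos θ - 1), abs_nonneg (Real.sin θ)]
theorem rot_mem {B : StarSubalgebra ℂ Q} {w : Q} (h : w ∈ B) (θ : ℝ) : rot θ w ∈ B := by
  exact add_mem (B.smul_mem B.one_mem _) (B.smul_mem h _)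
theorem map_rot (φ : Q ≃⋆ₐ[ℂ] Q) (θ : ℝ) (w : Q) : φ (rot θ w) = rot θ (φ w) := by
  simp only [rot, map_add, map_smul, map_one]
theorem star_rot_mul_rot {u v : Q} (hu : Sy u) (hv : Sy v) (φ : ℝ) :
    star (rot φ u) * rot φ v = 1 - ((Real.sin φ ^ 2 / 2 : ℝ) : ℂ) • dq u v
      - ((Real.sin φ ^ 2 / 2 : ℝ) : ℂ) • (v * u - u * v)
      + ((Real.sin φ * Real.cos φ : ℝ) * Complex.I : ℂ) • (v - u) := by
  rw [star_rot hu]
  simp only [rot, dq, add_mul, mul_add, sub_mul, mul_sub, smul_mul_smul_comm, mul_one, one_mul,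
    hu.2, hv.2, Real.cos_neg, Real.sin_neg]
  match_scalars
  · linear_combination Complex.cos_sq_add_sin_sq φ
  · ring
  · ring
  · linear_combination (-Complex.sin φ ^ 2) * Complex.I_sq
  · ring

theorem pr_zero (f : ℕ → Q) : pr f 0 = 1 := rfl
theorem pr_succ (f : ℕ → Q) (n : ℕ) : pr f (n + 1) = pr f n * f n := rfl
theorem pr_congr {f g : ℕ → Q} {n : ℕ} (h : ∀ i < n, f i = g i) : pr f n = pr g n := by
  induction n with
  | zero => rfl
  | succ n ih => rw [pr_succ, pr_succ, ih fun i hi => h i (by omega), h n (by omega)]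
theorem pr_one (n : ℕ) : pr (fun _ => (1 : Q)) n = 1 := by
  induction n with
  | zero => rfl
  | succ n ih => rw [pr_succ, ih, one_mul]
theorem map_pr (φ : Q ≃⋆ₐ[ℂ] Q) (f : ℕ → Q) (n : ℕ) : φ (pr f n) = pr (fun i => φ (f i)) n := by
  induction n with
  | zero => exact map_one φ
  | succ n ih => rw [pr_succ, pr_succ, map_mul, ih]
theorem commute_pr {x : Q} {f : ℕ → Q} {n : ℕ} (h : ∀ i < n, Commute x (f i)) :
    Commute x (pr f n) := by
  induction n with
  | zero => exact Commute.one_right x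
  | succ n ih => exact (ih fun i hi => h i (by omega)).mul_right (h n (by omega))
theorem pr_unitary {f : ℕ → Q} {n : ℕ} (h : ∀ i < n, f i ∈ unitary Q) : pr f n ∈ unitary Q := by
  induction n with
  | zero => exact one_mem _
  | succ n ih => exact mul_mem (ih fun i hi => h i (by omega)) (h n (by omega))
theorem norm_pr_le {f : ℕ → Q} {n : ℕ} (h : ∀ i < n, ‖f i‖ ≤ 1) : ‖pr f n‖ ≤ 1 := by
  induction n with
  | zero => exact norm_le_of_unitary (one_mem _)
  | succ n ih =>
    exact (norm_mul_le _ _).trans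
      (mul_le_one₀ (ih fun i hi => h i (by omega)) (norm_nonneg _) (h n (by omega)))
theorem one_sub_pr (f : ℕ → Q) (n : ℕ) :
    1 - pr f n = ∑ j ∈ Finset.range n, pr f j * (1 - f j) := by
  induction n with
  | zero => simp [pr_zero]
  | succ n ih =>
    rw [Finset.sum_range_succ, ← ih, pr_succ, mul_sub, mul_one]
    abel

section blocks

variable {B : ℕ → StarSubalgebra ℂ Q}

theorem pr_mul (hB : Blk B) {f g : ℕ → Q} (hf : ∀ i, f i ∈ B i) (hg : ∀ i, g i ∈ B i) (n : ℕ) :
    pr f n * pr g n = pr (fun i => f i * g i) n := by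
  induction n with
  | zero => exact one_mul _
  | succ n ih =>
    have h1 : Commute (f n) (pr g n) :=
      commute_pr fun i hi => hB n i (by omega) _ (hf n) _ (hg i)
    rw [pr_succ, pr_succ, pr_succ, ← ih, h1.mul_mul_mul_comm]
theorem star_pr (hB : Blk B) {f : ℕ → Q} (hf : ∀ i, f i ∈ B i) (n : ℕ) :
    star (pr f n) = pr (fun i => star (f i)) n := by
  induction n with
  | zero => exact star_one Q
  | succ n ih =>
    have h1 : Commute (star (f n)) (pr (fun i => star (f i)) n) :=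
      commute_pr fun i hi => hB n i (by omega) _ (star_mem (hf n)) _ (star_mem (hf i))
    rw [pr_succ, pr_succ, star_mul, ih, h1.eq]
theorem pr_pow (hB : Blk B) {f : ℕ → Q} (hf : ∀ i, f i ∈ B i) (n m : ℕ) :
    pr f n ^ m = pr (fun i => f i ^ m) n := by
  induction m with
  | zero => simp only [pow_zero, pr_one]
  | succ m ih =>
    rw [pow_succ, ih, pr_mul hB (fun i => pow_mem (hf i) m) hf]
    simp only [pow_succ]
/-- pull out the factor in block `j` -/
theorem pr_split (hB : Blk B) {f : ℕ → Q} (hf : ∀ i, f i ∈ B i) {n j : ℕ} (hj : j < n) :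
    pr f n = pr (Function.update f j 1) n * f j := by
  induction n with
  | zero => omega
  | succ n ih =>
    rcases Nat.lt_succ_iff_lt_or_eq.1 hj with h | rfl
    · rw [pr_succ, pr_succ, ih h, Function.update_of_ne (by omega), mul_assoc, mul_assoc,
        (hB j n (by omega) _ (hf j) _ (hf n)).eq]
    · rw [pr_succ, pr_succ, Function.update_self, mul_one]
      congr 1
      exact pr_congr fun i hi => (Function.update_of_ne (by omega) _ _).symm
theorem commute_pr_update (hB : Blk B) {f : ℕ → Q} (hf : ∀ i, f i ∈ B i) (n j : ℕ) {x : Q}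
    (hx : x ∈ B j) : Commute x (pr (Function.update f j 1) n) := by
  refine commute_pr fun i _ => ?_
  by_cases e : i = j
  · subst e
    rw [Function.update_self]
    exact Commute.one_right x
  · rw [Function.update_of_ne e]
    exact hB j i (Ne.symm e) _ hx _ (hf i)
theorem norm_comm_pr (hB : Blk B) {f : ℕ → Q} (hf : ∀ i, f i ∈ B i) (h1 : ∀ i, ‖f i‖ ≤ 1)
    {e : ℝ} (he : ∀ i, ‖f i - 1‖ ≤ e) (n j : ℕ) {x : Q} (hx : x ∈ B j) :
    ‖pr f n * x - x * pr f n‖ ≤ 2 * e * ‖x‖ := by
  have e0 : 0 ≤ e := (norm_nonneg _).trans (he 0)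
  by_cases hj : j < n
  · have h2 := commute_pr_update hB hf n j hx
    have h3 : ‖pr (Function.update f j 1) n‖ ≤ 1 := norm_pr_le fun i _ => by
      by_cases e : i = j
      · subst e
        rw [Function.update_self]
        exact norm_le_of_unitary (one_mem _)
      · rw [Function.update_of_ne e]
        exact h1 i
    have h4 : pr f n * x - x * pr f n =
        pr (Function.update f j 1) n * ((f j - 1) * x - x * (f j - 1)) := by
      rw [pr_split hB hf hj, ← mul_assoc x, h2.eq]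
      noncomm_ring
    have h5 : ‖(f j - 1) * x - x * (f j - 1)‖ ≤ 2 * e * ‖x‖ := by
      have a1 := (norm_mul_le (f j - 1) x).trans (mul_le_mul_of_nonneg_right (he j) (norm_nonneg x))
      have a2 := (norm_mul_le x (f j - 1)).trans (mul_le_mul_of_nonneg_left (he j) (norm_nonneg x))
      linarith [norm_sub_le ((f j - 1) * x) (x * (f j - 1))]
    rw [h4]
    exact (norm_mul_le _ _).trans ((mul_le_of_le_one_left (norm_nonneg _) h3).trans h5)
  · have h2 : Commute x (pr f n) := commute_pr fun i hi => hB j i (by omega) _ hx _ (hf i)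
    rw [h2.eq, sub_self, norm_zero]
    positivity
theorem alg_comm_sup {A A' C : StarSubalgebra ℂ Q} (h : ∀ x ∈ A, ∀ y ∈ C, Commute x y)
    (h' : ∀ x ∈ A', ∀ y ∈ C, Commute x y) : ∀ x ∈ A ⊔ A', ∀ y ∈ C, Commute x y := by
  have key : ∀ D : StarSubalgebra ℂ Q, (∀ x ∈ D, ∀ y ∈ C, Commute x y) →
      D ≤ StarSubalgebra.centralizer ℂ (C : Set Q) := fun D hD x hx =>
    (StarSubalgebra.mem_centralizer_iff ℂ).2 fun y hy =>
      ⟨(hD x hx y hy).symm.eq, (hD x hx _ (star_mem hy)).symm.eq⟩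
  intro x hx y hy
  exact ((StarSubalgebra.mem_centralizer_iff ℂ).1 (sup_le (key A h) (key A' h') hx) y hy).1.symm

/-- merging blocks in pairs -/
theorem Blk.pair (hB : Blk B) : Blk fun j => B (2 * j) ⊔ B (2 * j + 1) := by
  intro i j hij
  refine alg_comm_sup (fun x hx y hy => ?_) fun x hx y hy => ?_
  · exact (alg_comm_sup (fun u hu v hv => hB _ _ (by omega) u hu v hv)
      (fun u hu v hv => hB _ _ (by omega) u hu v hv) y hy x hx).symm
  · exact (alg_comm_sup (fun u hu v hv => hB _ _ (by omega) u hu v hv)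
      (fun u hu v hv => hB _ _ (by omega) u hu v hv) y hy x hx).symm

end blocks

section PU

variable {ι : Type} [Fintype ι] {q : ι → Q}

theorem PU.of_sum (h1 : ∀ i, IsStarProjection (q i)) (h2 : ∑ i, q i = 1) : PU q := by
  classical
  let _ := CStarAlgebra.spectralOrder Q
  have _ := CStarAlgebra.spectralOrderedRing Q
  refine ⟨h1, h2, fun i j hij => ?_⟩
  have e1 : ∀ k, star (q k * q j) * (q k * q j) = q j * q k * q j := fun k => by
    rw [star_mul, (h1 j).isSelfAdjoint.star_eq, (h1 k).isSelfAdjoint.star_eq, mul_assoc,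
      ← mul_assoc (q k), (h1 k).isIdempotentElem.eq, mul_assoc]
  have e2 : ∑ k ∈ Finset.univ.erase j, star (q k * q j) * (q k * q j) = 0 := by
    have e3 : ∑ k, q j * q k * q j = q j := by
      rw [← Finset.sum_mul, ← Finset.mul_sum, h2, mul_one, (h1 j).isIdempotentElem.eq]
    rw [← Finset.add_sum_erase _ _ (Finset.mem_univ j), (h1 j).isIdempotentElem.eq,
      (h1 j).isIdempotentElem.eq, add_eq_left] at e3
    simpa only [e1] using e3
  have e4 := (Finset.sum_eq_zero_iff_of_nonneg fun k _ => star_mul_self_nonneg _).1 e2 i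
    (Finset.mem_erase.2 ⟨hij, Finset.mem_univ i⟩)
  exact (CStarRing.star_mul_self_eq_zero_iff _).1 e4
theorem PU.map {Q' : Type} [CStarAlgebra Q'] {F : Type} [FunLike F Q Q'] [RingHomClass F Q Q']
    [StarHomClass F Q Q'] (h : PU q) (φ : F) : PU fun i => φ (q i) := by
  refine ⟨fun i => ⟨?_, (h.proj i).isSelfAdjoint.map φ⟩, ?_, fun i j hij => ?_⟩
  · rw [IsIdempotentElem, ← map_mul, (h.proj i).isIdempotentElem.eq]
  · rw [← map_sum, h.sum, map_one]
  · rw [← map_mul, h.orth i j hij, map_zero]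
theorem PU.prod {κ : Type} [Fintype κ] {r : κ → Q} (h : PU q) (h' : PU r)
    (hc : ∀ i j, Commute (q i) (r j)) : PU fun x : ι × κ => q x.1 * r x.2 := by
  refine PU.of_sum (fun x => (h.proj _).mul (h'.proj _) (hc _ _)) ?_
  rw [Fintype.sum_prod_type]
  simp only [← Finset.mul_sum, h'.sum, mul_one, h.sum]
theorem PU.sum_mul_sum (h : PU q) {x y : ι → Q} (hx : ∀ i j, Commute (q i) (x j)) :
    (∑ i, q i * x i) * ∑ i, q i * y i = ∑ i, q i * (x i * y i) := by
  rw [Finset.sum_mul]
  refine Finset.sum_congr rfl fun i _ => ?_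
  rw [Finset.mul_sum, Finset.sum_eq_single i _ (by simp)]
  · rw [(hx i i).symm.mul_mul_mul_comm, (h.proj i).isIdempotentElem.eq]
  · intro j _ hj
    rw [(hx j i).symm.mul_mul_mul_comm, h.orth i j (Ne.symm hj), zero_mul]
theorem PU.star_sum (h : PU q) {x : ι → Q} (hx : ∀ i, Commute (q i) (x i)) :
    star (∑ i, q i * x i) = ∑ i, q i * star (x i) := by
  rw [_root_.star_sum]
  refine Finset.sum_congr rfl fun i _ => ?_
  rw [(hx i).eq, star_mul, (h.proj i).isSelfAdjoint.star_eq]
theorem PU.sum_pow (h : PU q) {x : ι → Q} (hx : ∀ i j, Commute (q i) (x j)) (m : ℕ) :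
    (∑ i, q i * x i) ^ m = ∑ i, q i * x i ^ m := by
  induction m with
  | zero => simp only [pow_zero, mul_one, h.sum]
  | succ m ih =>
    rw [pow_succ', ih, h.sum_mul_sum hx]
    simp only [pow_succ']
theorem alg_le_of_sq {a c : ℝ} (hc : 0 ≤ c) (ha : 0 ≤ a) (h : a * a ≤ c * c) : a ≤ c :=
  (mul_self_le_mul_self_iff ha hc).2 h
/-- `(∑ q x)* (∑ q x) = ∑ (q x)* (q x) ≤ c ^ 2 ∑ q` -/
theorem PU.norm_sum_le (h : PU q) {x : ι → Q} (hx : ∀ i, Commute (q i) (x i)) {c : ℝ}
    (hc : 0 ≤ c) (hx' : ∀ i, ‖q i * x i‖ ≤ c) : ‖∑ i, q i * x i‖ ≤ c := by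
  have e1 : ∀ i j, i ≠ j → star (q i * x i) * (q j * x j) = 0 := fun i j hij => by
    rw [star_mul, (h.proj i).isSelfAdjoint.star_eq, mul_assoc, ← mul_assoc (q i), h.orth i j hij,
      zero_mul, mul_zero]
  have e2 : star (∑ i, q i * x i) * ∑ i, q i * x i = ∑ i, star (q i * x i) * (q i * x i) := by
    rw [_root_.star_sum, Finset.sum_mul]
    refine Finset.sum_congr rfl fun i _ => ?_
    rw [Finset.mul_sum, Finset.sum_eq_single i (fun j _ hj => e1 i j (Ne.symm hj)) (by simp)]
  have e3 : ∀ i, q i * x i * q i = q i * x i := fun i => by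
    rw [mul_assoc, ← (hx i).eq, ← mul_assoc, (h.proj i).isIdempotentElem.eq]
  have e4 : ∀ i, Ps (((c * c : ℝ) : ℂ) • q i - star (q i * x i) * (q i * x i)) := fun i => by
    have a1 : ‖star (q i * x i) * (q i * x i)‖ ≤ c * c := by
      rw [CStarRing.norm_star_mul_self]
      exact mul_self_le_mul_self (norm_nonneg _) (hx' i)
    have a2 := (Ps.of_norm_le (IsSelfAdjoint.star_mul_self _) a1).conj (q i)
    rwa [mul_sub, sub_mul, mul_smul_comm, smul_mul_assoc, mul_one, ← mul_assoc, ← star_mul, e3,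
      mul_assoc, e3, (h.proj i).isSelfAdjoint.star_eq, (h.proj i).isIdempotentElem.eq] at a2
  have e5 := Ps.sum Finset.univ fun i _ => e4 i
  rw [Finset.sum_sub_distrib, ← Finset.smul_sum, h.sum, ← e2] at e5
  have e6 := (Ps.sq _).norm_le e5
  rw [CStarRing.norm_star_mul_self, norm_smul, Complex.norm_real,
    Real.norm_of_nonneg (mul_self_nonneg c)] at e6
  exact alg_le_of_sq hc (norm_nonneg _)
    (e6.trans (mul_le_of_le_one_right (mul_self_nonneg c) (norm_le_of_unitary (one_mem _))))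

end PU

section lift

variable {R D : Type} [CStarAlgebra R] [CStarAlgebra D]

/-- if `φ r = d` put `r' = r * cfc (fun t => min 1 (‖d‖ / √t)) (r* r)`, or rather a continuous
version `‖d‖ / √(max t (‖d‖ ^ 2))` when `d ≠ 0` -/
theorem lift_norm (φ : R →⋆ₐ[ℂ] D) (h : Function.Surjective φ) (d : D) :
    ∃ r, φ r = d ∧ ‖r‖ ≤ ‖d‖ := by
  by_cases hd : d = 0
  · exact ⟨0, by rw [map_zero, hd], by rw [norm_zero, hd, norm_zero]⟩
  obtain ⟨r, rfl⟩ := h d
  have c0 : 0 < ‖φ r‖ := norm_pos_iff.2 hd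
  set c := ‖φ r‖ with hc
  let f : ℝ → ℝ := fun t => c / √(max t (c * c))
  have hp : ∀ t, 0 < max t (c * c) := fun t => lt_max_of_lt_right (mul_pos c0 c0)
  have hf : Continuous f := continuous_const.div (by fun_prop) fun t => (Real.sqrt_pos.2 (hp t)).ne'
  have ha : IsSelfAdjoint (star r * r) := IsSelfAdjoint.star_mul_self r
  refine ⟨r * cfc f (star r * r), ?_, ?_⟩
  · have : Nontrivial D := ⟨_, _, hd⟩
    have hφ : Continuous φ := AddMonoidHomClass.continuous_of_bound φ 1 fun x => by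
      rw [one_mul]
      exact NonUnitalStarAlgHom.norm_apply_le φ x
    rw [map_mul, φ.map_cfc f _ hf.continuousOn hφ ha (ha.map φ), map_mul, map_star]
    have e : cfc f (star (φ r) * φ r) = cfc (fun _ : ℝ => (1 : ℝ)) (star (φ r) * φ r) := by
      refine cfc_congr fun t ht => ?_
      have h1 := spectrum.norm_le_norm_of_mem ht
      rw [CStarRing.norm_star_mul_self] at h1
      have h2 : max t (c * c) = c * c := max_eq_right ((le_abs_self t).trans h1)
      simp only [f, h2, Real.sqrt_mul_self c0.le, div_self c0.ne']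
    rw [e, cfc_const_one ℝ _ (IsSelfAdjoint.star_mul_self _), mul_one]
  · refine alg_le_of_sq c0.le (norm_nonneg _) ?_
    have e : star (r * cfc f (star r * r)) * (r * cfc f (star r * r)) =
        cfc (fun t => f t * t * f t) (star r * r) := by
      rw [cfc_mul _ _ _ (by fun_prop) hf.continuousOn, cfc_mul _ _ _ hf.continuousOn (by fun_prop),
        cfc_id' ℝ _ ha, star_mul, (cfc_predicate f (star r * r)).star_eq]
      simp only [mul_assoc]
    rw [← CStarRing.norm_star_mul_self, e]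
    refine norm_cfc_le (mul_self_nonneg c) fun t ht => ?_
    have t0 : 0 ≤ t := spectrum_star_mul_self_nonneg t ht
    have h1 : f t * t * f t = c * c * (t / max t (c * c)) := by
      have h2 := Real.mul_self_sqrt (hp t).le
      have h3 := (Real.sqrt_pos.2 (hp t)).ne'
      simp only [f]
      rw [← h2, Real.sqrt_mul_self (Real.sqrt_nonneg _)]
      field_simp
    rw [h1, Real.norm_of_nonneg (mul_nonneg (mul_self_nonneg c) (div_nonneg t0 (hp t).le))]
    exact mul_le_of_le_one_right (mul_self_nonneg c) ((div_le_one (hp t)).2 (le_max_left _ _))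
theorem lift_sa (φ : R →⋆ₐ[ℂ] D) (h : Function.Surjective φ) {d : D} (hd : IsSelfAdjoint d) :
    ∃ r, φ r = d ∧ ‖r‖ ≤ ‖d‖ ∧ IsSelfAdjoint r := by
  obtain ⟨r, h1, h2⟩ := lift_norm φ h d
  refine ⟨(1 / 2 : ℂ) • (r + star r), ?_, ?_, ?_⟩
  · rw [map_smul, map_add, map_star, h1, hd.star_eq, ← two_smul ℂ d, smul_smul]
    norm_num
  · have h3 := norm_add_le r (star r)
    rw [norm_star] at h3
    rw [norm_smul]
    norm_num
    linarith
  · rw [IsSelfAdjoint, star_smul, star_add, star_star, add_comm]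
    norm_num
theorem lift_ps (φ : R →⋆ₐ[ℂ] D) (h : Function.Surjective φ) {d : D} (hd : Ps d) :
    ∃ r, φ r = d ∧ ‖r‖ ≤ ‖d‖ ∧ Ps r := by
  obtain ⟨y, rfl⟩ := hd
  obtain ⟨r, h1, h2⟩ := lift_norm φ h y
  refine ⟨star r * r, by rw [map_mul, map_star, h1], ?_, Ps.sq r⟩
  rw [CStarRing.norm_star_mul_self, CStarRing.norm_star_mul_self]
  exact mul_self_le_mul_self (norm_nonneg _) h2

end lift


end Vale.Agent.P095.H
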