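import Vale.Agent.P095.H.Coll

/-! Haar unitaries have no atoms; odd functions; closed generated subalgebras. -/

open Filter Topology
open scoped BoundedContinuousFunction

namespace Vale.Agent.P095.H

variable {G Q : Type} [Group G] [CStarAlgebra Q]

variable {Q' : Type} [CStarAlgebra Q'] {α : G →* (Q ≃⋆ₐ[ℂ] Q)} {T : Set (Q →L[ℂ] ℂ)}
  {π : (ℕ →ᵇ Q) →⋆ₐ[ℂ] Q'} {α' : G →* (Q' ≃⋆ₐ[ℂ] Q')} {T' : Set (Q' →L[ℂ] ℂ)}

theorem rp_sa (V : Q) : IsSelfAdjoint (rp V) := by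
  have h : star (1 / 2 : ℂ) = 1 / 2 := by simp
  rw [IsSelfAdjoint, rp, star_smul, h, star_add, star_star, add_comm]
theorem norm_rp_le (V : Q) : ‖rp V‖ ≤ ‖V‖ := by
  have h := norm_add_le V (star V)
  rw [norm_star] at h
  have h2 : ‖(1 / 2 : ℂ)‖ = 1 / 2 := by simp
  rw [rp, norm_smul, h2]
  linarith
theorem rp_mem {A : StarSubalgebra ℂ Q} {V : Q} (h : V ∈ A) : rp V ∈ A :=
  A.smul_mem (add_mem h (star_mem h)) _
theorem rp_add_rp (V : Q) : rp V + Complex.I • rp (-Complex.I • V) = V := by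
  have h : star (-Complex.I) = Complex.I := by simp
  rw [rp, rp, star_smul, h]
  match_scalars
  · linear_combination (-1 / 2 : ℂ) * Complex.I_mul_I
  · linear_combination (1 / 2 : ℂ) * Complex.I_mul_I
theorem Haar.smul {V : Q} (h : Haar T V) {c : ℂ} (hc : ‖c‖ = 1) : Haar T (c • V) := by
  have h1 : star c * c = 1 := by
    rw [Complex.star_def, Complex.conj_mul', hc]; simp
  refine ⟨⟨?_, ?_⟩, fun m hm τ hτ => ?_⟩
  · rw [star_smul, smul_mul_smul_comm, h1, h.1.1, one_smul]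
  · rw [star_smul, smul_mul_smul_comm, mul_comm c, h1, h.1.2, one_smul]
  · rw [smul_pow, map_smul, h.2 m hm τ hτ, smul_zero]

/-- no atoms, uniformly -/
def NA (T : Set (Q →L[ℂ] ℂ)) (X : Q) : Prop :=
  ∀ (c ε : ℝ), 0 < ε → ∃ δ > 0, ∀ f : ℝ → ℝ, Continuous f → (∀ t, 0 ≤ f t ∧ f t ≤ 1) →
    (∀ t, f t ≠ 0 → |t - c| ≤ δ) → ∀ τ ∈ T, (τ (cfc f X)).re ≤ ε

theorem na_sum_ge {u : ℂ} (hu : ‖u‖ = 1) {M : ℕ} {r : ℝ} (hr : ‖u - 1‖ ≤ r)
    (hMr : M * r ≤ 1 / 2) : (M : ℝ) ^ 2 ≤ 4 * ‖∑ m ∈ Finset.range M, u ^ m‖ ^ 2 := by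
  have hr0 : 0 ≤ r := (norm_nonneg _).trans hr
  have h1 : ∀ m : ℕ, ‖u ^ m - 1‖ ≤ m * r := by
    intro m
    induction m with
    | zero => simp
    | succ m ih =>
      have e : u ^ (m + 1) - 1 = (u ^ m - 1) * u + (u - 1) := by ring
      have h2 := norm_add_le ((u ^ m - 1) * u) (u - 1)
      rw [norm_mul, hu, mul_one] at h2
      rw [e]
      push_cast
      linarith
  have h2 : ‖∑ m ∈ Finset.range M, (u ^ m - 1)‖ ≤ M * (1 / 2) := by
    refine (norm_sum_le _ _).trans ?_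
    have : ∀ m ∈ Finset.range M, ‖u ^ m - 1‖ ≤ 1 / 2 := by
      intro m hm
      have hm' : (m : ℝ) ≤ M := by exact_mod_cast (Finset.mem_range.1 hm).le
      exact (h1 m).trans ((mul_le_mul_of_nonneg_right hm' hr0).trans hMr)
    refine (Finset.sum_le_sum this).trans ?_
    rw [Finset.sum_const, Finset.card_range, nsmul_eq_mul]
  rw [Finset.sum_sub_distrib, Finset.sum_const, Finset.card_range, nsmul_eq_mul, mul_one] at h2
  have h3 := norm_sub_norm_le (M : ℂ) (∑ m ∈ Finset.range M, u ^ m)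
  rw [norm_sub_rev, Complex.norm_natCast] at h3
  have h4 : (M : ℝ) ≤ 2 * ‖∑ m ∈ Finset.range M, u ^ m‖ := by linarith
  have h5 := pow_le_pow_left₀ (Nat.cast_nonneg M) h4 2
  linarith

theorem na_near {z ζ : ℂ} (hz : ‖z‖ = 1) (hζ : ‖ζ‖ = 1) {r : ℝ} (hr : 0 ≤ r)
    (h : |z.re - ζ.re| ≤ r ^ 2 / 2) : ‖star ζ * z - 1‖ ≤ r ∨ ‖ζ * z - 1‖ ≤ r := by
  have h1 : z * starRingEnd ℂ z = 1 := by rw [Complex.mul_conj', hz]; simp
  have h2 : ζ * starRingEnd ℂ ζ = 1 := by rw [Complex.mul_conj', hζ]; simp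
  have e : (star ζ * z - 1) * (ζ * z - 1) = z * (2 * ((z.re - ζ.re : ℝ) : ℂ)) := by
    rw [Complex.star_def, Complex.ofReal_sub, Complex.re_eq_add_conj, Complex.re_eq_add_conj]
    linear_combination z ^ 2 * h2 - h1
  have e2 : ‖star ζ * z - 1‖ * ‖ζ * z - 1‖ ≤ r ^ 2 := by
    rw [← norm_mul, e, norm_mul, hz, norm_mul, Complex.norm_real, Real.norm_eq_abs]
    simp only [Complex.norm_ofNat]
    linarith
  by_contra hc
  push Not at hc
  nlinarith [mul_lt_mul'' hc.1 hc.2 hr hr]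

theorem cfc_rp {V : Q} (hV : IsStarNormal V) {f : ℝ → ℝ} (hf : Continuous f) :
    cfc f (rp V) = cfc (fun z : ℂ => (f z.re : ℂ)) V := by
  have e : rp V = cfc (fun z : ℂ => (1 / 2 : ℂ) • (z + star z)) V := by
    rw [cfc_smul (1 / 2 : ℂ) (fun z : ℂ => z + star z) V, cfc_add V _ _, cfc_id' ℂ V,
      cfc_star_id V, rp]
  rw [cfc_real_eq_complex f (rp_sa V), e, ← cfc_comp' (fun z : ℂ => (f z.re : ℂ)) _ V]
  congr 1
  ext z
  congr 2
  simp
  ring

theorem cfc_sq_sum {V : Q} (hV : IsStarNormal V) (c : ℂ) (M : ℕ) :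
    cfc (fun z : ℂ => ((‖∑ m ∈ Finset.range M, (c * z) ^ m‖ ^ 2 : ℝ) : ℂ)) V =
      star (∑ m ∈ Finset.range M, (c • V) ^ m) * ∑ m ∈ Finset.range M, (c • V) ^ m := by
  have e : ∑ m ∈ Finset.range M, (c • V) ^ m =
      cfc (fun z : ℂ => ∑ m ∈ Finset.range M, (c * z) ^ m) V := by
    have := cfc_sum (fun (m : ℕ) (z : ℂ) => (c * z) ^ m) V (Finset.range M)
    have e1 : (∑ m ∈ Finset.range M, fun z : ℂ => (c * z) ^ m) =
        fun z : ℂ => ∑ m ∈ Finset.range M, (c * z) ^ m := by ext z; simp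
    rw [← e1, this]
    refine Finset.sum_congr rfl fun m _ => ?_
    rw [cfc_pow (fun z : ℂ => c * z) m V, cfc_const_mul_id c V]
  rw [e, ← cfc_star, ← cfc_mul _ _ V]
  congr 1
  ext z
  rw [Complex.star_def, Complex.conj_mul']
  simp

theorem ps_cfc_complex (V : Q) {g : ℂ → ℝ} (hg : Continuous g) (h : ∀ z ∈ spectrum ℂ V, 0 ≤ g z) :
    Ps (cfc (fun z => (g z : ℂ)) V) := by
  refine ⟨cfc (fun z => (√(g z) : ℂ)) V, ?_⟩
  rw [← cfc_star, ← cfc_mul _ _ V]
  refine cfc_congr fun z hz => ?_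
  simp only [Complex.star_def, Complex.conj_ofReal]
  rw [← Complex.ofReal_mul, Real.mul_self_sqrt (h z hz)]

theorem ps_cfc (X : Q) {g : ℝ → ℝ} (hg : Continuous g) (h : ∀ t ∈ spectrum ℝ X, 0 ≤ g t) :
    Ps (cfc g X) := by
  refine ⟨cfc (fun t => √(g t)) X, ?_⟩
  rw [(cfc_predicate (fun t => √(g t)) X).star_eq, ← cfc_mul _ _ X]
  exact cfc_congr fun z hz => (Real.mul_self_sqrt (h z hz)).symm

theorem cfc_comb (V : Q) {a b c : ℂ → ℝ} (ha : Continuous a) (hb : Continuous b)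
    (hc : Continuous c) (M : ℕ) :
    cfc (fun z : ℂ => ((4 * a z + 4 * b z - M ^ 2 * c z : ℝ) : ℂ)) V =
      (4 : ℂ) • cfc (fun z => (a z : ℂ)) V + (4 : ℂ) • cfc (fun z => (b z : ℂ)) V -
        ((M : ℂ) ^ 2) • cfc (fun z => (c z : ℂ)) V := by
  rw [← cfc_const_mul _ _ V, ← cfc_const_mul _ _ V, ← cfc_const_mul _ _ V, ← cfc_add V _ _,
    ← cfc_sub _ _ V]
  congr 1
  ext z
  push_cast
  ring

/-- Let `ζ` be unimodular with real part `c` clamped to `[-1,1]`, `S z = (∑ m < M, z ^ m) / M`,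
`8 δ M ^ 2 ≤ 1`. For `|z| = 1`, `|z - ζ| |z - conj ζ| = 2 |re z - re ζ|`, so `f (re z) ≠ 0` gives
`|conj ζ z - 1| ≤ √(2δ)` or `|ζ z - 1| ≤ √(2δ)`, hence `f (re z) ≤ 4 |S (conj ζ z)|² + 4 |S (ζ z)|²`.
`cfc f (rp V) = cfc (fun z : ℂ => (f z.re : ℂ)) V`, and `τ (S(u)* S(u)) = 1 / M` for Haar `u`. -/
theorem Haar.na (hT : ∀ τ ∈ T, Tr τ) {V : Q} (h : Haar T V) : NA T (rp V) := by
  intro c ε hε
  obtain ⟨M, hM⟩ := exists_nat_gt (8 / ε)
  have hM0 : (0 : ℝ) < M := lt_trans (by positivity) hM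
  set r : ℝ := 1 / (2 * M) with hr
  have hr0 : 0 < r := by positivity
  have hMr : M * r ≤ 1 / 2 := by rw [hr]; field_simp; rfl
  refine ⟨r ^ 2 / 2, by positivity, fun f hf h01 hs τ hτ => ?_⟩
  set c' : ℝ := max (-1) (min 1 c) with hc'
  have c1 : -1 ≤ c' := le_max_left _ _
  have c2 : c' ≤ 1 := max_le (by norm_num) (min_le_left _ _)
  set ζ : ℂ := ⟨c', √(1 - c' ^ 2)⟩ with hζ
  have hζ1 : ‖ζ‖ = 1 := by
    rw [Complex.norm_eq_sqrt_sq_add_sq, hζ]
    simp only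
    rw [Real.sq_sqrt (by nlinarith)]
    simp
  have hV : IsStarNormal V := isStarNormal_of_mem_unitary h.1
  have key : Ps (cfc (fun z : ℂ => ((4 * ‖∑ m ∈ Finset.range M, (star ζ * z) ^ m‖ ^ 2 +
      4 * ‖∑ m ∈ Finset.range M, (ζ * z) ^ m‖ ^ 2 - M ^ 2 * f z.re : ℝ) : ℂ)) V) := by
    refine ps_cfc_complex V (by fun_prop) fun z hz => ?_
    have hz1 : ‖z‖ = 1 := by simpa using spectrum.subset_circle_of_unitary h.1 hz
    by_cases h0 : f z.re = 0
    · rw [h0, mul_zero, sub_zero]; positivity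
    have a1 := hs _ h0
    have a2 : |z.re| ≤ 1 := hz1 ▸ Complex.abs_re_le_norm z
    have a3 : |z.re - ζ.re| ≤ r ^ 2 / 2 := by
      refine le_trans ?_ a1
      have : ζ.re = c' := rfl
      rw [this, hc']
      rw [abs_le] at a2
      rcases le_total 1 c with b | b
      · rw [min_eq_left b, max_eq_right (by norm_num), abs_of_nonpos (by linarith),
          abs_of_nonpos (by linarith)]
        linarith
      · rw [min_eq_right b]
        rcases le_total (-1) c with b' | b'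
        · rw [max_eq_right b']
        · rw [max_eq_left b', abs_of_nonneg (by linarith), abs_of_nonneg (by linarith)]
          linarith
    have a4 : (M : ℝ) ^ 2 * f z.re ≤ M ^ 2 := mul_le_of_le_one_right (by positivity) (h01 _).2
    rcases na_near hz1 hζ1 hr0.le a3 with b | b
    · have := na_sum_ge (by rw [norm_mul, norm_star, hζ1, hz1, one_mul]) b hMr
      have := sq_nonneg ‖∑ m ∈ Finset.range M, (ζ * z) ^ m‖
      linarith
    · have := na_sum_ge (by rw [norm_mul, hζ1, hz1, one_mul]) b hMr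
      have := sq_nonneg ‖∑ m ∈ Finset.range M, (star ζ * z) ^ m‖
      linarith
  have e : cfc (fun z : ℂ => ((4 * ‖∑ m ∈ Finset.range M, (star ζ * z) ^ m‖ ^ 2 +
      4 * ‖∑ m ∈ Finset.range M, (ζ * z) ^ m‖ ^ 2 - M ^ 2 * f z.re : ℝ) : ℂ)) V =
      (4 : ℂ) • (star (∑ m ∈ Finset.range M, (star ζ • V) ^ m) *
        ∑ m ∈ Finset.range M, (star ζ • V) ^ m) +
      (4 : ℂ) • (star (∑ m ∈ Finset.range M, (ζ • V) ^ m) * ∑ m ∈ Finset.range M, (ζ • V) ^ m) -
      ((M : ℂ) ^ 2) • cfc f (rp V) := by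
    rw [cfc_rp hV hf, ← cfc_sq_sum hV, ← cfc_sq_sum hV]
    exact cfc_comb V (by fun_prop) (by fun_prop) (by fun_prop) M
  have hτ' := hT τ hτ
  have fe : ∀ ξ : ℂ, ‖ξ‖ = 1 → τ (star (∑ m ∈ Finset.range M, (ξ • V) ^ m) *
      ∑ m ∈ Finset.range M, (ξ • V) ^ m) = M := by
    intro ξ hξ
    have h' := h.smul hξ
    have := coll_fej hτ' h'.1 (IsSelfAdjoint.one Q)
      (fun m hm => by rw [mul_one]; exact h'.2 m hm τ hτ) M
    rwa [mul_one, hτ'.one, mul_one] at this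
  have k2 := hτ'.re_nonneg key
  rw [e, map_sub, map_add, map_smul, map_smul, map_smul, fe _ hζ1,
    fe _ (by rw [norm_star, hζ1])] at k2
  have k3 : ((4 : ℂ) • (M : ℂ) + (4 : ℂ) • (M : ℂ) - ((M : ℂ) ^ 2) • τ (cfc f (rp V))).re =
      8 * M - M ^ 2 * (τ (cfc f (rp V))).re := by
    have : ((M : ℂ) ^ 2) = ((M ^ 2 : ℝ) : ℂ) := by push_cast; rfl
    rw [this, smul_eq_mul, smul_eq_mul, Complex.sub_re, Complex.re_ofReal_mul]
    simp
    ring
  rw [k3] at k2
  rw [div_lt_iff₀ hε] at hM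
  by_contra hc
  push Not at hc
  nlinarith [mul_lt_mul_of_pos_left hc hM0]

theorem odd_mom {τ : Q →L[ℂ] ℂ} {W x : Q} (hW : W ∈ unitary Q)
    (h1 : ∀ m, 1 ≤ m → τ (x * W ^ m) = 0) (h2 : ∀ m, 1 ≤ m → τ (x * star W ^ m) = 0) (k : ℕ) :
    ∀ i j : ℕ, Odd (i + j + k) → τ (x * (star W ^ i * W ^ j * rp W ^ k)) = 0 := by
  have hc : Commute W (star W) := hW.2.trans hW.1.symm
  induction k with
  | zero =>
    intro i j ho
    rw [pow_zero, mul_one]
    rcases le_total i j with hij | hij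
    · obtain ⟨k, rfl⟩ := Nat.exists_eq_add_of_le hij
      rw [coll_star_pow_mul hW]
      refine h1 k ?_
      rw [Nat.odd_iff] at ho
      omega
    · obtain ⟨k, rfl⟩ := Nat.exists_eq_add_of_le hij
      rw [coll_star_pow_mul' hW]
      refine h2 k ?_
      rw [Nat.odd_iff] at ho
      omega
  | succ k ih =>
    intro i j ho
    have e : x * (star W ^ i * W ^ j * rp W ^ (k + 1)) =
        (1 / 2 : ℂ) • (x * (star W ^ i * W ^ (j + 1) * rp W ^ k) +
          x * (star W ^ (i + 1) * W ^ j * rp W ^ k)) := by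
      have a : star W ^ (i + 1) * W ^ j = star W ^ i * W ^ j * star W := by
        rw [pow_succ, mul_assoc, mul_assoc, (hc.pow_left j).eq]
      rw [pow_succ' (rp W), a, pow_succ W]
      nth_rewrite 1 [rp]
      simp only [smul_mul_assoc, mul_smul_comm, mul_add, add_mul, mul_assoc]
    rw [e, map_smul, map_add, ih i (j + 1) (by rwa [show i + (j + 1) + k = i + j + (k + 1) by ring]),
      ih (i + 1) j (by rwa [show i + 1 + j + k = i + j + (k + 1) by ring]), add_zero, smul_zero]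

theorem abs_le_of_mem_spectrum {X : Q} {c : ℝ} (h : ‖X‖ ≤ c) :
    ∀ t ∈ spectrum ℝ X, |t| ≤ c := by
  intro t ht
  rcases subsingleton_or_nontrivial Q with h0 | h0
  · simp at ht
  · exact (spectrum.norm_le_norm_of_mem ht).trans h

/-- Weierstrass on `[-1,1]`, odd part of the polynomial; `τ (x W ^ i W* ^ j (rp W) ^ k) = 0` when
`i + j + k` is odd, by induction on `k`. -/
theorem odd_zero {τ : Q →L[ℂ] ℂ} {W x : Q} (hW : W ∈ unitary Q)
    (h1 : ∀ m, 1 ≤ m → τ (x * W ^ m) = 0) (h2 : ∀ m, 1 ≤ m → τ (x * star W ^ m) = 0)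
    {g : ℝ → ℝ} (hg : Continuous g) (odd : ∀ t, g (-t) = -g t) : τ (x * cfc g (rp W)) = 0 := by
  have sa := rp_sa W
  have hn : ‖rp W‖ ≤ 1 := (norm_rp_le W).trans (norm_le_of_unitary hW)
  have hp : ∀ p : Polynomial ℝ,
      τ (x * Polynomial.aeval (rp W) p) = τ (x * Polynomial.aeval (-rp W) p) := by
    intro p
    induction p using Polynomial.induction_on' with
    | add p q hp hq => simp only [map_add, mul_add, hp, hq]
    | monomial k a =>
      simp only [Polynomial.aeval_monomial, ← Algebra.smul_def, mul_smul_comm,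
        ContinuousLinearMap.map_smul_of_tower]
      rcases Nat.even_or_odd k with hk | hk
      · rw [hk.neg_pow]
      · have := odd_mom hW h1 h2 k 0 0 (by simpa using hk)
        simp only [pow_zero, one_mul] at this
        rw [hk.neg_pow, mul_neg, map_neg, this, neg_zero]
  have ap : ∀ ε > 0, ‖τ (x * cfc g (rp W))‖ ≤ ‖τ‖ * ‖x‖ * ε := by
    intro ε hε
    obtain ⟨p, hp'⟩ := exists_polynomial_near_of_continuousOn (-1) 1 g hg.continuousOn ε hε
    have b : ∀ Y : Q, IsSelfAdjoint Y → ‖Y‖ ≤ 1 →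
        ‖τ (x * cfc g Y) - τ (x * Polynomial.aeval Y p)‖ ≤ ‖τ‖ * ‖x‖ * ε := by
      intro Y hY hY1
      have b1 : ‖cfc g Y - Polynomial.aeval Y p‖ ≤ ε := by
        rw [← cfc_polynomial p Y, ← cfc_sub _ _ Y]
        refine norm_cfc_le hε.le fun t ht => ?_
        rw [Real.norm_eq_abs, abs_sub_comm]
        exact (hp' t (abs_le.1 (abs_le_of_mem_spectrum hY1 t ht))).le
      rw [← map_sub, ← mul_sub, mul_assoc]
      refine (τ.le_opNorm _).trans (mul_le_mul_of_nonneg_left ?_ (norm_nonneg _))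
      exact (norm_mul_le _ _).trans (mul_le_mul_of_nonneg_left b1 (norm_nonneg _))
    have b1 := b _ sa hn
    have b2 := b _ sa.neg (by rwa [norm_neg])
    have b3 : cfc g (-rp W) = -cfc g (rp W) := by
      rw [← cfc_comp_neg g (rp W), ← cfc_neg]
      exact congrArg (cfc · (rp W)) (funext odd)
    rw [b3, ← hp p, mul_neg, map_neg] at b2
    have b4 := norm_sub_le (τ (x * cfc g (rp W)) - τ (x * Polynomial.aeval (rp W) p))
      (-τ (x * cfc g (rp W)) - τ (x * Polynomial.aeval (rp W) p))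
    have b5 : τ (x * cfc g (rp W)) - τ (x * Polynomial.aeval (rp W) p) -
      (-τ (x * cfc g (rp W)) - τ (x * Polynomial.aeval (rp W) p)) = 2 * τ (x * cfc g (rp W)) := by
      ring
    rw [b5, norm_mul, Complex.norm_ofNat] at b4
    linarith
  refine norm_le_zero_iff.1 (le_of_forall_pos_le_add fun ε hε => ?_)
  have hK : 0 < ‖τ‖ * ‖x‖ + 1 := by positivity
  refine (ap (ε / (‖τ‖ * ‖x‖ + 1)) (by positivity)).trans ?_
  rw [zero_add, ← mul_div_assoc, div_le_iff₀ hK]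
  nlinarith

/-- the closed subalgebra generated by a family -/
noncomputable def gen {ι : Type} (x : ι → Q) : StarSubalgebra ℂ Q :=
  (StarAlgebra.adjoin ℂ (Set.range x)).topologicalClosure

theorem isClosed_gen {ι : Type} (x : ι → Q) : IsClosed (gen x : Set Q) :=
  StarSubalgebra.isClosed_topologicalClosure _
theorem mem_gen {ι : Type} (x : ι → Q) (i : ι) : x i ∈ gen x :=
  StarSubalgebra.le_topologicalClosure _ (StarAlgebra.subset_adjoin ℂ _ ⟨i, rfl⟩)
theorem gen_ind {ι : Type} {x : ι → Q} (W : Submonoid Q) (h1 : ∀ i, x i ∈ W)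
    (h2 : ∀ i, star (x i) ∈ W) (K : Submodule ℂ Q) (cl : IsClosed (K : Set Q))
    (hK : ∀ y ∈ W, y ∈ K) : ∀ y ∈ gen x, y ∈ K := by
  have a : (StarAlgebra.adjoin ℂ (Set.range x) : Set Q) ⊆ K := by
    intro y hy
    have b : y ∈ (Algebra.adjoin ℂ (Set.range x ∪ star (Set.range x))).toSubmodule := hy
    rw [Algebra.adjoin_eq_span] at b
    refine Submodule.span_le.2 (fun z hz => hK z ?_) b
    refine Submonoid.closure_le.2 ?_ hz
    rintro w (⟨i, rfl⟩ | ⟨i, hi⟩)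
    · exact h1 i
    · rw [← star_star w, ← hi]; exact h2 i
  exact fun y hy => closure_minimal a cl hy
theorem gen_zero {ι : Type} {x : ι → Q} (W : Submonoid Q) (h1 : ∀ i, x i ∈ W)
    (h2 : ∀ i, star (x i) ∈ W) (φ : Q →L[ℂ] ℂ) (hφ : ∀ y ∈ W, φ y = 0) : ∀ y ∈ gen x, φ y = 0 :=
  gen_ind W h1 h2 φ.ker φ.isClosed_ker hφ
theorem gen_commute {ι : Type} {x : ι → Q} (hx : ∀ i, x i ∈ unitary Q) {z : Q}
    (h : ∀ i, Commute z (x i)) : ∀ y ∈ gen x, Commute z y := by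
  have hs : ∀ i, Commute z (star (x i)) := fun i => by
    calc z * star (x i) = star (x i) * x i * z * star (x i) := by rw [(hx i).1, one_mul]
      _ = star (x i) * z * (x i * star (x i)) := by
        rw [mul_assoc (star (x i)), ← (h i).eq]; simp only [mul_assoc]
      _ = star (x i) * z := by rw [(hx i).2, mul_one]
  intro y hy
  have := gen_ind (Subalgebra.centralizer ℂ {z}).toSubmonoid (fun i w hw => by
      rw [Set.mem_singleton_iff.1 hw]; exact h i) (fun i w hw => by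
      rw [Set.mem_singleton_iff.1 hw]; exact hs i) (Subalgebra.centralizer ℂ {z}).toSubmodule
      (Set.isClosed_centralizer _) (fun _ h => h) y hy
  exact this z rfl
theorem gen_ca {ι : Type} {x : ι → Q} (hx : ∀ i, x i ∈ unitary Q) (h : ∀ i j, Commute (x i) (x j))
    (hα : ∀ g i, ∃ j, α g (x i) = x j) : CA α (gen x) := by
  refine ⟨fun y hy => gen_commute hx fun i => (gen_commute hx (h i) y hy).symm, fun g => ?_⟩
  have a : ∀ i, α g (x i) ∈ gen x := fun i => by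
    obtain ⟨j, hj⟩ := hα g i
    rw [hj]; exact mem_gen x j
  refine gen_ind ((gen x).comap (α g : Q →⋆ₐ[ℂ] Q)).toSubmonoid a (fun i => ?_)
    ((gen x).comap (α g : Q →⋆ₐ[ℂ] Q)).toSubalgebra.toSubmodule ?_ fun _ h => h
  · have : x i ∈ (gen x).comap (α g : Q →⋆ₐ[ℂ] Q) := a i
    have h2 := star_mem this
    exact h2
  · exact (isClosed_gen x).preimage (StarAlgEquiv.isometry (α g)).continuous

end Vale.Agent.P095.H
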