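import Vale.Agent.P095.H.Rep
import Vale.Agent.P095.H.NoAtom

/-! Labels and bits in the ultrapower. -/

open Filter Topology
open scoped BoundedContinuousFunction

namespace Vale.Agent.P095.H

variable {G Q : Type} [Group G] [CStarAlgebra Q]

variable {Q' : Type} [CStarAlgebra Q'] {α : G →* (Q ≃⋆ₐ[ℂ] Q)} {T : Set (Q →L[ℂ] ℂ)}
  {π : (ℕ →ᵇ Q) →⋆ₐ[ℂ] Q'} {α' : G →* (Q' ≃⋆ₐ[ℂ] Q')} {T' : Set (Q' →L[ℂ] ℂ)}

theorem ev_inv_le {δ : ℝ} (hδ : 0 < δ) : ∀ᶠ n : ℕ in (om : Filter ℕ), 1 / ((n : ℝ) + 1) ≤ δ :=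
  om_le ((tendsto_one_div_add_atTop_nhds_zero_nat (𝕜 := ℝ)).eventually (eventually_le_nhds hδ))

theorem NA.nu (hT : ∀ τ ∈ T, Tr τ) {X : Q} (na : NA T X) (c : ℝ) {u : ℕ → ℝ → ℝ}
    (hu : ∀ n, Continuous (u n)) (h1 : ∀ n t, |u n t| ≤ 1)
    (hs : ∀ (n : ℕ) t, u n t ≠ 0 → |t - c| ≤ 1 / ((n : ℝ) + 1)) : Nu T fun n => cfc (u n) X := by
  intro ε hε
  obtain ⟨δ, hδ, H⟩ := na c (ε ^ 2) (by positivity)
  filter_upwards [ev_inv_le hδ] with n hn τ hτ
  refine (hT τ hτ).n2_le_of hε.le ?_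
  have := hu n
  rw [(cfc_predicate (u n) X).star_eq, ← cfc_mul _ _ X]
  refine H _ (by fun_prop) (fun t => ⟨mul_self_nonneg _, ?_⟩)
    (fun t ht => (hs n t (left_ne_zero_of_mul ht)).trans hn) τ hτ
  exact abs_le_one_iff_mul_self_le_one.1 (h1 n t)

/-- ramps -/
noncomputable def ramp (c : ℝ) (n : ℕ) (t : ℝ) : ℝ := max 0 (min 1 (((n : ℝ) + 1) * (t - c)))

theorem ramp_cont (c : ℝ) (n : ℕ) : Continuous (ramp c n) := by unfold ramp; fun_prop

theorem ramp_mem (c : ℝ) (n : ℕ) (t : ℝ) : 0 ≤ ramp c n t ∧ ramp c n t ≤ 1 :=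
  ⟨le_max_left _ _, max_le zero_le_one (min_le_left _ _)⟩

theorem ramp_zero {c t : ℝ} (n : ℕ) (h : t ≤ c) : ramp c n t = 0 :=
  max_eq_left ((min_le_right _ _).trans
    (mul_nonpos_of_nonneg_of_nonpos (by positivity) (sub_nonpos.2 h)))

theorem ramp_one {c t : ℝ} {n : ℕ} (h : 1 / ((n : ℝ) + 1) ≤ t - c) : ramp c n t = 1 := by
  rw [div_le_iff₀' (by positivity)] at h
  rw [ramp, min_eq_left h, max_eq_right zero_le_one]

theorem exists_step (hU : UP α T π α' T') {X : Q} (na : NA T X) (c : ℝ) :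
    ∃ H : Q', Rp π (fun n => cfc (ramp c n) X) H ∧ IsStarProjection H := by
  obtain ⟨H, hH⟩ := Rp.of_bdd π (fun n => cfc (ramp c n) X) 1 fun n =>
    norm_cfc_le zero_le_one fun t _ => by
      rw [Real.norm_eq_abs, abs_of_nonneg (ramp_mem c n t).1]; exact (ramp_mem c n t).2
  refine ⟨H, hH, ?_, hH.sa fun n => cfc_predicate _ X⟩
  refine hU.eq_of (hH.mul hH) hH ?_
  have e : (fun n => cfc (ramp c n) X * cfc (ramp c n) X - cfc (ramp c n) X) =
      fun n => cfc (fun t => ramp c n t * ramp c n t - ramp c n t) X := by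
    funext n
    have := ramp_cont c n
    rw [cfc_sub _ _ X, cfc_mul _ _ X]
  rw [e]
  refine na.nu hU.ts.tr c (fun n => by have := ramp_cont c n; fun_prop) (fun n t => ?_)
    fun n t ht => ?_
  · obtain ⟨a, b⟩ := ramp_mem c n t
    rw [abs_le]
    constructor <;> nlinarith
  · rcases le_total t c with h | h
    · simp [ramp_zero n h] at ht
    · rw [abs_of_nonneg (sub_nonneg.2 h)]
      by_contra h2
      simp [ramp_one (not_le.1 h2).le] at ht

/-- `h n t = max 0 (min 1 ((n+1) t))`, `c l = -2 + 3 l / L`,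
`e l n t = h n (t - c l) - h n (t - c (l+1))` is `≥ 0`, sums to `1` on `[-1,1]`, vanishes off
`[c l, c (l+1) + 1/(n+1)]`, and `0 ≤ e - e² ≤ b (c l) + b (c (l+1))` for bumps as in `NA`.
`E l` is represented by `cfc (e l n) X` (`cfc_mem`); `PU.of_sum`; `UP.norm_le` and `le_of_forall_pos_le_add`. -/
theorem lab1 (hU : UP α T π α' T') {A : StarSubalgebra ℂ Q} (hA : IsClosed (A : Set Q)) {X : Q}
    (hX : X ∈ A) (sa : IsSelfAdjoint X) (h1 : ‖X‖ ≤ 1) (na : NA T X) {L : ℕ} (hL : 0 < L) :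
    ∃ (E : Fin L → Q') (c : Fin L → ℝ), PU E ∧ (∀ l, E l ∈ lft π A) ∧
      ∀ l, ‖E l * (cs π X - (c l : ℂ) • 1)‖ ≤ 3 / L := by
  have hL' : (0 : ℝ) < L := by exact_mod_cast hL
  have d0 : (0 : ℝ) < 3 / L := by positivity
  choose H hH hP using exists_step hU na
  set c : ℕ → ℝ := fun l => -2 + l * (3 / L) with hc
  have cs1 : ∀ l, c (l + 1) = c l + 3 / L := fun l => by simp only [hc]; push_cast; ring
  have sp := abs_le_of_mem_spectrum h1
  have m1 : ∀ l, H (c l) * H (c (l + 1)) = H (c (l + 1)) := by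
    intro l
    refine hU.eq_of_ev ((hH _).mul (hH _)) (hH _) ?_
    filter_upwards [ev_inv_le d0] with n hn
    have := ramp_cont (c l) n
    have := ramp_cont (c (l + 1)) n
    rw [← cfc_mul _ _ X]
    refine cfc_congr fun t _ => ?_
    rcases le_total t (c (l + 1)) with h | h
    · simp only [ramp_zero n h, mul_zero]
    · rw [ramp_one (c := c l) (by rw [cs1] at h; linarith), one_mul]
  have m0 : H (c 0) = 1 := by
    refine (hH _).unique (Rp.one.congr fun n => ?_)
    rw [← cfc_one ℝ X]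
    refine cfc_congr fun t ht => (ramp_one ?_).symm
    have a := abs_le.1 (sp t ht)
    have b : 1 / ((n : ℝ) + 1) ≤ 1 := by
      rw [div_le_one (by positivity)]; linarith [(Nat.cast_nonneg n : (0 : ℝ) ≤ n)]
    simp only [hc, Nat.cast_zero, zero_mul]
    linarith
  have mL : H (c L) = 0 := by
    refine (hH _).unique (Rp.zero.congr fun n => ?_)
    rw [← cfc_zero ℝ X]
    refine cfc_congr fun t ht => (ramp_zero n ?_).symm
    have a := abs_le.1 (sp t ht)
    have b : (L : ℝ) * (3 / L) = 3 := by field_simp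
    simp only [hc, b]
    linarith
  refine ⟨fun l => H (c l) - H (c (l + 1)), fun l => c l, PU.of_sum
    (fun l => (hP _).sub_of_mul_eq_right (hP _) (m1 l)) ?_, fun l => sub_mem
      ((hH _).mem_lft fun n => cfc_mem (hs := hA) _ hX)
      ((hH _).mem_lft fun n => cfc_mem (hs := hA) _ hX), fun l => ?_⟩
  · rw [Fin.sum_univ_eq_sum_range (fun l => H (c l) - H (c (l + 1))) L, Finset.sum_range_sub', m0,
      mL, sub_zero]
  · refine le_of_forall_pos_le_add fun ε hε => ?_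
    refine hU.norm_le (((hH (c l)).sub (hH (c (l + 1)))).mul ((Rp.const π X).sub
      (Rp.one.smul (c l : ℂ)))) (by positivity) ?_
    filter_upwards [ev_inv_le hε] with n hn
    have := ramp_cont (c l) n
    have := ramp_cont (c (l + 1)) n
    have e : X - (c l : ℂ) • (1 : Q) = cfc (fun t => t - c l) X := by
      rw [cfc_sub _ _ X, cfc_id' ℝ X, cfc_const _ X, Algebra.algebraMap_eq_smul_one,
        Complex.coe_smul]
    rw [e, ← cfc_sub _ _ X, ← cfc_mul _ _ X]
    refine norm_cfc_le (by positivity) fun t _ => ?_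
    have i0 : 0 < 1 / ((n : ℝ) + 1) := by positivity
    have c2 := cs1 l
    rcases le_total t (c l) with h | h
    · rw [ramp_zero n h, ramp_zero n (h.trans (by linarith)), sub_zero, zero_mul, norm_zero]
      positivity
    rcases le_total (1 / ((n : ℝ) + 1)) (t - c (l + 1)) with h' | h'
    · rw [ramp_one h', ramp_one (h'.trans (by linarith)), sub_self, zero_mul, norm_zero]
      positivity
    obtain ⟨a1, a2⟩ := ramp_mem (c l) n t
    obtain ⟨a3, a4⟩ := ramp_mem (c (l + 1)) n t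
    have a5 : |ramp (c l) n t - ramp (c (l + 1)) n t| ≤ 1 := abs_le.2 ⟨by linarith, by linarith⟩
    rw [norm_mul, Real.norm_eq_abs, Real.norm_eq_abs, abs_of_nonneg (sub_nonneg.2 h)]
    exact (mul_le_of_le_one_left (sub_nonneg.2 h) a5).trans (by linarith)

theorem lab2 (hU : UP α T π α' T') {A : StarSubalgebra ℂ Q} (hA : CA α A)
    (cl : IsClosed (A : Set Q)) {V : Q} (mem : V ∈ A) (haar : Haar T V) {L : ℕ} (hL : 0 < L) :
    ∃ (E : Fin L × Fin L → Q') (z : Fin L × Fin L → ℂ), PU E ∧ (∀ l, E l ∈ lft π A) ∧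
      ∀ l, ‖E l * (cs π V - z l • 1)‖ ≤ 6 / L := by
  have haar' : Haar T (-Complex.I • V) := haar.smul (by simp)
  have mem' : -Complex.I • V ∈ A := A.smul_mem mem _
  obtain ⟨p, a, hp, mp, np⟩ := lab1 hU cl (rp_mem mem) (rp_sa _)
    ((norm_rp_le _).trans (norm_le_of_unitary haar.1)) (haar.na hU.ts.tr) hL
  obtain ⟨q, b, hq, mq, nq⟩ := lab1 hU cl (rp_mem mem') (rp_sa _)
    ((norm_rp_le _).trans (norm_le_of_unitary haar'.1)) (haar'.na hU.ts.tr) hL
  have hc : ∀ i j, Commute (p i) (q j) := fun i j => (hU.ca_lft hA).comm _ (mp i) _ (mq j)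
  refine ⟨fun l => p l.1 * q l.2, fun l => a l.1 + Complex.I * b l.2, hp.prod hq hc,
    fun l => mul_mem (mp _) (mq _), fun l => ?_⟩
  have e0 : cs π V = cs π (rp V) + Complex.I • cs π (rp (-Complex.I • V)) := by
    rw [← map_smul, ← map_add, rp_add_rp]
  have e : p l.1 * q l.2 * (cs π V - (a l.1 + Complex.I * b l.2) • 1) =
      q l.2 * (p l.1 * (cs π (rp V) - (a l.1 : ℂ) • 1)) +
      Complex.I • (p l.1 * (q l.2 * (cs π (rp (-Complex.I • V)) - (b l.2 : ℂ) • 1))) := by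
    rw [← mul_assoc, ← mul_assoc, ← (hc _ _).eq, ← mul_smul_comm, ← mul_add, e0]
    congr 1
    module
  have b1 := (norm_mul_le _ _).trans ((mul_le_of_le_one_left (norm_nonneg _)
    (hq.proj l.2).norm_le).trans (np l.1))
  have b2 := (norm_mul_le _ _).trans ((mul_le_of_le_one_left (norm_nonneg _)
    (hp.proj l.1).norm_le).trans (nq l.2))
  simp only
  rw [e]
  refine (norm_add_le _ _).trans ?_
  rw [norm_smul, Complex.norm_I, one_mul, show (6 : ℝ) / L = 3 / L + 3 / L by ring]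
  exact add_le_add b1 b2

theorem lab3 {A : StarSubalgebra ℂ Q} (hA : CA α A) {P V : Q} (hP : P ∈ A) (h1 : ‖P‖ ≤ 1)
    {z : ℂ} {r : ℝ} (hr : ‖P * (V - z • 1)‖ ≤ r) (g h : G) :
    ‖α g P * α h P * (α g V - α h V)‖ ≤ 2 * r := by
  have hn : ∀ k x, ‖α k x‖ = ‖x‖ := fun k x => StarAlgEquiv.norm_map (α k) x
  have e : α g P * α h P * (α g V - α h V) =
      α h P * α g (P * (V - z • 1)) - α g P * α h (P * (V - z • 1)) := by
    simp only [map_mul, map_sub, map_smul, map_one, ← mul_assoc]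
    rw [← (hA.comm _ (hA.inv g _ hP) _ (hA.inv h _ hP)).eq, ← mul_sub]
    congr 1
    abel
  have b : ∀ k k', ‖α k P * α k' (P * (V - z • 1))‖ ≤ r := fun k k' =>
    (norm_mul_le _ _).trans (by
      rw [hn, hn]
      exact (mul_le_of_le_one_left (norm_nonneg _) h1).trans hr)
  rw [e]
  refine (norm_sub_le _ _).trans ?_
  linarith [b h g, b g h]

/-- the set of labels -/
abbrev Lab (L : ℕ) : Type := (Fin L × Fin L) × (Fin L × Fin L)

/-- `lab1` for the real and imaginary parts of `V 0`, `V 1`; `PU.prod`; everything commutes in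
`lft π A` (`UP.ca_lft`); apply `α' g` to the estimate of `lab1`. -/
theorem labels (hU : UP α T π α' T') {A : StarSubalgebra ℂ Q} (hA : CA α A)
    (cl : IsClosed (A : Set Q)) {V : Fin 2 → Q} (mem : ∀ i, V i ∈ A) (haar : ∀ i, Haar T (V i))
    {L : ℕ} (hL : 0 < L) : ∃ E : Lab L → Q', PU E ∧ (∀ l, E l ∈ lft π A) ∧ ∀ i g h l,
      ‖α' g (E l) * α' h (E l) * (α' g (cs π (V i)) - α' h (cs π (V i)))‖ ≤ 12 / L := by
  obtain ⟨p, a, hp, mp, np⟩ := lab2 hU hA cl (mem 0) (haar 0) hL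
  obtain ⟨q, b, hq, mq, nq⟩ := lab2 hU hA cl (mem 1) (haar 1) hL
  have ca := hU.ca_lft hA
  have hc : ∀ i j, Commute (p i) (q j) := fun i j => ca.comm _ (mp i) _ (mq j)
  have pu := hp.prod hq hc
  refine ⟨fun l => p l.1 * q l.2, pu, fun l => mul_mem (mp _) (mq _), fun i g h l => ?_⟩
  have key : ∃ z : ℂ, ‖p l.1 * q l.2 * (cs π (V i) - z • 1)‖ ≤ 6 / L := by
    fin_cases i
    · refine ⟨a l.1, ?_⟩
      rw [(hc _ _).eq, mul_assoc]
      exact (norm_mul_le _ _).trans ((mul_le_of_le_one_left (norm_nonneg _)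
        (hq.proj l.2).norm_le).trans (np l.1))
    · refine ⟨b l.2, ?_⟩
      rw [mul_assoc]
      exact (norm_mul_le _ _).trans ((mul_le_of_le_one_left (norm_nonneg _)
        (hp.proj l.1).norm_le).trans (nq l.2))
  obtain ⟨z, hz⟩ := key
  rw [show (12 : ℝ) / L = 2 * (6 / L) by ring]
  exact lab3 ca (mul_mem (mp _) (mq _)) (pu.proj l).norm_le hz g h

/-- `UP.exists_countable`, `W` for `S₀ ∪ star S₀`, `s` represented by
`cfc (fun t => max (-1) (min 1 ((n+1) t))) (rp W)`; `Haar.na` (put `1` in `S₀`) gives `s * s = 1`,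
`odd_zero` gives independence; `α g (cfc f a) = cfc f (α g a)`; `Commute.cfc_real`. -/
theorem IHe.ib (h : IHe α T) (hU : UP α T π α' T') : IB α' T' := by
  intro S hS
  obtain ⟨S₀, hS₀, hrep⟩ := hU.exists_countable hS
  obtain ⟨W, hW, inv, hx⟩ := h (insert 1 (S₀ ∪ star '' S₀)) ((hS₀.union (hS₀.image _)).insert _)
  have haar : Haar T W := ⟨hW, fun m hm τ hτ => by
    simpa using (hx 1 (Set.mem_insert _ _)).2 m hm τ hτ⟩
  have x1 : ∀ x ∈ S₀, x ∈ insert 1 (S₀ ∪ star '' S₀) := fun x hx =>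
    Set.mem_insert_of_mem _ (Or.inl hx)
  have x2 : ∀ x ∈ S₀, star x ∈ insert 1 (S₀ ∪ star '' S₀) := fun x hx =>
    Set.mem_insert_of_mem _ (Or.inr ⟨x, hx, rfl⟩)
  set u : ℕ → ℝ → ℝ := fun n t => max (-1) (min 1 (((n : ℝ) + 1) * t)) with hu
  have uc : ∀ n, Continuous (u n) := fun n => by simp only [hu]; fun_prop
  have u1 : ∀ n t, |u n t| ≤ 1 := fun n t =>
    abs_le.2 ⟨le_max_left _ _, max_le (by norm_num) (min_le_left _ _)⟩
  have uo : ∀ n t, u n (-t) = -u n t := by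
    intro n t
    simp only [hu, mul_neg, max_def, min_def]
    split_ifs <;> linarith
  have sa := rp_sa W
  obtain ⟨s, hs⟩ := Rp.of_bdd π (fun n => cfc (u n) (rp W)) 1 fun n =>
    norm_cfc_le zero_le_one fun t _ => u1 n t
  refine ⟨s, ⟨hs.sa fun n => cfc_predicate _ _, hU.eq_of (hs.mul hs) Rp.one ?_⟩, fun g => ?_,
    fun x hxS => ?_⟩
  · have e : (fun n => cfc (u n) (rp W) * cfc (u n) (rp W) - 1) =
        fun n => cfc (fun t => u n t * u n t - 1) (rp W) := by
      funext n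
      have := uc n
      rw [cfc_sub _ _ (rp W), cfc_mul _ _ (rp W), cfc_const_one ℝ (rp W)]
    rw [e]
    refine (haar.na hU.ts.tr).nu hU.ts.tr 0 (fun n => by have := uc n; fun_prop) (fun n t => ?_)
      fun n t ht => ?_
    · have a := abs_le_one_iff_mul_self_le_one.1 (u1 n t)
      have b := mul_self_nonneg (u n t)
      exact abs_le.2 ⟨by linarith, by linarith⟩
    · rw [sub_zero, le_div_iff₀' (by positivity)]
      by_contra h2
      apply ht
      rcases le_total 0 t with h3 | h3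
      · rw [abs_of_nonneg h3] at h2
        simp only [hu]
        rw [min_eq_left (not_le.1 h2).le, max_eq_right (by norm_num)]
        norm_num
      · rw [abs_of_nonpos h3, mul_neg] at h2
        simp only [hu]
        rw [max_eq_left ((min_le_right _ _).trans (by linarith [not_le.1 h2]))]
        norm_num
  · refine (hU.rp_act hs g).unique (hs.congr fun n => ?_)
    have e : α g (rp W) = rp W := by rw [rp, map_smul, map_add, map_star, inv]
    have := uc n
    rw [StarAlgHomClass.map_cfc (S := ℂ) (α g) (u n) (rp W) (uc n).continuousOn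
      (StarAlgEquiv.isometry (α g)).continuous sa (e.symm ▸ sa), e]
  · obtain ⟨f, hf, mf⟩ := hrep x hxS
    refine ⟨hs.commute hf fun n => Commute.cfc_real ?_ _,
      hU.tr_zero (hf.mul hs) fun ε hε => Eventually.of_forall fun n τ hτ => ?_⟩
    · have a := (hx _ (x2 _ (mf n))).1.star_star
      rw [star_star] at a
      exact (((hx _ (x1 _ (mf n))).1).add_left a).smul_left _
    · rw [odd_zero hW (fun m hm => (hx _ (x1 _ (mf n))).2 m hm τ hτ) (fun m hm => ?_) (uc n) (uo n),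
        norm_zero]
      · exact hε.le
      · have e : f n * star W ^ m = star (W ^ m * star (f n)) := by
          rw [star_mul, star_star, star_pow]
        rw [e, (hU.ts.tr τ hτ).sa, (hU.ts.tr τ hτ).tr, (hx _ (x2 _ (mf n))).2 m hm τ hτ, map_zero]

end Vale.Agent.P095.H
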