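import Vale.Agent.P095.H.Defs

/-! Min-hash. Tokens `Λ × Fin (card I)`; the tokens of `w` are `A w = {(l,k) | k < card (w ⁻¹ l)}`,
`card (A w) = card I`; orders = equivalences (or permutations after numbering the tokens), numbered
by `Fin (P+1)`; `sel p w` is an element of `I` carrying the label of the `p`-minimal token of `A w`.
`card (A w₁ ∩ A w₂) ≥ J.card`. If the minimal token of `U = A w₁ ∪ A w₂` lies in the intersection the
two labels agree. Each token of `U` is minimal for the same number of orders (compose with a swap),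
so the bad fraction is `≤ card (U \\ (A w₁ ∩ A w₂)) / card U ≤ 2 (card I - J.card) / card I`. -/

open Filter Topology
open scoped BoundedContinuousFunction

namespace Vale.Agent.P095.H

variable {G Q : Type} [Group G] [CStarAlgebra Q]

/-- the minimal element of `U` for the ranking `e` -/
noncomputable def mn {X : Type} (e : X → ℕ) (U : Finset X) (h : U.Nonempty) : X :=
  Classical.choose (U.exists_min_image e h)

theorem mn_spec {X : Type} (e : X → ℕ) (U : Finset X) (h : U.Nonempty) :
    mn e U h ∈ U ∧ ∀ b ∈ U, e (mn e U h) ≤ e b :=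
  Classical.choose_spec (U.exists_min_image e h)

theorem mn_eq {X : Type} {e : X → ℕ} (he : Function.Injective e) {U : Finset X} (h : U.Nonempty)
    {a : X} (ha : a ∈ U) (hb : ∀ b ∈ U, e a ≤ e b) : mn e U h = a :=
  he (le_antisymm ((mn_spec e U h).2 a ha) (hb _ (mn_spec e U h).1))

theorem mn_count {X : Type} [Fintype X] [DecidableEq X] {r : X → ℕ} (hr : Function.Injective r)
    {U : Finset X} (h : U.Nonempty) {B : Finset X} (hB : B ⊆ U) :
    (Finset.univ.filter fun s : Equiv.Perm X => mn (r ∘ s) U h ∈ B).card * U.card ≤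
      B.card * Fintype.card (Equiv.Perm X) := by
  set c : X → ℕ := fun a => (Finset.univ.filter fun s : Equiv.Perm X => mn (r ∘ s) U h = a).card
    with hc
  have h1 : ∀ a ∈ U, ∀ b ∈ U, c a ≤ c b := by
    intro a ha b hb
    refine Finset.card_le_card_of_injOn (fun s => s * Equiv.swap a b) ?_
      fun s _ t _ e => mul_right_cancel e
    intro s hs
    simp only [Finset.coe_filter, Finset.mem_univ, true_and, Set.mem_ofPred_eq] at hs ⊢
    refine mn_eq (hr.comp (Equiv.injective _)) h hb fun y hy => ?_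
    have hy' : Equiv.swap a b y ∈ U := by
      rw [Equiv.swap_apply_def]
      split_ifs <;> assumption
    have := (mn_spec (r ∘ s) U h).2 _ hy'
    rw [hs] at this
    simpa using this
  have h2 : ∑ b ∈ U, c b = Fintype.card (Equiv.Perm X) := by
    rw [← Finset.card_univ, Finset.card_eq_sum_card_fiberwise
      (f := fun s : Equiv.Perm X => mn (r ∘ s) U h) (t := U) fun s _ => (mn_spec _ U h).1]
  have h3 : (Finset.univ.filter fun s : Equiv.Perm X => mn (r ∘ s) U h ∈ B).card ≤
      ∑ a ∈ B, c a := by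
    rw [Finset.card_eq_sum_card_fiberwise (f := fun s : Equiv.Perm X => mn (r ∘ s) U h) (t := B)
      (s := Finset.univ.filter fun s : Equiv.Perm X => mn (r ∘ s) U h ∈ B)
      fun s hs => (Finset.mem_filter.1 hs).2]
    exact Finset.sum_le_sum fun a _ => Finset.card_le_card
      (Finset.filter_subset_filter _ (Finset.subset_univ _))
  refine (Nat.mul_le_mul_right _ h3).trans ?_
  rw [Finset.sum_mul, ← smul_eq_mul, ← Finset.sum_const]
  refine Finset.sum_le_sum fun a ha => ?_
  rw [← h2, mul_comm, ← smul_eq_mul, ← Finset.sum_const]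
  exact Finset.sum_le_sum fun b hb => h1 a (hB ha) b hb

/-- tokens -/
def tok {Λ : Type} [Fintype Λ] (n : ℕ) (c : Λ → ℕ) : Finset (Λ × Fin n) :=
  Finset.univ.filter fun x => (x.2 : ℕ) < c x.1

theorem card_tok {Λ : Type} [Fintype Λ] {n : ℕ} {c : Λ → ℕ} (h : ∀ l, c l ≤ n) :
    (tok n c).card = ∑ l, c l := by
  rw [tok, Finset.card_filter, Fintype.sum_prod_type]
  refine Finset.sum_congr rfl fun l _ => ?_
  simp only
  rw [← Finset.card_filter, Fin.card_filter_val_lt, min_eq_right (h l)]

theorem card_tok_fib {I Λ : Type} [Fintype I] [Fintype Λ] [DecidableEq Λ] (w : I → Λ)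
    (J : Finset I) :
    (tok (Fintype.card I) fun l => (J.filter fun i => w i = l).card).card = J.card := by
  rw [card_tok fun l => Finset.card_le_univ _,
    Finset.card_eq_sum_card_fiberwise (f := w) (s := J) (t := Finset.univ)
      fun _ _ => Finset.mem_univ _]

theorem exists_mh (I Λ : Type) [Fintype I] [Nonempty I] [Fintype Λ] [DecidableEq Λ] :
    ∃ (P : ℕ) (sel : Fin (P + 1) → (I → Λ) → I), MH P sel := by
  classical
  set A : (I → Λ) → Finset (Λ × Fin (Fintype.card I)) := fun w =>
    tok (Fintype.card I) fun l => (Finset.univ.filter fun i => w i = l).card with hA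
  have cA : ∀ w, (A w).card = Fintype.card I := fun w => card_tok_fib w Finset.univ
  have nA : ∀ w, (A w).Nonempty := fun w => by
    rw [← Finset.card_pos, cA]; exact Fintype.card_pos
  obtain ⟨r, hr⟩ := exists_injective_nat (Λ × Fin (Fintype.card I))
  have ex : ∀ (s : Equiv.Perm (Λ × Fin (Fintype.card I))) (w : I → Λ),
      ∃ i, w i = (mn (r ∘ s) (A w) (nA w)).1 := by
    intro s w
    have h1 := (Finset.mem_filter.1 (mn_spec (r ∘ s) (A w) (nA w)).1).2
    obtain ⟨i, hi⟩ := Finset.card_pos.1 (Nat.zero_lt_of_lt h1)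
    exact ⟨i, (Finset.mem_filter.1 hi).2⟩
  choose sel hsel using ex
  obtain ⟨P, hP⟩ : ∃ P, Fintype.card (Equiv.Perm (Λ × Fin (Fintype.card I))) = P + 1 :=
    Nat.exists_eq_add_one.2 Fintype.card_pos
  set φ := (Fintype.equivFinOfCardEq hP).symm
  refine ⟨P, fun p => sel (φ p), fun w₁ w₂ J σ hσ hw => ?_⟩
  have nU : (A w₁ ∪ A w₂).Nonempty := (nA w₁).mono Finset.subset_union_left
  have h1 := mn_count hr nU (B := (A w₁ ∪ A w₂) \ (A w₁ ∩ A w₂)) Finset.sdiff_subset
  have h2 : (Finset.univ.filter fun p => w₁ (sel (φ p) w₁) ≠ w₂ (sel (φ p) w₂)).card ≤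
      (Finset.univ.filter fun s : Equiv.Perm (Λ × Fin (Fintype.card I)) =>
        mn (r ∘ s) (A w₁ ∪ A w₂) nU ∈ (A w₁ ∪ A w₂) \ (A w₁ ∩ A w₂)).card := by
    refine Finset.card_le_card_of_injOn φ ?_ φ.injective.injOn
    intro p hp
    simp only [Finset.coe_filter, Finset.mem_univ, true_and, Set.mem_ofPred_eq] at hp ⊢
    have sp := mn_spec (r ∘ φ p) _ nU
    refine Finset.mem_sdiff.2 ⟨sp.1, fun hm => hp ?_⟩
    rw [Finset.mem_inter] at hm
    have inj : Function.Injective (r ∘ φ p) := hr.comp (Equiv.injective _)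
    rw [hsel _ w₁, hsel _ w₂, mn_eq inj (nA w₁) hm.1 fun b hb => sp.2 b (Finset.mem_union_left _ hb),
      mn_eq inj (nA w₂) hm.2 fun b hb => sp.2 b (Finset.mem_union_right _ hb)]
  have h3 : J.card ≤ (A w₁ ∩ A w₂).card := by
    rw [← card_tok_fib w₁ J]
    refine Finset.card_le_card fun x hx => ?_
    have hx' := (Finset.mem_filter.1 hx).2
    refine Finset.mem_inter.2 ⟨Finset.mem_filter.2 ⟨Finset.mem_univ _, hx'.trans_le ?_⟩,
      Finset.mem_filter.2 ⟨Finset.mem_univ _, hx'.trans_le ?_⟩⟩
    · exact Finset.card_le_card (Finset.filter_subset_filter _ (Finset.subset_univ _))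
    · refine Finset.card_le_card_of_injOn σ (fun i hi => ?_)
        (hσ.mono (Finset.coe_subset.2 (Finset.filter_subset _ _)))
      simp only [Finset.coe_filter, Finset.mem_univ, true_and, Set.mem_ofPred_eq] at hi ⊢
      rw [hw i hi.1, hi.2]
  have h4 := Finset.card_union_add_card_inter (A w₁) (A w₂)
  have h5 : ((A w₁ ∪ A w₂) \ (A w₁ ∩ A w₂)).card + (A w₁ ∩ A w₂).card = (A w₁ ∪ A w₂).card :=
    Finset.card_sdiff_add_card_eq_card Finset.inter_subset_union
  have h6 : Fintype.card I ≤ (A w₁ ∪ A w₂).card :=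
    (cA w₁).symm.trans_le (Finset.card_le_card Finset.subset_union_left)
  rw [cA, cA] at h4
  rw [hP] at h1
  have h7 := (Nat.mul_le_mul h2 h6).trans h1
  have h8 : (((A w₁ ∪ A w₂) \ (A w₁ ∩ A w₂)).card : ℝ) ≤ 2 * ((Fintype.card I : ℝ) - J.card) := by
    have : ((A w₁ ∪ A w₂) \ (A w₁ ∩ A w₂)).card + 2 * J.card ≤ 2 * Fintype.card I := by omega
    have : (((A w₁ ∪ A w₂) \ (A w₁ ∩ A w₂)).card : ℝ) + 2 * J.card ≤ 2 * Fintype.card I := by
      exact_mod_cast this
    linarith
  refine le_trans ?_ (mul_le_mul_of_nonneg_right h8 (by positivity))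
  exact_mod_cast h7

end Vale.Agent.P095.H
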