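import Vale.Agent.P095.H.Rep

/-! Properties going up to and down from the ultrapower.
Up: `exists_countable`, then a constant sequence, or the sequence of the solutions for `ε = 1/(n+1)`.
`IH.up`: enumerate `S` (representatives `f k`) and `G`; at coordinate `n` solve `IHat` for the finite set
`{f k n | k ≤ n}`, the first `n` group elements, `M = n`, `ε = 1/(n+1)`.
Down: `exists_rp`, `exists_rp_sa`, `sm_ev`, `tr_ev` and one coordinate `n` in a finite intersection. -/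

open Filter Topology
open scoped BoundedContinuousFunction

namespace Vale.Agent.P095.H

variable {G Q : Type} [Group G] [CStarAlgebra Q]

variable {Q' : Type} [CStarAlgebra Q'] {α : G →* (Q ≃⋆ₐ[ℂ] Q)} {T : Set (Q →L[ℂ] ℂ)}
  {π : (ℕ →ᵇ Q) →⋆ₐ[ℂ] Q'} {α' : G →* (Q' ≃⋆ₐ[ℂ] Q')} {T' : Set (Q' →L[ℂ] ℂ)}


theorem persist_ev {ε : ℝ} (hε : 0 < ε) : ∀ᶠ n : ℕ in atTop, 1 / ((n : ℝ) + 1) ≤ ε :=
  (tendsto_one_div_add_atTop_nhds_zero_nat (𝕜 := ℝ)).eventually (ge_mem_nhds hε)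

theorem persist_zero (hU : UP α T π α' T') {f g : ℕ → Q} {x y : Q'} (hf : Rp π f x) (hg : Rp π g y)
    (H : ∀ᶠ n : ℕ in atTop, Sm T (f n - g n) (1 / ((n : ℝ) + 1))) : x = y :=
  hU.eq_of hf hg fun _ hε =>
    ((H.and (persist_ev hε)).mono fun _ h => h.1.mono h.2).filter_mono om_le

theorem M2e.m2 (h : M2e Q) (hT : TS α T) : M2 T := by
  have _ := hT
  intro S hS ε hε
  obtain ⟨a, b, ha, hb, hab, hc⟩ := h S hS
  have h0 : Sm T 0 ε := fun τ _ => (Tr.n2_zero τ).trans_le hε.le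
  refine ⟨a, b, ha.1, hb.1, ha.norm_le, hb.norm_le, ?_, ?_, ?_, hc⟩
  · rwa [ha.2, sub_self]
  · rwa [hb.2, sub_self]
  · rwa [hab, neg_add_cancel]

theorem M2.up (h : M2 T) (hU : UP α T π α' T') : M2e Q' := by
  intro S hS
  obtain ⟨S₀, hS₀, hr⟩ := hU.exists_countable hS
  choose a b ha hb na nb h1 h2 h3 h4 using
    fun n : ℕ => h S₀ hS₀ (1 / ((n : ℝ) + 1)) Nat.one_div_pos_of_nat
  obtain ⟨a', ra⟩ := Rp.of_bdd π a 1 na
  obtain ⟨b', rb⟩ := Rp.of_bdd π b 1 nb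
  refine ⟨a', b', ⟨ra.sa ha, persist_zero hU (ra.mul ra) Rp.one (Eventually.of_forall h1)⟩,
    ⟨rb.sa hb, persist_zero hU (rb.mul rb) Rp.one (Eventually.of_forall h2)⟩,
    eq_neg_of_add_eq_zero_left (persist_zero hU ((ra.mul rb).add (rb.mul ra)) Rp.zero
      (Eventually.of_forall fun n => by simpa only [sub_zero] using h3 n)), fun x hx => ?_⟩
  obtain ⟨f, hf, hfS⟩ := hr x hx
  exact ⟨ra.commute hf fun n => (h4 n _ (hfS n)).1, rb.commute hf fun n => (h4 n _ (hfS n)).2⟩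

theorem M2e.up (h : M2e Q) (hU : UP α T π α' T') : M2e Q' := (h.m2 hU.ts).up hU

theorem IB.up (h : IB α T) (hU : UP α T π α' T') : IB α' T' := by
  intro S hS
  obtain ⟨S₀, hS₀, hr⟩ := hU.exists_countable hS
  obtain ⟨s, h1, h2, h3⟩ := h S₀ hS₀
  refine ⟨cs π s, h1.map (cs π), fun g => by rw [hU.act_cs, h2], fun x hx => ?_⟩
  obtain ⟨f, hf, hfS⟩ := hr x hx
  refine ⟨(Rp.const π s).commute hf fun n => (h3 _ (hfS n)).1,
    hU.tr_zero (hf.mul (Rp.const π s)) fun ε hε => Eventually.of_forall fun n τ hτ => ?_⟩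
  rw [(h3 _ (hfS n)).2 τ hτ, norm_zero]
  exact hε.le

theorem IH.up [Countable G] (h : IH α T) (hU : UP α T π α' T') : IHe α' T' := by
  classical
  intro S hS
  obtain ⟨e, he⟩ := (hS.insert 0).exists_eq_range (Set.insert_nonempty _ _)
  choose f hf _ using fun k => hU.exists_rp (e k)
  obtain ⟨γ, hγ⟩ := exists_surjective_nat G
  choose W nW h1 h2 h3 h4 h5 using fun n : ℕ => h ((fun k => f k n) '' Set.Iic n)
    ((Set.finite_Iic n).image _) ((Finset.Iic n).image γ) n (1 / ((n : ℝ) + 1))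
    Nat.one_div_pos_of_nat
  obtain ⟨W', rW⟩ := Rp.of_bdd π W 1 nW
  refine ⟨W', ⟨persist_zero hU (rW.star.mul rW) Rp.one (Eventually.of_forall h1),
    persist_zero hU (rW.mul rW.star) Rp.one (Eventually.of_forall h2)⟩, fun g => ?_, fun x hx => ?_⟩
  · obtain ⟨k, rfl⟩ := hγ g
    exact persist_zero hU (hU.rp_act rW _) rW ((eventually_ge_atTop k).mono fun n hn =>
      h4 n _ (Finset.mem_image_of_mem _ (Finset.mem_Iic.2 hn)))
  · obtain ⟨k, rfl⟩ : x ∈ Set.range e := he ▸ Set.mem_insert_of_mem _ hx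
    refine ⟨persist_zero hU (rW.mul (hf k)) ((hf k).mul rW) ((eventually_ge_atTop k).mono
      fun n hn => h3 n _ ⟨k, hn, rfl⟩), fun m hm =>
        hU.tr_zero ((hf k).mul (rW.pow m)) fun ε hε => Eventually.filter_mono om_le ?_⟩
    filter_upwards [eventually_ge_atTop k, eventually_ge_atTop m, persist_ev hε] with n a1 a2 a3 τ hτ
    exact (h5 n _ ⟨k, a1, rfl⟩ m hm a2 τ hτ).trans a3

theorem IHat.down (hU : UP α T π α' T') {S : Set Q} (hS : S.Finite) {F₀ : Finset G} {M : ℕ}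
    {ε δ : ℝ} (h : IHat α' T' (cs π '' S) F₀ M ε) (hδ : ε < δ) : IHat α T S F₀ M δ := by
  obtain ⟨W, nW, h1, h2, h3, h4, h5⟩ := h
  obtain ⟨f, hf, nf⟩ := hU.exists_rp W
  have e1 := hU.sm_ev ((hf.star.mul hf).sub Rp.one) h1 hδ
  have e2 := hU.sm_ev ((hf.mul hf.star).sub Rp.one) h2 hδ
  have e3 := (eventually_all_finite hS).2 fun x hx =>
    hU.sm_ev ((hf.mul (Rp.const π x)).sub ((Rp.const π x).mul hf)) (h3 _ ⟨x, hx, rfl⟩) hδ
  have e4 := (eventually_all_finset F₀).2 fun g hg =>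
    hU.sm_ev ((hU.rp_act hf g).sub hf) (h4 g hg) hδ
  have e5 := (eventually_all_finite hS).2 fun x hx => (eventually_all_finset (Finset.Icc 1 M)).2
    fun m hm => hU.tr_ev ((Rp.const π x).mul (hf.pow m))
      (h5 _ ⟨x, hx, rfl⟩ m (Finset.mem_Icc.1 hm).1 (Finset.mem_Icc.1 hm).2) hδ
  obtain ⟨n, a1, a2, a3, a4, a5⟩ := (e1.and (e2.and (e3.and (e4.and e5)))).exists
  exact ⟨f n, (nf n).trans nW, a1, a2, a3, a4, fun x hx m m1 m2 =>
    a5 x hx m (Finset.mem_Icc.2 ⟨m1, m2⟩)⟩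

theorem Out.down (hU : UP α T π α' T') {F₀ : Finset G} {ε δ : ℝ} (h : Out α' T' F₀ ε)
    (hδ : ε < δ) : Out α T F₀ δ := by
  obtain ⟨a, b, ha, hb, na, nb, h1, h2, h3, h4⟩ := h
  obtain ⟨f, hf, nf⟩ := hU.exists_rp_sa ha
  obtain ⟨g, hg, ng⟩ := hU.exists_rp_sa hb
  have e1 := hU.sm_ev ((hf.mul hf).sub Rp.one) h1 hδ
  have e2 := hU.sm_ev ((hg.mul hg).sub Rp.one) h2 hδ
  have e3 := hU.sm_ev ((hf.mul hg).add (hg.mul hf)) h3 hδ
  have e4 := (eventually_all_finset F₀).2 fun k hk =>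
    (hU.sm_ev ((hU.rp_act hf k).sub hf) (h4 k hk).1 hδ).and
      (hU.sm_ev ((hU.rp_act hg k).sub hg) (h4 k hk).2 hδ)
  obtain ⟨n, a1, a2, a3, a4⟩ := (e1.and (e2.and (e3.and e4))).exists
  exact ⟨f n, g n, (nf n).2, (ng n).2, (nf n).1.trans na, (ng n).1.trans nb, a1, a2, a3, a4⟩

end Vale.Agent.P095.H
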