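import Vale.Agent.P095.H.Coll

/-! Atoms and the selection estimate. -/

open Filter Topology
open scoped BoundedContinuousFunction

namespace Vale.Agent.P095.H

variable {G Q : Type} [Group G] [CStarAlgebra Q]

variable {Q' : Type} [CStarAlgebra Q'] {α : G →* (Q ≃⋆ₐ[ℂ] Q)} {T : Set (Q →L[ℂ] ℂ)}
  {π : (ℕ →ᵇ Q) →⋆ₐ[ℂ] Q'} {α' : G →* (Q' ≃⋆ₐ[ℂ] Q')} {T' : Set (Q' →L[ℂ] ℂ)}

/-- `Finset.noncommProd`, or induction on the finite type `I` -/
theorem exists_atoms {A : StarSubalgebra ℂ Q} (hA : ∀ x ∈ A, ∀ y ∈ A, Commute x y) {I Λ : Type}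
    [Fintype I] [DecidableEq I] [Fintype Λ] [DecidableEq Λ] {E : I → Λ → Q} (hE : ∀ i, PU (E i))
    (mem : ∀ i l, E i l ∈ A) : ∃ q : (I → Λ) → Q, IsAt E q ∧ ∀ w, q w ∈ A := by
  let _ : CommRing A :=
    { (inferInstance : Ring A) with mul_comm := fun x y => Subtype.ext (hA x x.2 y y.2).eq }
  let e : I → Λ → A := fun i l => ⟨E i l, mem i l⟩
  have hsum : ∀ i, ∑ l, e i l = 1 := fun i => Subtype.ext (by
    rw [AddSubmonoidClass.coe_finsetSum]
    exact (hE i).sum)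
  refine ⟨fun w => ((∏ i, e i (w i) : A) : Q), ⟨PU.of_sum (fun w => ?_) ?_, fun w i l => ?_⟩,
    fun w => (∏ i, e i (w i)).2⟩
  · refine Finset.prod_induction _ (fun x : A => IsStarProjection (x : Q))
      (fun x y hx hy => hx.mul hy (hA x x.2 y y.2)) (IsStarProjection.one Q) fun i _ => ?_
    exact (hE i).proj (w i)
  · rw [← AddSubmonoidClass.coe_finsetSum, ← Fintype.piFinset_univ, ← Finset.prod_univ_sum]
    simp only [hsum, Finset.prod_const_one]
    rfl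
  · have h1 : ((∏ i, e i (w i) : A) : Q) =
        ((∏ j ∈ Finset.univ.erase i, e j (w j) : A) : Q) * E i (w i) := by
      rw [← Finset.prod_erase_mul _ _ (Finset.mem_univ i)]
      rfl
    change ((∏ i, e i (w i) : A) : Q) * E i l = if w i = l then ((∏ i, e i (w i) : A) : Q) else 0
    rw [h1, mul_assoc]
    split_ifs with h
    · rw [← h, ((hE i).proj (w i)).isIdempotentElem.eq]
    · rw [(hE i).orth _ _ h, mul_zero]

theorem IsAt.map {I Λ : Type} [Fintype I] [DecidableEq I] [Fintype Λ] [DecidableEq Λ]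
    {E : I → Λ → Q} {q : (I → Λ) → Q} (h : IsAt E q) (φ : Q ≃⋆ₐ[ℂ] Q) :
    IsAt (fun i l => φ (E i l)) fun w => φ (q w) := by
  refine ⟨h.pu.map φ, fun w i l => ?_⟩
  rw [← map_mul, h.mul]
  split_ifs
  · rfl
  · exact map_zero φ

/-- `r o * q w = 0` unless `w = o ∘ j` (insert `E (j i) (o (j i))`), so `q w = ∑ o ∘ j = w, r o` -/
theorem IsAt.sum {I I' Λ : Type} [Fintype I] [DecidableEq I] [Fintype I'] [DecidableEq I']
    [Fintype Λ] [DecidableEq Λ] {E : I → Λ → Q} (hE : ∀ i l, IsSelfAdjoint (E i l))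
    {r : (I → Λ) → Q} (hr : IsAt E r) (j : I' → I) {q : (I' → Λ) → Q}
    (hq : IsAt (fun i => E (j i)) q) (Φ : (I' → Λ) → Q) :
    ∑ w, q w * Φ w = ∑ o, r o * Φ (o ∘ j) := by
  have h1 : ∀ o w, w ≠ o ∘ j → r o * q w = 0 := by
    intro o w hw
    obtain ⟨i, hi⟩ := Function.ne_iff.1 hw
    have e1 := hr.mul o (j i) (o (j i))
    rw [if_pos rfl] at e1
    have e2 := hq.mul w i (o (j i))
    rw [if_neg (show ¬ w i = o (j i) from hi)] at e2
    have e3 : E (j i) (o (j i)) * q w = 0 := by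
      have e4 := congrArg star e2
      rwa [star_mul, star_zero, (hE _ _).star_eq, (hq.pu.proj w).isSelfAdjoint.star_eq] at e4
    rw [← e1, mul_assoc, e3, mul_zero]
  have h2 : ∀ o, r o * q (o ∘ j) = r o := by
    intro o
    have e1 : r o * ∑ w, q w = r o := by rw [hq.pu.sum, mul_one]
    rw [Finset.mul_sum, Finset.sum_eq_single (o ∘ j) (fun w _ hw => h1 o w hw) (by simp)] at e1
    exact e1
  have h3 : ∀ w, q w * Φ w = ∑ o, r o * q w * Φ w := by
    intro w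
    rw [← Finset.sum_mul, ← Finset.sum_mul, hr.pu.sum, one_mul]
  rw [Finset.sum_congr rfl fun w _ => h3 w, Finset.sum_comm]
  refine Finset.sum_congr rfl fun o _ => ?_
  rw [Finset.sum_eq_single (o ∘ j) (fun w _ hw => by rw [h1 o w hw, zero_mul]) (by simp), h2]

theorem sel_same {I Λ : Type} [Fintype I] [DecidableEq I] [Fintype Λ] [DecidableEq Λ]
    {E : I → Λ → Q} {r : (I → Λ) → Q} (hr : IsAt E r) (a b : I) :
    ∑ l, E a l * E b l = ∑ o, if o a = o b then r o else 0 := by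
  have h1 : ∑ l, E a l * E b l = (∑ o, r o) * ∑ l, E a l * E b l := by rw [hr.pu.sum, one_mul]
  rw [h1, Finset.sum_mul]
  refine Finset.sum_congr rfl fun o _ => ?_
  rw [Finset.mul_sum, Finset.sum_eq_single (o a) (fun l _ hl => ?_) (by simp)]
  · rw [← mul_assoc, hr.mul, if_pos rfl, hr.mul]
    simp only [eq_comm]
  · rw [← mul_assoc, hr.mul, if_neg hl.symm, zero_mul]

/-- the counting consequence of the min-hash property -/
theorem sel_count [DecidableEq G] {Λ : Type} [DecidableEq Λ] (F : Finset G) (hF : F.Nonempty)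
    {P : ℕ} {sel : Fin (P + 1) → (F → Λ) → F} (hs : MH P sel) (h : G) (w₁ w₂ : F → Λ)
    (hw : ∀ g k : F, (g : G) = h * k → w₂ k = w₁ g) :
    ((Finset.univ.filter fun p => w₁ (sel p w₁) ≠ w₂ (sel p w₂)).card : ℝ) ≤
      2 * bd F h / F.card * (P + 1) := by
  classical
  let J : Finset F := Finset.univ.filter fun g => h⁻¹ * (g : G) ∈ F
  let σ : F → F := fun g => if hg : h⁻¹ * (g : G) ∈ F then ⟨_, hg⟩ else g
  have hσ : ∀ g ∈ J, (g : G) = h * σ g := by
    intro g hg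
    have hg' : h⁻¹ * (g : G) ∈ F := (Finset.mem_filter.1 hg).2
    simp only [σ, dif_pos hg', mul_inv_cancel_left]
  have h1 := hs w₁ w₂ J σ (fun g hg g' hg' e => Subtype.ext (by rw [hσ g hg, hσ g' hg', e]))
    fun g hg => hw g (σ g) (hσ g hg)
  have h2 : J.card + bd F h = F.card := by
    have e1 : J.card = (F.filter fun g => h⁻¹ * g ∈ F).card := by
      rw [← Finset.card_map (Function.Embedding.subtype _)]
      congr 1
      ext g
      simp only [J, Finset.mem_map, Finset.mem_filter, Finset.mem_univ, true_and,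
        Function.Embedding.coe_subtype]
      constructor
      · rintro ⟨g, hg, rfl⟩
        exact ⟨g.2, hg⟩
      · rintro ⟨h3, h4⟩
        exact ⟨⟨g, h3⟩, h4, rfl⟩
    rw [e1, bd]
    convert Finset.card_filter_add_card_filter_not (s := F) fun g => h⁻¹ * g ∈ F
  have h3 : (0 : ℝ) < F.card := by exact_mod_cast hF.card_pos
  have h4 : (F.card : ℝ) - J.card = bd F h := by
    rw [← h2]
    push_cast
    ring
  rw [Fintype.card_coe, h4] at h1
  rw [div_mul_eq_mul_div, le_div_iff₀ h3]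
  exact h1

theorem sel_term {I Λ : Type} [Fintype I] [DecidableEq Λ] (t : I → I → ℝ) (c : ℝ)
    (h0 : ∀ g k, 0 ≤ t g k) (hc : ∀ g k, t g k ≤ c) (w₁ w₂ : I → Λ) (g k : I) :
    t g k ≤ (if w₁ g ≠ w₂ k then c else 0) +
      ∑ x : I × I, if w₁ x.1 = w₂ x.2 then t x.1 x.2 else 0 := by
  have h1 : ∀ x : I × I, 0 ≤ if w₁ x.1 = w₂ x.2 then t x.1 x.2 else 0 := fun x => by
    split_ifs
    · exact h0 _ _
    · exact le_rfl
  by_cases h : w₁ g = w₂ k
  · have h2 := Finset.single_le_sum (fun x _ => h1 x) (Finset.mem_univ (g, k))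
    rw [if_pos h] at h2
    rw [if_neg (not_not.2 h), zero_add]
    exact h2
  · rw [if_pos h]
    exact (hc g k).trans (le_add_of_nonneg_right (Finset.sum_nonneg fun x _ => h1 x))

theorem sel_est {I I' Λ : Type} [Fintype I] [DecidableEq I] [Fintype I'] [Fintype Λ]
    [DecidableEq Λ] {E : I → Λ → Q} {r : (I → Λ) → Q} (hr : IsAt E r) (j₁ j₂ : I' → I) {P : ℕ}
    (sel : Fin (P + 1) → (I' → Λ) → I') {b : ℝ}
    (hb : ∀ o : I → Λ, ((Finset.univ.filter fun p => (o ∘ j₁) (sel p (o ∘ j₁)) ≠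
      (o ∘ j₂) (sel p (o ∘ j₂))).card : ℝ) ≤ b * (P + 1))
    {τ : Q →L[ℂ] ℂ} (hτ : Tr τ) (D : Fin (P + 1) → I' → I' → Q) {C δ : ℝ} (hC : 0 ≤ C)
    (hD : ∀ p g k, Ps (D p g k)) (hn : ∀ p g k, ‖D p g k‖ ≤ C / (P + 1))
    (hδ : ∀ g k, (τ ((∑ l, E (j₁ g) l * E (j₂ k) l) * ∑ p, D p g k)).re ≤ δ) :
    ∑ o, ∑ p, (τ (r o * D p (sel p (o ∘ j₁)) (sel p (o ∘ j₂)))).re ≤
      b * C + (Fintype.card I' : ℝ) ^ 2 * δ := by
  have hP : (0 : ℝ) < P + 1 := by positivity
  have hr0 : ∀ o, Ps (r o) := fun o => Ps.proj (hr.pu.proj o)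
  have h1 : ∀ o p, (τ (r o * D p (sel p (o ∘ j₁)) (sel p (o ∘ j₂)))).re ≤
      (if (o ∘ j₁) (sel p (o ∘ j₁)) ≠ (o ∘ j₂) (sel p (o ∘ j₂)) then
        C / (P + 1) * (τ (r o)).re else 0) +
      ∑ x : I' × I', if (o ∘ j₁) x.1 = (o ∘ j₂) x.2 then (τ (r o * D p x.1 x.2)).re else 0 :=
    fun o p => sel_term (fun g k => (τ (r o * D p g k)).re) _
      (fun g k => hτ.re_mul_nonneg (hr0 o) (hD p g k))
      (fun g k => (hτ.re_mul_le (hr0 o) (hD p g k).sa).trans
        (mul_le_mul_of_nonneg_right (hn p g k) (hτ.re_nonneg (hr0 o)))) _ _ _ _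
  refine (Finset.sum_le_sum fun o _ => Finset.sum_le_sum fun p _ => h1 o p).trans ?_
  simp only [Finset.sum_add_distrib]
  refine add_le_add ?_ ?_
  · have h2 : ∀ o : I → Λ, (∑ p, if (o ∘ j₁) (sel p (o ∘ j₁)) ≠ (o ∘ j₂) (sel p (o ∘ j₂)) then
        C / (P + 1) * (τ (r o)).re else 0) ≤ b * C * (τ (r o)).re := by
      intro o
      rw [← Finset.sum_filter, Finset.sum_const, nsmul_eq_mul]
      have h3 := mul_le_mul_of_nonneg_right (hb o)
        (mul_nonneg (div_nonneg hC hP.le) (hτ.re_nonneg (hr0 o)))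
      refine h3.trans (le_of_eq ?_)
      field_simp
    refine (Finset.sum_le_sum fun o _ => h2 o).trans (le_of_eq ?_)
    rw [← Finset.mul_sum, ← Complex.re_sum, ← map_sum, hr.pu.sum, hτ.one, Complex.one_re, mul_one]
  · have h2 : ∀ x : I' × I', (∑ o : I → Λ, ∑ p, if (o ∘ j₁) x.1 = (o ∘ j₂) x.2 then
        (τ (r o * D p x.1 x.2)).re else 0) ≤ δ := by
      intro x
      refine le_trans (le_of_eq ?_) (hδ x.1 x.2)
      rw [sel_same hr, Finset.sum_mul, map_sum, Complex.re_sum]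
      refine Finset.sum_congr rfl fun o _ => ?_
      by_cases ho : o (j₁ x.1) = o (j₂ x.2)
      · simp only [Function.comp_apply, if_pos ho]
        rw [Finset.mul_sum, map_sum, Complex.re_sum]
      · simp [ho]
    have h3 : (∑ o : I → Λ, ∑ p, ∑ x : I' × I', if (o ∘ j₁) x.1 = (o ∘ j₂) x.2 then
        (τ (r o * D p x.1 x.2)).re else 0) = ∑ x : I' × I', ∑ o : I → Λ, ∑ p,
          if (o ∘ j₁) x.1 = (o ∘ j₂) x.2 then (τ (r o * D p x.1 x.2)).re else 0 := by
      rw [Finset.sum_comm (s := (Finset.univ : Finset (I' × I')))]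
      exact Finset.sum_congr rfl fun o _ => Finset.sum_comm
    rw [h3]
    refine (Finset.sum_le_sum fun x _ => h2 x).trans (le_of_eq ?_)
    rw [Finset.sum_const, nsmul_eq_mul, Finset.card_univ, Fintype.card_prod]
    push_cast
    ring

/-- `q` = atoms of `α g E`, `g ∈ F`; `Ω = (F ∪ h F → Λ)`, `r` = atoms, `w₁ o = o` on `F`,
`w₂ o g = o (h g)`. `MH` with `J = {g | h⁻¹ g ∈ F}`, `σ g = h⁻¹ g`. Terms with different labels:
`≤ C / (P+1) τ (r o)` each. Terms with equal labels: bound by the sum over all `(g, k) ∈ F × h F` and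
all `o` with `o g = o k` (all terms are `≥ 0`), and `∑ o g = o k, r o = same α E g k`. -/
theorem select [DecidableEq G] {A : StarSubalgebra ℂ Q} (hA : CA α A) {Λ : Type} [Fintype Λ]
    [DecidableEq Λ] {E : Λ → Q} (hE : PU E) (mem : ∀ l, E l ∈ A) (F : Finset G) (hF : F.Nonempty)
    {P : ℕ} {sel : Fin (P + 1) → (F → Λ) → F} (hs : MH P sel) :
    ∃ q : (F → Λ) → Q, PU q ∧ (∀ w, q w ∈ A) ∧ ∀ h : G, ∃ (Ω : Type) (_ : Fintype Ω) (r : Ω → Q)
      (w₁ w₂ : Ω → F → Λ), PU r ∧ (∀ o, r o ∈ A) ∧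
      (∀ Φ : (F → Λ) → Q, ∑ w, q w * Φ w = ∑ o, r o * Φ (w₁ o)) ∧
      (∀ Φ : (F → Λ) → Q, ∑ w, α h (q w) * Φ w = ∑ o, r o * Φ (w₂ o)) ∧
      ∀ τ : Q →L[ℂ] ℂ, Tr τ → ∀ (D : Fin (P + 1) → G → G → Q) (C δ : ℝ),
        (∀ p g k, Ps (D p g k)) → (∀ p g k, ‖D p g k‖ ≤ C / (P + 1)) →
        (∀ g k, (τ (same α E g k * ∑ p, D p g k)).re ≤ δ) →
        ∑ o, ∑ p, (τ (r o * D p (sel p (w₁ o)) (h * sel p (w₂ o)))).re ≤
          2 * C * bd F h / F.card + F.card ^ 2 * δ := by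
  obtain ⟨q, hq, hqA⟩ := exists_atoms hA.comm (E := fun (g : F) l => α g (E l))
    (fun g => hE.map (α g)) fun g l => hA.inv g _ (mem l)
  refine ⟨q, hq.pu, hqA, fun h => ?_⟩
  let F' : Finset G := F ∪ F.image fun g => h * g
  let j₁ : F → F' := fun g => ⟨g, Finset.mem_union_left _ g.2⟩
  let j₂ : F → F' := fun g => ⟨h * g, Finset.mem_union_right _ (Finset.mem_image_of_mem _ g.2)⟩
  obtain ⟨r, hr, hrA⟩ := exists_atoms hA.comm (E := fun (g : F') l => α g (E l))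
    (fun g => hE.map (α g)) fun g l => hA.inv g _ (mem l)
  have hsa : ∀ (g : F') l, IsSelfAdjoint (α g (E l)) := fun g l =>
    ((hE.map (α g)).proj l).isSelfAdjoint
  refine ⟨F' → Λ, inferInstance, r, fun o => o ∘ j₁, fun o => o ∘ j₂, hr.pu, hrA,
    fun Φ => IsAt.sum hsa hr j₁ hq Φ, fun Φ => IsAt.sum hsa hr j₂ ?_ Φ,
    fun τ hτ D C δ hD hn hδ => ?_⟩
  · have e := hq.map (α h)
    have e1 : (fun (g : F) l => α h (α g (E l))) = fun g l => α (j₂ g) (E l) := by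
      funext g l
      change _ = α (h * g) (E l)
      rw [map_mul α]
      rfl
    rw [e1] at e
    exact e
  · have hP : (0 : ℝ) < P + 1 := by positivity
    have hC : 0 ≤ C := by
      have e := (norm_nonneg _).trans (hn 0 1 1)
      rwa [le_div_iff₀ hP, zero_mul] at e
    have e := sel_est hr j₁ j₂ sel (b := 2 * bd F h / F.card)
      (fun o => sel_count F hF hs h _ _ fun g k hgk => congrArg o (Subtype.ext hgk.symm)) hτ
      (fun p g k => D p g (h * k)) hC (fun p g k => hD p g _) (fun p g k => hn p g _)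
      fun g k => hδ g (h * k)
    rw [Fintype.card_coe] at e
    refine e.trans (le_of_eq ?_)
    ring

end Vale.Agent.P095.H
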