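import Vale.Agent.P095.H.Alg
import Vale.Agent.P133.Quot

/-! The tracial ultrapower.

Plan for `exists_up`: `J` = two-sided ideal of the bounded `x` with `Nu T x` (closed, invariant by
`TS.sm_act`), `P133.exists_quot J` gives `q`; `q.π x = 0 ↔ x ∈ J` by closedness; `α' g` from
`P133.exists_factor` (or directly with `Function.surjInv`), `T'` = all limit functionals
(bounded sequences converge along the ultrafilter; well defined as `‖τ x‖ ≤ n2 τ x`; bounded by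
`lift_norm`). `sep`: if `x ∉ J` there is `ε` such that for almost all `n` some `τ n ∈ T` has
`n2 (τ n) (x n) > ε` (if `T` is empty then `J` is everything); complete the choice arbitrarily. -/

open Filter Topology
open scoped BoundedContinuousFunction

namespace Vale.Agent.P095.H

variable {G Q : Type} [Group G] [CStarAlgebra Q]


/-- the pointwise action on bounded sequences -/
noncomputable def ultAct (φ : Q ≃⋆ₐ[ℂ] Q) : (ℕ →ᵇ Q) →⋆ₐ[ℂ] (ℕ →ᵇ Q) where
  toFun x := BoundedContinuousFunction.ofNormedAddCommGroupDiscrete (fun n => φ (x n)) ‖x‖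
    fun n => (NonUnitalStarAlgHom.norm_apply_le φ (x n)).trans (x.norm_coe_le_norm n)
  map_one' := BoundedContinuousFunction.ext fun _ => map_one φ
  map_mul' x y := BoundedContinuousFunction.ext fun n => map_mul φ (x n) (y n)
  map_zero' := BoundedContinuousFunction.ext fun _ => map_zero φ
  map_add' x y := BoundedContinuousFunction.ext fun n => map_add φ (x n) (y n)
  commutes' c := BoundedContinuousFunction.ext fun n => by
    change φ ((algebraMap ℂ (ℕ →ᵇ Q) c) n) = (algebraMap ℂ (ℕ →ᵇ Q) c) n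
    simp [Algebra.algebraMap_eq_smul_one]
  map_star' x := BoundedContinuousFunction.ext fun n => map_star φ (x n)

theorem ultAct_apply (φ : Q ≃⋆ₐ[ℂ] Q) (x : ℕ →ᵇ Q) (n : ℕ) : ultAct φ x n = φ (x n) := rfl

/-- the ideal of 2-null sequences -/
noncomputable def ultJ {T : Set (Q →L[ℂ] ℂ)} (h : ∀ τ ∈ T, Tr τ) : TwoSidedIdeal (ℕ →ᵇ Q) :=
  TwoSidedIdeal.mk' {x | Nu T x}
    (fun ε hε => Eventually.of_forall fun _ τ _ => (Tr.n2_zero τ).le.trans hε.le)
    (fun {x y} hx hy ε hε => by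
      filter_upwards [hx _ (half_pos hε), hy _ (half_pos hε)] with n h1 h2 τ hτ
      exact ((h τ hτ).n2_add (x n) (y n)).trans (by linarith [h1 τ hτ, h2 τ hτ]))
    (fun {x} hx ε hε => by
      filter_upwards [hx _ hε] with n h1 τ hτ
      exact (Tr.n2_neg τ (x n)).le.trans (h1 τ hτ))
    (fun {x y} hy ε hε => by
      have h0 : 0 < ‖x‖ + 1 := by positivity
      filter_upwards [hy _ (div_pos hε h0)] with n h1 τ hτ
      refine ((h τ hτ).n2_mul_left (x n) (y n)).trans ?_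
      have h2 : ‖x n‖ ≤ ‖x‖ + 1 := (x.norm_coe_le_norm n).trans (by linarith)
      refine (mul_le_mul h2 (h1 τ hτ) (Tr.n2_nonneg _ _) h0.le).trans (le_of_eq ?_)
      field_simp)
    (fun {x y} hx ε hε => by
      have h0 : 0 < ‖y‖ + 1 := by positivity
      filter_upwards [hx _ (div_pos hε h0)] with n h1 τ hτ
      refine ((h τ hτ).n2_mul_right (x n) (y n)).trans ?_
      have h2 : ‖y n‖ ≤ ‖y‖ + 1 := (y.norm_coe_le_norm n).trans (by linarith)
      refine (mul_le_mul (h1 τ hτ) h2 (norm_nonneg _) (div_pos hε h0).le).trans (le_of_eq ?_)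
      field_simp)

theorem mem_ultJ {T : Set (Q →L[ℂ] ℂ)} (h : ∀ τ ∈ T, Tr τ) (x : ℕ →ᵇ Q) :
    x ∈ ultJ h ↔ Nu T x := TwoSidedIdeal.mem_mk' _ _ _ _ _ _ _

theorem ult_lim {τ : ℕ → (Q →L[ℂ] ℂ)} (h : ∀ n, Tr (τ n)) (x : ℕ →ᵇ Q) :
    ∃ c, Tendsto (fun n => τ n (x n)) (om : Filter ℕ) (𝓝 c) := by
  obtain ⟨c, -, hc⟩ := (isCompact_closedBall (0 : ℂ) ‖x‖).ultrafilter_le_nhds
    (om.map fun n => τ n (x n)) (le_principal_iff.2 (mem_map.2 (Eventually.of_forall fun n =>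
      mem_closedBall_zero_iff.2 (((h n).le _).trans (x.norm_coe_le_norm n)))))
  exact ⟨c, hc⟩

theorem ult_ex {T : Set (Q →L[ℂ] ℂ)} (h : ∀ τ ∈ T, Tr τ) {Q' : Type} [CStarAlgebra Q']
    {π : (ℕ →ᵇ Q) →⋆ₐ[ℂ] Q'} (hs : Function.Surjective π) (hk : ∀ x, π x = 0 → Nu T x)
    {τ : ℕ → (Q →L[ℂ] ℂ)} (hτ : ∀ n, τ n ∈ T) : ∃ τ' : Q' →L[ℂ] ℂ,
      ∀ x : ℕ →ᵇ Q, Tendsto (fun n => τ n (x n)) (om : Filter ℕ) (𝓝 (τ' (π x))) := by
  choose L hL using ult_lim fun n => h _ (hτ n)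
  have key : ∀ x, L (Function.surjInv hs (π x)) = L x := by
    intro x
    have h1 := hk (Function.surjInv hs (π x) - x) (by rw [map_sub, Function.surjInv_eq hs, sub_self])
    have h2 : Tendsto (fun n => τ n (Function.surjInv hs (π x) n) - τ n (x n)) (om : Filter ℕ)
        (𝓝 0) := by
      refine Metric.tendsto_nhds.2 fun ε hε => ?_
      filter_upwards [h1 _ (half_pos hε)] with n hn
      rw [dist_zero_right, ← map_sub]
      exact (((h _ (hτ n)).norm_le_n2 _).trans (hn _ (hτ n))).trans_lt (half_lt_self hε)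
    exact sub_eq_zero.1 (tendsto_nhds_unique ((hL _).sub (hL x)) h2)
  let Λ : Q' →ₗ[ℂ] ℂ :=
    { toFun := fun v => L (Function.surjInv hs v)
      map_add' := fun v w => by
        obtain ⟨x, rfl⟩ := hs v
        obtain ⟨y, rfl⟩ := hs w
        rw [← map_add π, key, key, key]
        exact tendsto_nhds_unique (hL _) (((hL x).add (hL y)).congr fun n => (map_add _ _ _).symm)
      map_smul' := fun c v => by
        obtain ⟨x, rfl⟩ := hs v
        rw [← map_smul π, key, key]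
        exact tendsto_nhds_unique (hL _) (((hL x).const_smul c).congr fun n => (map_smul _ _ _).symm) }
  refine ⟨Λ.mkContinuous 1 fun v => ?_, fun x => ?_⟩
  · obtain ⟨r, rfl, hr⟩ := lift_norm π hs v
    change ‖L (Function.surjInv hs (π r))‖ ≤ _
    rw [key, one_mul]
    exact le_of_tendsto' (hL r).norm fun n =>
      (((h _ (hτ n)).le _).trans (r.norm_coe_le_norm n)).trans hr
  · change Tendsto _ _ (𝓝 (L (Function.surjInv hs (π x))))
    rw [key]
    exact hL x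

theorem ult_tr {Q' : Type} [CStarAlgebra Q'] {π : (ℕ →ᵇ Q) →⋆ₐ[ℂ] Q'} (hs : Function.Surjective π)
    {τ : ℕ → (Q →L[ℂ] ℂ)} (h : ∀ n, Tr (τ n)) {τ' : Q' →L[ℂ] ℂ}
    (H : ∀ x : ℕ →ᵇ Q, Tendsto (fun n => τ n (x n)) (om : Filter ℕ) (𝓝 (τ' (π x)))) : Tr τ' := by
  refine ⟨?_, fun v => ?_, fun v => ?_, fun v w => ?_, fun v => ?_⟩
  · rw [← map_one π]
    exact tendsto_nhds_unique (H 1) (tendsto_const_nhds.congr fun n => (h n).one.symm)
  · obtain ⟨x, rfl⟩ := hs v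
    rw [← map_star, ← map_mul]
    exact ge_of_tendsto' ((Complex.continuous_re.tendsto _).comp (H _)) fun n => (h n).pos (x n)
  · obtain ⟨x, rfl⟩ := hs v
    rw [← map_star]
    exact tendsto_nhds_unique (H _) (((Complex.continuous_conj.tendsto _).comp (H x)).congr
      fun n => ((h n).sa (x n)).symm)
  · obtain ⟨x, rfl⟩ := hs v
    obtain ⟨y, rfl⟩ := hs w
    rw [← map_mul, ← map_mul]
    exact tendsto_nhds_unique (H _) ((H _).congr fun n => (h n).tr (y n) (x n))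
  · obtain ⟨r, rfl, hr⟩ := lift_norm π hs v
    exact le_of_tendsto' (H r).norm fun n => (((h n).le _).trans (r.norm_coe_le_norm n)).trans hr

theorem exists_up {α : G →* (Q ≃⋆ₐ[ℂ] Q)} {T : Set (Q →L[ℂ] ℂ)} (h : TS α T) :
    ∃ (Q' : Type) (_ : CStarAlgebra Q') (π : (ℕ →ᵇ Q) →⋆ₐ[ℂ] Q') (α' : G →* (Q' ≃⋆ₐ[ℂ] Q'))
      (T' : Set (Q' →L[ℂ] ℂ)), UP α T π α' T' := by
  obtain ⟨q, hs, h0, hq⟩ := P133.exists_quot (ultJ h.tr)
  have hz : ∀ x : ℕ →ᵇ Q, Nu T x → q.π x = 0 := fun x hx => h0 x ((mem_ultJ h.tr x).2 hx)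
  have hk : ∀ x : ℕ →ᵇ Q, q.π x = 0 → Nu T x := by
    intro x hx ε hε
    obtain ⟨j, hj, h1⟩ := hq x _ (half_pos hε)
    rw [hx, norm_zero, zero_add] at h1
    filter_upwards [(mem_ultJ h.tr j).1 hj _ (half_pos hε)] with n hn τ hτ
    have h2 := (h.tr τ hτ).n2_add ((x - j) n) (j n)
    have h3 := ((h.tr τ hτ).n2_le ((x - j) n)).trans ((x - j).norm_coe_le_norm n)
    have h4 : (x - j) n + j n = x n := sub_add_cancel (x n) (j n)
    rw [h4] at h2
    linarith [hn τ hτ]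
  have hβ : ∀ g : G, ∃ β : q.V →⋆ₐ[ℂ] q.V, ∀ x, β (q.π x) = q.π (ultAct (α g) x) := fun g =>
    P133.exists_factor q { V := q.V, π := q.π.comp (ultAct (α g)) } hs fun x hx =>
      hz _ fun ε hε => (hk x hx ε hε).mono fun n hn => h.sm_act hn g
  choose β hβ using hβ
  have hmul : ∀ g g' v, β (g * g') v = β g (β g' v) := by
    intro g g' v
    obtain ⟨x, rfl⟩ := hs v
    rw [hβ, hβ, hβ]
    congr 1
    ext n
    rw [ultAct_apply, ultAct_apply, ultAct_apply, map_mul]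
    rfl
  have hone : ∀ v, β 1 v = v := by
    intro v
    obtain ⟨x, rfl⟩ := hs v
    rw [hβ]
    congr 1
    ext n
    rw [ultAct_apply, map_one]
    rfl
  let α' : G →* (q.V ≃⋆ₐ[ℂ] q.V) :=
    { toFun := fun g => StarAlgEquiv.ofStarAlgHom (β g) (β g⁻¹)
        (StarAlgHom.ext fun v => (hmul _ _ v).symm.trans (by rw [inv_mul_cancel, hone]; rfl))
        (StarAlgHom.ext fun v => (hmul _ _ v).symm.trans (by rw [mul_inv_cancel, hone]; rfl))
      map_one' := StarAlgEquiv.ext hone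
      map_mul' := fun g g' => StarAlgEquiv.ext (hmul g g') }
  have hα' : ∀ g x, α' g (q.π x) = q.π (ultAct (α g) x) := hβ
  have hex : ∀ τ : ℕ → (Q →L[ℂ] ℂ), (∀ n, τ n ∈ T) → ∃ τ' ∈ {τ' : q.V →L[ℂ] ℂ |
      ∃ τ : ℕ → (Q →L[ℂ] ℂ), (∀ n, τ n ∈ T) ∧
        ∀ x : ℕ →ᵇ Q, Tendsto (fun n => τ n (x n)) (om : Filter ℕ) (𝓝 (τ' (q.π x)))},
      ∀ x : ℕ →ᵇ Q, Tendsto (fun n => τ n (x n)) (om : Filter ℕ) (𝓝 (τ' (q.π x))) := by
    intro τ hτ
    obtain ⟨τ', hτ'⟩ := ult_ex h.tr hs hk hτ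
    exact ⟨τ', ⟨τ, hτ, hτ'⟩, hτ'⟩
  refine ⟨q.V, inferInstance, q.π, α', _, h, ⟨?_, ?_⟩, hs, ?_, fun g x y hy => ?_,
    fun τ' hτ' => hτ', hex⟩
  · rintro τ' ⟨τ, hτ, H⟩
    exact ult_tr hs (fun n => h.tr _ (hτ n)) H
  · rintro τ' ⟨τ, hτ, H⟩ g
    choose σ hσ hσ' using fun n => h.inv _ (hτ n) g
    obtain ⟨σ', h1, h2⟩ := hex σ hσ
    refine ⟨σ', h1, fun v => ?_⟩
    obtain ⟨x, rfl⟩ := hs v
    rw [hα']
    exact tendsto_nhds_unique (h2 x) ((H _).congr fun n => (hσ' n (x n)).symm)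
  · intro v hv
    obtain ⟨x, rfl⟩ := hs v
    refine hz x fun ε hε => ?_
    by_contra hc
    have h1 : ∀ᶠ n in (om : Filter ℕ), ¬ Sm T (x n) ε := Ultrafilter.eventually_not.2 hc
    obtain ⟨τ₀, hτ₀⟩ : ∃ τ₀, τ₀ ∈ T := by
      obtain ⟨n, hn⟩ := h1.exists
      by_contra h2
      exact hn fun τ hτ => absurd ⟨τ, hτ⟩ h2
    have h2 : ∀ n, ∃ τ ∈ T, ¬ Sm T (x n) ε → ε ≤ n2 τ (x n) := by
      intro n
      by_cases h3 : Sm T (x n) ε
      · exact ⟨τ₀, hτ₀, fun h4 => absurd h3 h4⟩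
      · by_contra h4
        refine h3 fun τ hτ => ?_
        by_contra h5
        exact h4 ⟨τ, hτ, fun _ => (not_le.1 h5).le⟩
    choose τ hτ hτ' using h2
    obtain ⟨τ', h3, h4⟩ := hex τ hτ
    have h5 := (Real.continuous_sqrt.tendsto _).comp
      ((Complex.continuous_re.tendsto _).comp (h4 (star x * x)))
    have h6 : ε ≤ n2 τ' (q.π x) := by
      rw [map_mul, map_star] at h5
      exact ge_of_tendsto h5 (h1.mono fun n hn => hτ' n hn)
    exact absurd (h6.trans (hv τ' h3)) (not_le.2 hε)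
  · rw [hα']
    congr 1
    exact BoundedContinuousFunction.ext hy


end Vale.Agent.P095.H
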