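import Vale.Agent.P095.H.LimB
import Vale.Agent.P095.H.Labels
import Vale.Agent.P095.H.Select
import Vale.Agent.P095.H.MinHash
import Vale.Agent.P095.H.Persist
import Vale.Agent.P095.H.Ultra

/-! Stage B: invariant Haar unitaries. -/

open Filter Topology
open scoped BoundedContinuousFunction

namespace Vale.Agent.P095.H

variable {G Q : Type} [Group G] [CStarAlgebra Q]

variable {Q' : Type} [CStarAlgebra Q'] {α : G →* (Q ≃⋆ₐ[ℂ] Q)} {T : Set (Q →L[ℂ] ℂ)}
  {π : (ℕ →ᵇ Q) →⋆ₐ[ℂ] Q'} {α' : G →* (Q' ≃⋆ₐ[ℂ] Q')} {T' : Set (Q' →L[ℂ] ℂ)}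

theorem stB_norm_cs (x : Q) : ‖cs π x‖ ≤ ‖x‖ := NonUnitalStarAlgHom.norm_apply_le (cs π) x

theorem stB_rp (X : Q) : rp (cs π X) = cs π (rp X) := by
  simp only [rp, map_smul, map_add, map_star]

theorem stB_unitary {ι : Type} [Fintype ι] {q u : ι → Q} (hq : PU q) (hu : ∀ i, u i ∈ unitary Q)
    (hc : ∀ i j, Commute (q i) (u j)) : ∑ i, q i * u i ∈ unitary Q := by
  have hc' : ∀ i j, Commute (q i) (star (u j)) := fun i j => by
    have := (hc i j).star_star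
    rwa [(hq.proj i).isSelfAdjoint.star_eq] at this
  constructor
  · rw [hq.star_sum fun i => hc i i, hq.sum_mul_sum hc', ← hq.sum]
    exact Finset.sum_congr rfl fun i _ => by rw [(hu i).1, mul_one]
  · rw [hq.star_sum fun i => hc i i, hq.sum_mul_sum hc, ← hq.sum]
    exact Finset.sum_congr rfl fun i _ => by rw [(hu i).2, mul_one]

theorem stB_sub {ι : Type} [Fintype ι] {q u v : ι → Q} (hq : PU q)
    (hc : ∀ i j, Commute (q i) (u j)) :
    1 - star (∑ i, q i * u i) * ∑ i, q i * v i = ∑ i, q i * (1 - star (u i) * v i) := by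
  have hc' : ∀ i j, Commute (q i) (star (u j)) := fun i j => by
    have := (hc i j).star_star
    rwa [(hq.proj i).isSelfAdjoint.star_eq] at this
  rw [hq.star_sum fun i => hc i i, hq.sum_mul_sum hc']
  simp only [mul_sub, mul_one, Finset.sum_sub_distrib, hq.sum]

section parts

variable {S : Set Q} {P K : ℕ} {A : StarSubalgebra ℂ Q} {V : Fin 2 → Q}
  {U : (Fin (P + 1) → G) → Q} {D : Fin 2 → Fin (P + 1) → G → G → Q}

theorem stB_dif (hU : UP α T π α' T') (hD : DB α T S P K A V U D) (c c' : Fin (P + 1) → G)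
    {r : Q'} (hr : Ps r) (mem : r ∈ lft π A) {τ : Q' →L[ℂ] ℂ} (hτ : τ ∈ T') :
    (τ (r * (1 - star (cs π (U c)) * cs π (U c')))).re ≤
      K * ∑ p, (τ (r * cs π (D 0 p (c p) (c' p) + D 1 p (c p) (c' p)))).re := by
  obtain ⟨X, X1, X2⟩ := hD.dif c c'
  have t := hU.ts'.tr τ hτ
  have h1 := hU.transfer X2 r mem τ hτ
  rw [map_sub, map_sub, map_mul (cs π), map_star, map_one, mul_sub, map_sub, sub_eq_zero] at h1
  have h2 := t.re_mul_nonneg hr (X1.map (cs π))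
  rw [map_sub, map_smul, map_sum, mul_sub, map_sub, mul_smul_comm, map_smul, Finset.mul_sum,
    map_sum, Complex.sub_re, smul_eq_mul, ← Complex.ofReal_natCast, Complex.re_ofReal_mul,
    Complex.re_sum, ← stB_rp, ← t.re_mul_rp hr.sa] at h2
  rw [h1]
  linarith

theorem stB_same (hU : UP α T π α' T') (hD : DB α T S P K A V U D) {L M : ℕ} (hM : 0 < M)
    (hr : (M : ℝ) * (12 / L) ≤ 1 / 2) {E : Lab L → Q'} (hE : PU E) (mem : ∀ l, E l ∈ lft π A)
    (est : ∀ i g h l,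
      ‖α' g (E l) * α' h (E l) * (α' g (cs π (V i)) - α' h (cs π (V i)))‖ ≤ 12 / L)
    {τ : Q' →L[ℂ] ℂ} (hτ : τ ∈ T') (g k : G) :
    (τ (same α' E g k * ∑ p, cs π (D 0 p g k + D 1 p g k))).re ≤ 64 / M := by
  have key : ∀ i, (τ (same α' E g k * cs π (∑ p, D i p g k))).re ≤ 32 / M := by
    intro i
    have h1 := same_small hU.ts' (hU.ca_lft hD.ca) hE mem (UP.cs_mem_lft (hD.mem i))
      (Unitary.map_mem (cs π) (hD.haar i).1) (by positivity) (est i) hM hr (hU.hsh_cs (hD.hsh i))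
      (fun g h => (Ps.sum _ fun p _ => hD.ps i p g h).map (cs π)) g k τ hτ
    have h2 : ‖cs π (∑ p, D i p g k)‖ ≤ 8 := by
      refine (stB_norm_cs _).trans ((norm_sum_le _ _).trans
        ((Finset.sum_le_card_nsmul _ _ _ fun p _ => hD.le i p g k).trans_eq ?_))
      rw [Finset.card_univ, Fintype.card_fin, nsmul_eq_mul]
      push_cast
      field_simp
    refine h1.trans (div_le_div_of_nonneg_right ?_ (Nat.cast_nonneg M))
    linarith
  rw [← map_sum, Finset.sum_add_distrib, map_add, mul_add, map_add, Complex.add_re]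
  have := add_le_add (key 0) (key 1)
  refine this.trans_eq ?_
  ring

theorem stB_mom (hU : UP α T π α' T') (hD : DB α T S P K A V U D) {ι : Type} [Fintype ι]
    {q : ι → Q'} (hq : PU q) (mem : ∀ i, q i ∈ lft π A) (c : ι → Fin (P + 1) → G) {x : Q}
    (hx : x ∈ S) {m : ℕ} (hm : 1 ≤ m) {τ : Q' →L[ℂ] ℂ} (hτ : τ ∈ T') :
    ‖τ (cs π x * (∑ i, q i * cs π (U (c i))) ^ m)‖ ^ 2 ≤ 3 / K * ‖x‖ ^ 2 := by
  obtain ⟨l, l1, l2⟩ := hD.mom m hm
  have t := hU.ts'.tr τ hτ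
  have h1 : ∀ i ∈ Finset.univ, τ (cs π x * (q i * cs π (U (c i)) ^ m)) = l * τ (q i * cs π x) := by
    intro i _
    have h2 := hU.transfer (l2 (c i) x hx) (q i) (mem i) τ hτ
    have h3 : Commute (cs π x) (q i) :=
      UP.commute_lft (fun y hy => ((hD.cS x hx).2 y hy).symm) _ (mem i)
    rw [map_sub, map_mul (cs π), map_pow, map_smul, mul_sub, map_sub, sub_eq_zero, mul_smul_comm,
      map_smul, smul_eq_mul] at h2
    rw [← mul_assoc, h3.eq, mul_assoc, h2]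
  rw [hq.sum_pow fun i j => (UP.commute_lft (hD.cA (c j)) _ (mem i)).symm, Finset.mul_sum, map_sum,
    Finset.sum_congr rfl h1, ← Finset.mul_sum, ← map_sum, ← Finset.sum_mul, hq.sum, one_mul,
    norm_mul, mul_pow]
  exact mul_le_mul l1 (pow_le_pow_left₀ (norm_nonneg _) ((t.le _).trans (stB_norm_cs x)) 2)
    (by positivity) (by positivity)

end parts

/-- `labels`, `select` in `lft π A`, `W = ∑ w, q w * cs π (U fun p => sel p w)`; `PU.sum_mul_sum`,
`PU.sum_pow`, `UP.transfer` for `mom`, `dif`; `n2_sub_unitary`; `select` with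
`D p g k = cs π (D 0 p g k + D 1 p g k)`, `C = 16`, `δ = 64 / M` (`same_small` twice). -/
theorem stageB_core [DecidableEq G] (hU : UP α T π α' T') {S : Set Q} {P K : ℕ}
    {A : StarSubalgebra ℂ Q} {V : Fin 2 → Q} {U : (Fin (P + 1) → G) → Q}
    {D : Fin 2 → Fin (P + 1) → G → G → Q} (hD : DB α T S P K A V U D) (F : Finset G)
    (hF : F.Nonempty) {L M : ℕ} (hL : 0 < L) (hM : 0 < M) (hr : (M : ℝ) * (12 / L) ≤ 1 / 2)
    {sel : Fin (P + 1) → (F → Lab L) → F} (hs : MH P sel) :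
    ∃ W ∈ unitary Q', (∀ x ∈ S, Commute W (cs π x)) ∧
      (∀ h, ∀ τ ∈ T', n2 τ (α' h W - W) ^ 2 ≤
        2 * K * (32 * bd F h / F.card + F.card ^ 2 * (64 / M))) ∧
      ∀ x ∈ S, ∀ m, 1 ≤ m → ∀ τ ∈ T', ‖τ (cs π x * W ^ m)‖ ^ 2 ≤ 3 / K * ‖x‖ ^ 2 := by
  obtain ⟨E, hE, mem, est⟩ := labels hU hD.ca hD.cl hD.mem hD.haar hL
  obtain ⟨q, hq, qm, H⟩ := select (hU.ca_lft hD.ca) hE mem F hF hs
  have uU : ∀ c, cs π (U c) ∈ unitary Q' := fun c => Unitary.map_mem (cs π) (hD.uni c)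
  have cU : ∀ c, ∀ y ∈ lft π A, Commute y (cs π (U c)) := fun c y hy =>
    (UP.commute_lft (hD.cA c) y hy).symm
  have uW := stB_unitary hq (fun w => uU fun p => sel p w) fun i j => cU _ _ (qm i)
  refine ⟨_, uW, fun x hx => ?_, fun h τ hτ => ?_, fun x hx m hm τ hτ =>
    stB_mom hU hD hq qm (fun w p => sel p w) hx hm hτ⟩
  · exact Commute.sum_left _ _ _ fun w _ => Commute.mul_left
      (UP.commute_lft (fun y hy => ((hD.cS x hx).2 y hy).symm) _ (qm w)).symm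
      (((hD.cS x hx).1 _).map (cs π))
  · obtain ⟨Ω, _, r, w₁, w₂, hr', rm, e1, e2, H'⟩ := H h
    have t := hU.ts'.tr τ hτ
    have h1 := H' τ t (fun p g k => cs π (D 0 p g k + D 1 p g k)) 16 (64 / M)
      (fun p g k => ((hD.ps 0 p g k).add (hD.ps 1 p g k)).map (cs π))
      (fun p g k => (stB_norm_cs _).trans ((norm_add_le _ _).trans
        ((add_le_add (hD.le 0 p g k) (hD.le 1 p g k)).trans_eq (by ring))))
      (stB_same hU hD hM hr hE mem est hτ)
    have h2 : α' h (∑ w, q w * cs π (U fun p => sel p w)) =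
        ∑ o, r o * cs π (U fun p => h * sel p (w₂ o)) := by
      rw [map_sum, ← e2 fun w => cs π (U fun p => h * sel p w)]
      exact Finset.sum_congr rfl fun w _ => by rw [map_mul, hU.act_cs, hD.act]
    have h3 := Finset.sum_le_sum fun o (_ : o ∈ Finset.univ) =>
      stB_dif hU hD (fun p => sel p (w₁ o)) (fun p => h * sel p (w₂ o)) (Ps.proj (hr'.proj o))
        (rm o) hτ
    rw [← Tr.n2_neg, neg_sub, t.n2_sub_unitary uW (Unitary.map_mem (α' h) uW), h2,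
      e1 fun w => cs π (U fun p => sel p w), stB_sub hr' fun i j => cU _ _ (rm i), map_sum,
      Complex.re_sum]
    rw [← Finset.mul_sum] at h3
    have h4 := h3.trans (mul_le_mul_of_nonneg_left h1 (Nat.cast_nonneg K))
    refine (mul_le_mul_of_nonneg_left h4 zero_le_two).trans_eq ?_
    ring

theorem stB_ihat [Countable G] (hG : Fol G) (hM : M2e Q) (hU : UP α T π α' T') {Q'' : Type}
    [CStarAlgebra Q''] {π' : (ℕ →ᵇ Q') →⋆ₐ[ℂ] Q''} {α'' : G →* (Q'' ≃⋆ₐ[ℂ] Q'')}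
    {T'' : Set (Q'' →L[ℂ] ℂ)} (hU' : UP α' T' π' α'' T'') {S : Set Q} (hS : S.Finite)
    (F₀ : Finset G) (M₀ : ℕ) {δ : ℝ} (hδ : 0 < δ) :
    IHat α'' T'' (cs π' '' (cs π '' S)) F₀ M₀ δ := by
  classical
  obtain ⟨R, hR⟩ := (hS.image (cs π)).isBounded.exists_norm_le
  obtain ⟨K, hK⟩ := exists_nat_gt (3 * R ^ 2 / δ ^ 2)
  have K0 : (0 : ℝ) < K := lt_of_le_of_lt (by positivity) hK
  obtain ⟨F, hF, hF'⟩ := hG F₀ (δ ^ 2 / (128 * K)) (by positivity)
  have F0 : (0 : ℝ) < F.card := by exact_mod_cast hF.card_pos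
  obtain ⟨M, hM'⟩ := exists_nat_gt (256 * K * (F.card : ℝ) ^ 2 / δ ^ 2)
  have M0 : (0 : ℝ) < M := lt_of_le_of_lt (by positivity) hM'
  have := hF.to_subtype
  obtain ⟨P, sel, hs⟩ := exists_mh F (Lab (24 * M))
  obtain ⟨A, V, U, D, hD⟩ := exists_db hM hU hS.countable P (K := K) (by exact_mod_cast K0)
  have M1 : 0 < M := by exact_mod_cast M0
  obtain ⟨W, uW, h1, h2, h3⟩ := stageB_core hU' hD F hF (by omega) M1 (le_of_eq (by
    push_cast
    field_simp
    norm_num)) hs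
  have z : Sm T'' 0 δ := fun τ _ => (Tr.n2_zero τ).trans_le hδ.le
  refine ⟨W, norm_le_of_unitary uW, by rwa [uW.1, sub_self], by rwa [uW.2, sub_self], ?_,
    fun h hh τ hτ => ?_, ?_⟩
  · rintro _ ⟨x, hx, rfl⟩
    rwa [(h1 x hx).eq, sub_self]
  · refine le_of_sq_le_sq ((h2 h τ hτ).trans ?_) hδ.le
    have a1 : 2 * K * (32 * bd F h / F.card : ℝ) ≤ δ ^ 2 / 2 := by
      have := hF' h hh
      rw [div_mul_eq_mul_div, le_div_iff₀ (by positivity)] at this
      rw [← mul_div_assoc, div_le_iff₀ F0]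
      linarith
    have a2 : 2 * K * ((F.card : ℝ) ^ 2 * (64 / M)) ≤ δ ^ 2 / 2 := by
      rw [div_lt_iff₀ (by positivity)] at hM'
      rw [← mul_div_assoc, ← mul_div_assoc, div_le_iff₀ M0]
      linarith
    linarith
  · rintro _ ⟨x, hx, rfl⟩ m hm - τ hτ
    refine le_of_sq_le_sq ((h3 x hx m hm τ hτ).trans ?_) hδ.le
    have a1 := pow_le_pow_left₀ (norm_nonneg x) (hR x hx) 2
    rw [div_lt_iff₀ (by positivity)] at hK
    rw [div_mul_eq_mul_div, div_le_iff₀ K0]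
    linarith

/-- Choose `K`, then `η`, `F`, `M`, `L = 24 M`, `exists_mh`; three ultrapowers (`M2.up`, `exists_db`,
`stageB_core`), `IHat.down` three times. -/
theorem stageB [Countable G] (hT : TS α T) (hM : M2 T) (hG : Fol G) : IH α T := by
  intro S hS F₀ M ε hε
  obtain ⟨Q₁, _, π₁, α₁, T₁, U₁⟩ := exists_up hT
  obtain ⟨Q₂, _, π₂, α₂, T₂, U₂⟩ := exists_up U₁.ts'
  obtain ⟨Q₃, _, π₃, α₃, T₃, U₃⟩ := exists_up U₂.ts'
  have h3 := stB_ihat hG (hM.up U₁) U₂ U₃ (hS.image (cs π₁)) F₀ M (δ := ε / 4) (by positivity)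
  have h2 := IHat.down U₃ ((hS.image _).image _) h3 (δ := ε / 3) (by linarith)
  have h1 := IHat.down U₂ (hS.image _) h2 (δ := ε / 2) (by linarith)
  exact IHat.down U₁ hS h1 (by linarith)

end Vale.Agent.P095.H
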