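import Vale.Agent.P095.H.LimC
import Vale.Agent.P095.H.StageB

/-! Stage C and the conclusion of part II. -/

open Filter Topology
open scoped BoundedContinuousFunction

namespace Vale.Agent.P095.H

variable {G Q : Type} [Group G] [CStarAlgebra Q]

variable {Q' : Type} [CStarAlgebra Q'] {α : G →* (Q ≃⋆ₐ[ℂ] Q)} {T : Set (Q →L[ℂ] ℂ)}
  {π : (ℕ →ᵇ Q) →⋆ₐ[ℂ] Q'} {α' : G →* (Q' ≃⋆ₐ[ℂ] Q')} {T' : Set (Q' →L[ℂ] ℂ)}

/-- the weight of the order `p` -/
noncomputable def stC_wt (P : ℕ) (p : Fin (P + 1)) : ℝ :=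
  (Finset.univ.filter fun j : Fin (2 ^ (P + 1)) => Fin.ofNat (P + 1) j = p).card / 2 ^ (P + 1)

theorem stC_wt_nonneg (P : ℕ) (p : Fin (P + 1)) : 0 ≤ stC_wt P p := by
  unfold stC_wt
  positivity

theorem stC_sum (P : ℕ) (f : Fin (P + 1) → ℝ) :
    ∑ j : Fin (2 ^ (P + 1)), f (Fin.ofNat (P + 1) j) / 2 ^ (P + 1) = ∑ p, stC_wt P p * f p := by
  rw [← Finset.sum_fiberwise' Finset.univ (fun j : Fin (2 ^ (P + 1)) => Fin.ofNat (P + 1) j)
    fun p => f p / 2 ^ (P + 1)]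
  refine Finset.sum_congr rfl fun p _ => ?_
  rw [Finset.sum_const, nsmul_eq_mul, stC_wt]
  ring

theorem stC_wt_sum (P : ℕ) : ∑ p, stC_wt P p = 1 := by
  have h := stC_sum P fun _ => 1
  simp only [mul_one, Finset.sum_const, Finset.card_univ, Fintype.card_fin, nsmul_eq_mul] at h
  rw [← h]
  push_cast
  field_simp

theorem stC_wt_le (P : ℕ) (p : Fin (P + 1)) : stC_wt P p ≤ 2 / (P + 1) := by
  have h1 : (Finset.univ.filter fun j : Fin (2 ^ (P + 1)) => Fin.ofNat (P + 1) j = p).card ≤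
      (Finset.range (2 ^ (P + 1) / (P + 1) + 1)).card := by
    refine Finset.card_le_card_of_injOn (fun j => j.1 / (P + 1)) (fun j _ => ?_)
      fun j hj j' hj' e => Fin.ext ?_
    · exact Finset.mem_coe.2 (Finset.mem_range.2 (Nat.lt_succ_of_le (Nat.div_le_div_right j.2.le)))
    · have h2 := congrArg Fin.val ((Finset.mem_filter.1 (Finset.mem_coe.1 hj)).2.trans
        (Finset.mem_filter.1 (Finset.mem_coe.1 hj')).2.symm)
      rw [Fin.val_ofNat, Fin.val_ofNat] at h2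
      rw [← Nat.div_add_mod j.1 (P + 1), ← Nat.div_add_mod j'.1 (P + 1), h2]
      exact congrArg (fun x => (P + 1) * x + j'.1 % (P + 1)) e
  rw [Finset.card_range] at h1
  have h2 := Nat.div_mul_le_self (2 ^ (P + 1)) (P + 1)
  have h3 : P + 1 < 2 ^ (P + 1) := Nat.lt_two_pow_self
  have h4 := Nat.mul_le_mul_right (P + 1) h1
  rw [add_mul, one_mul] at h4
  rw [stC_wt, div_le_div_iff₀ (by positivity) (by positivity)]
  exact_mod_cast h4.trans (by omega)

theorem stC_sy {ι : Type} [Fintype ι] {q u : ι → Q} (hq : PU q) (hu : ∀ i, Sy (u i))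
    (hc : ∀ i j, Commute (q i) (u j)) : Sy (∑ i, q i * u i) := by
  constructor
  · rw [IsSelfAdjoint, hq.star_sum fun i => hc i i]
    exact Finset.sum_congr rfl fun i _ => by rw [(hu i).1.star_eq]
  · rw [hq.sum_mul_sum hc, ← hq.sum]
    exact Finset.sum_congr rfl fun i _ => by rw [(hu i).2, mul_one]

theorem stC_n2 {τ : Q →L[ℂ] ℂ} (t : Tr τ) {ι : Type} [Fintype ι] {q u v : ι → Q} (hq : PU q)
    (hu : ∀ i, Sy (u i)) (hv : ∀ i, Sy (v i)) (hc : ∀ i j, Commute (q i) (u j))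
    (hc' : ∀ i j, Commute (q i) (v j)) :
    n2 τ (∑ i, q i * u i - ∑ i, q i * v i) ^ 2 = ∑ i, (τ (q i * dq (u i) (v i))).re := by
  have h1 : ∀ i j, Commute (q i) (u j - v j) := fun i j => (hc i j).sub_right (hc' i j)
  have h2 : ∀ i, star (u i - v i) = u i - v i := fun i => ((hu i).1.sub (hv i).1).star_eq
  rw [t.n2_sq, ← Finset.sum_sub_distrib]
  simp only [← mul_sub]
  rw [hq.star_sum fun i => h1 i i]
  simp only [h2]
  rw [hq.sum_mul_sum h1, map_sum, Complex.re_sum]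
  rfl

theorem stC_same (hU : UP α T π α' T') {A : StarSubalgebra ℂ Q} {V e : Fin 2 → Q}
    (hD : DC α T A V e) {L M : ℕ} (hM : 0 < M) (hr : (M : ℝ) * (12 / L) ≤ 1 / 2)
    {E : Lab L → Q'} (hE : PU E) (mem : ∀ l, E l ∈ lft π A)
    (est : ∀ i g h l,
      ‖α' g (E l) * α' h (E l) * (α' g (cs π (V i)) - α' h (cs π (V i)))‖ ≤ 12 / L)
    {τ : Q' →L[ℂ] ℂ} (hτ : τ ∈ T') (i : Fin 2) (g k : G) :
    (τ (same α' E g k * dq (cs π (α g (e i))) (cs π (α k (e i))))).re ≤ 16 / M := by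
  have s : ∀ g, Sy (α g (e i)) := fun g => (hD.sy i).map (α g)
  have h1 := same_small hU.ts' (hU.ca_lft hD.ca) hE mem (UP.cs_mem_lft (hD.mem i))
    (Unitary.map_mem (cs π) (hD.haar i).1) (by positivity) (est i) hM hr (hU.hsh_cs (hD.hsh i))
    (fun g h => (ps_dq (s g).1 (s h).1).map (cs π)) g k τ hτ
  have h2 := (stB_norm_cs (π := π) _).trans (norm_dq_le (s g) (s k))
  have h3 : cs π (dq (α g (e i)) (α k (e i))) = dq (cs π (α g (e i))) (cs π (α k (e i))) := by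
    rw [dq, dq, map_mul, map_sub]
  rw [← h3]
  refine h1.trans (div_le_div_of_nonneg_right ?_ (Nat.cast_nonneg M))
  linarith

/-- `labels`, `select`; `q'` from `IB.part` with `P + 1 ≤ 2 ^ k`, for the countable set of all
`q w`, `r o`, `α' g (cs π (e i))`, `r o * dq ..` (all `h`); `a = ∑ (j, w), (q' j * q w) *
α' (sel (Fin.ofNat (P+1) j) w) (cs π (e 0))`. `D p g k = (card {j | ofNat j = p} / 2 ^ k) • dq`,
`C = 8`, `δ = 16 / M`. -/
theorem stageC_core [DecidableEq G] [Countable G] (hU : UP α T π α' T') (hB : IB α' T')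
    {A : StarSubalgebra ℂ Q} {V e : Fin 2 → Q} (hD : DC α T A V e) (F : Finset G)
    (hF : F.Nonempty) {L M : ℕ} (hL : 0 < L) (hM : 0 < M) (hr : (M : ℝ) * (12 / L) ≤ 1 / 2)
    {P : ℕ} {sel : Fin (P + 1) → (F → Lab L) → F} (hs : MH P sel) :
    ∃ a : Fin 2 → Q', (∀ i, Sy (a i)) ∧ a 0 * a 1 = -(a 1 * a 0) ∧ ∀ i h, ∀ τ ∈ T',
      n2 τ (α' h (a i) - a i) ^ 2 ≤ 16 * bd F h / F.card + F.card ^ 2 * (16 / M) := by
  obtain ⟨E, hE, mem, est⟩ := labels hU hD.ca hD.cl hD.mem hD.haar hL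
  obtain ⟨q, hq, qm, H⟩ := select (hU.ca_lft hD.ca) hE mem F hF hs
  choose Ω inst r w₁ w₂ hr' rm e1 e2 H' using H
  let u : Fin 2 → G → Q' := fun i g => cs π (α g (e i))
  have su : ∀ i g, Sy (u i g) := fun i g => ((hD.sy i).map (α g)).map (cs π)
  have cu : ∀ i g, ∀ y ∈ lft π A, Commute y (u i g) := fun i g y hy =>
    (UP.commute_lft (hD.cA i g) y hy).symm
  have au : ∀ i h g, α' h (u i g) = u i (h * g) := fun i h g => by
    simp only [u]
    rw [hU.act_cs, map_mul α]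
    rfl
  obtain ⟨q', hq', qi, qs⟩ := hB.part (S := (Set.range q ∪ Set.range fun x : Fin 2 × G =>
      u x.1 x.2) ∪ ((Set.range fun x : Σ h, Ω h => r x.1 x.2) ∪
        Set.range fun x : (Σ h, Ω h) × Fin 2 × G × G =>
          r x.1.1 x.1.2 * dq (u x.2.1 x.2.2.1) (u x.2.1 x.2.2.2)))
    (((Set.countable_range _).union (Set.countable_range _)).union
      ((Set.countable_range _).union (Set.countable_range _))) (P + 1)
  have c1 : ∀ j w, Commute (q' j) (q w) := fun j w => (qs _ (Or.inl (Or.inl ⟨w, rfl⟩)) j).1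
  have c2 : ∀ j i g, Commute (q' j) (u i g) := fun j i g =>
    (qs _ (Or.inl (Or.inr ⟨(i, g), rfl⟩)) j).1
  have c3 : ∀ j h o, Commute (q' j) (r h o) := fun j h o =>
    (qs _ (Or.inr (Or.inl ⟨⟨h, o⟩, rfl⟩)) j).1
  have c4 : ∀ j h o i g k, Commute (q' j) (r h o * dq (u i g) (u i k)) ∧ ∀ τ ∈ T',
      τ (r h o * dq (u i g) (u i k) * q' j) = τ (r h o * dq (u i g) (u i k)) / 2 ^ (P + 1) :=
    fun j h o i g k => qs _ (Or.inr (Or.inr ⟨(⟨h, o⟩, i, g, k), rfl⟩)) j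
  have pq := hq'.prod hq c1
  have c5 : ∀ (x : Fin (2 ^ (P + 1)) × (F → Lab L)) i g, Commute (q' x.1 * q x.2) (u i g) :=
    fun x i g => (c2 _ _ _).mul_left (cu _ _ _ (qm _))
  refine ⟨fun i => ∑ x : Fin (2 ^ (P + 1)) × (F → Lab L),
    q' x.1 * q x.2 * u i (sel (Fin.ofNat (P + 1) x.1) x.2), fun i =>
      stC_sy pq (fun _ => su _ _) fun _ _ => c5 _ _ _, ?_, fun i h τ hτ => ?_⟩
  · rw [pq.sum_mul_sum fun _ _ => c5 _ _ _, pq.sum_mul_sum fun _ _ => c5 _ _ _,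
      ← Finset.sum_neg_distrib]
    refine Finset.sum_congr rfl fun x _ => ?_
    rw [← mul_neg, ← map_mul (cs π), ← map_mul (cs π), ← map_mul (α _), ← map_mul (α _), hD.anti,
      map_neg, map_neg]
  · have t := hU.ts'.tr τ hτ
    have pr' := hq'.prod (hr' h) fun j o => c3 j h o
    have h1 : ∑ x : Fin (2 ^ (P + 1)) × (F → Lab L),
        q' x.1 * q x.2 * u i (sel (Fin.ofNat (P + 1) x.1) x.2) =
        ∑ x : Fin (2 ^ (P + 1)) × Ω h,
          q' x.1 * r h x.2 * u i (sel (Fin.ofNat (P + 1) x.1) (w₁ h x.2)) := by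
      simp only [Fintype.sum_prod_type, mul_assoc, ← Finset.mul_sum]
      exact Finset.sum_congr rfl fun j _ => by
        rw [e1 h fun w => u i (sel (Fin.ofNat (P + 1) j) w)]
    have h2 : α' h (∑ x : Fin (2 ^ (P + 1)) × (F → Lab L),
        q' x.1 * q x.2 * u i (sel (Fin.ofNat (P + 1) x.1) x.2)) =
        ∑ x : Fin (2 ^ (P + 1)) × Ω h,
          q' x.1 * r h x.2 * u i (h * sel (Fin.ofNat (P + 1) x.1) (w₂ h x.2)) := by
      simp only [map_sum, map_mul (α' h), qi, au, Fintype.sum_prod_type, mul_assoc,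
        ← Finset.mul_sum]
      exact Finset.sum_congr rfl fun j _ => by
        rw [e2 h fun w => u i (h * sel (Fin.ofNat (P + 1) j) w)]
    have h3 := H' h τ t (fun p g k => ((stC_wt P p : ℝ) : ℂ) • dq (u i g) (u i k)) 8 (16 / M)
      (fun p g k => (ps_dq (su i g).1 (su i k).1).smul (stC_wt_nonneg P p))
      (fun p g k => by
        rw [norm_smul, Complex.norm_real, Real.norm_of_nonneg (stC_wt_nonneg P p)]
        exact (mul_le_mul (stC_wt_le P p) (norm_dq_le (su i g) (su i k)) (norm_nonneg _)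
          (by positivity)).trans_eq (by ring))
      (fun g k => by
        rw [← Finset.sum_smul, ← Complex.ofReal_sum, stC_wt_sum, Complex.ofReal_one, one_smul]
        exact stC_same hU hD hM hr hE mem est hτ i g k)
    beta_reduce
    rw [← Tr.n2_neg, neg_sub, h2, h1, stC_n2 t pr' (fun _ => su _ _) (fun _ => su _ _)
      (fun x _ => (c2 _ _ _).mul_left (cu _ _ _ (rm h _)))
      (fun x _ => (c2 _ _ _).mul_left (cu _ _ _ (rm h _))), Fintype.sum_prod_type_right]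
    refine le_trans (le_of_eq (Finset.sum_congr rfl fun o _ => ?_)) (h3.trans_eq (by ring))
    simp only [mul_smul_comm, map_smul, smul_eq_mul, Complex.re_ofReal_mul]
    rw [← stC_sum P fun p =>
      (τ (r h o * dq (u i (sel p (w₁ h o))) (u i (h * sel p (w₂ h o))))).re]
    refine Finset.sum_congr rfl fun j _ => ?_
    rw [mul_assoc, (c4 j h o i _ _).1.eq, (c4 j h o i _ _).2 τ hτ, ← Complex.ofReal_ofNat,
      ← Complex.ofReal_pow, Complex.div_ofReal_re]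

theorem stC_out [Countable G] (hG : Fol G) (hU : UP α T π α' T') (hB : IB α' T')
    {A : StarSubalgebra ℂ Q} {V e : Fin 2 → Q} (hD : DC α T A V e) (F₀ : Finset G) {δ : ℝ}
    (hδ : 0 < δ) : Out α' T' F₀ δ := by
  classical
  obtain ⟨F, hF, hF'⟩ := hG F₀ (δ ^ 2 / 32) (by positivity)
  have F0 : (0 : ℝ) < F.card := by exact_mod_cast hF.card_pos
  obtain ⟨M, hM'⟩ := exists_nat_gt (32 * (F.card : ℝ) ^ 2 / δ ^ 2)
  have M0 : (0 : ℝ) < M := lt_of_le_of_lt (by positivity) hM'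
  have := hF.to_subtype
  obtain ⟨P, sel, hs⟩ := exists_mh F (Lab (24 * M))
  have M1 : 0 < M := by exact_mod_cast M0
  obtain ⟨a, h1, h2, h3⟩ := stageC_core hU hB hD F hF (by omega) M1 (le_of_eq (by
    push_cast
    field_simp
    norm_num)) hs
  have z : Sm T' 0 δ := fun τ _ => (Tr.n2_zero τ).trans_le hδ.le
  have key : ∀ i, ∀ h ∈ F₀, Sm T' (α' h (a i) - a i) δ := by
    intro i h hh τ hτ
    refine le_of_sq_le_sq ((h3 i h τ hτ).trans ?_) hδ.le
    have a1 : (16 * bd F h / F.card : ℝ) ≤ δ ^ 2 / 2 := by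
      have := hF' h hh
      rw [div_le_iff₀ F0]
      linarith
    have a2 : (F.card : ℝ) ^ 2 * (16 / M) ≤ δ ^ 2 / 2 := by
      rw [div_lt_iff₀ (by positivity)] at hM'
      rw [← mul_div_assoc, div_le_iff₀ M0]
      linarith
    linarith
  exact ⟨a 0, a 1, (h1 0).1, (h1 1).1, (h1 0).norm_le, (h1 1).norm_le,
    by rwa [(h1 0).2, sub_self], by rwa [(h1 1).2, sub_self], by rwa [h2, neg_add_cancel],
    fun h hh => ⟨key 0 h hh, key 1 h hh⟩⟩

/-- `stageB`, four ultrapowers (`IH.up`, `IHe.ib`, `exists_dc`, `stageC_core` with `IB.up` twice),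
`Out.down` four times. -/
theorem exists_out [Countable G] (hT : TS α T) (hM : M2 T) (hG : Fol G) (F₀ : Finset G) {ε : ℝ}
    (hε : 0 < ε) : Out α T F₀ ε := by
  obtain ⟨Q₁, _, π₁, α₁, T₁, U₁⟩ := exists_up hT
  obtain ⟨Q₂, _, π₂, α₂, T₂, U₂⟩ := exists_up U₁.ts'
  obtain ⟨Q₃, _, π₃, α₃, T₃, U₃⟩ := exists_up U₂.ts'
  obtain ⟨Q₄, _, π₄, α₄, T₄, U₄⟩ := exists_up U₃.ts'
  have hB := ((stageB hT hM hG).up U₁).ib U₂
  obtain ⟨A, V, e, hD⟩ := exists_dc ((hM.up U₁).up U₂) hB U₃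
  have h4 := stC_out hG U₄ ((hB.up U₃).up U₄) hD F₀ (δ := ε / 5) (by positivity)
  have h3 := Out.down U₄ h4 (δ := ε / 4) (by linarith)
  have h2 := Out.down U₃ h3 (δ := ε / 3) (by linarith)
  have h1 := Out.down U₂ h2 (δ := ε / 2) (by linarith)
  exact Out.down U₁ h1 (by linarith)

end Vale.Agent.P095.H
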