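import Vale.Agent.P095.H.Alg

/-! Finitary estimates II: payloads `w j * w' j` in double blocks (`Blk.pair`). -/

open Filter Topology
open scoped BoundedContinuousFunction

namespace Vale.Agent.P095.H

variable {G Q : Type} [Group G] [CStarAlgebra Q]


variable {τ : Q →L[ℂ] ℂ} {B : ℕ → StarSubalgebra ℂ Q}

/-- `τ (z y w y' w') = τ (z (y - 1) w (y' - 1) w')` by `Tr.lin` twice -/
theorem pay_one (hτ : Tr τ) {B₁ B₂ : StarSubalgebra ℂ Q} (hB : ∀ x ∈ B₁, ∀ y ∈ B₂, Commute x y)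
    {w w' y y' z : Q} (hw : Hp B₁ w) (hw' : Hp B₂ w') (hy : y ∈ B₁) (hy' : y' ∈ B₂)
    (h1 : ∀ x ∈ B₁, Commute z x) (h2 : ∀ x ∈ B₂, Commute z x) :
    ‖τ (z * (y * y' * (w * w')))‖ ≤ ‖z‖ * ‖y - 1‖ * ‖y' - 1‖ := by
  obtain ⟨sw, mw, p, hp, sp, ap⟩ := hw
  obtain ⟨sw', mw', p', hp', sp', ap'⟩ := hw'
  have hww : w * w' = w' * w := hB w mw w' mw'
  have e1 : τ (z * y' * w' * w) = 0 := hτ.lin sp ap
    (((h1 p hp).mul_left (hB p hp y' hy').symm).mul_left (hB p hp w' mw').symm)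
  have e2 : τ (z * y * w * w') = 0 := hτ.lin sp' ap'
    (((h2 p' hp').mul_left (hB y hy p' hp')).mul_left (hB w mw p' hp'))
  have e3 : τ (z * w * w') = 0 := hτ.lin sp' ap' ((h2 p' hp').mul_left (hB w mw p' hp'))
  have e4 : z * (y * y' * (w * w')) = z * (y - 1) * (y' - 1) * (w * w') + z * y' * w' * w +
      z * y * w * w' - z * w * w' := by
    rw [mul_assoc (z * y'), ← hww]
    noncomm_ring
  rw [e4, map_sub, map_add, map_add, e1, e2, e3, add_zero, add_zero, sub_zero]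
  refine (hτ.le _).trans ((norm_mul_le _ _).trans ?_)
  refine (mul_le_of_le_one_right (norm_nonneg _) (sw.mul sw' hww).norm_le).trans ?_
  exact norm_mul_le_of_le (norm_mul_le _ _) le_rfl

theorem pay_commute_sup {A₁ A₂ : StarSubalgebra ℂ Q} {x : Q} (h1 : ∀ z ∈ A₁, Commute x z)
    (h2 : ∀ z ∈ A₂, Commute x z) : ∀ z ∈ A₁ ⊔ A₂, Commute x z := by
  have h : ∀ A : StarSubalgebra ℂ Q, (∀ z ∈ A, Commute x z) →
      A ≤ StarSubalgebra.centralizer ℂ {x} := by
    intro A hA z hz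
    rw [StarSubalgebra.mem_centralizer_iff]
    rintro g rfl
    refine ⟨hA z hz, ?_⟩
    have := (hA _ (star_mem hz)).star_star
    rw [star_star] at this
    exact this
  intro z hz
  exact ((StarSubalgebra.mem_centralizer_iff ℂ).1 (sup_le (h _ h1) (h _ h2) hz) x rfl).1

theorem pay_commute_pr (hB : Blk B) {f : ℕ → Q} (hf : ∀ i, f i ∈ B i) {n j : ℕ} (h : n ≤ j)
    {x : Q} (hx : x ∈ B j) : Commute (pr f n) x :=
  (commute_pr fun i hi => hB j i (by omega) x hx _ (hf i)).symm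

theorem pay_mul_mem {A₁ A₂ : StarSubalgebra ℂ Q} {a b : Q} (ha : a ∈ A₁) (hb : b ∈ A₂) :
    a * b ∈ A₁ ⊔ A₂ :=
  mul_mem ((le_sup_left : A₁ ≤ A₁ ⊔ A₂) ha) ((le_sup_right : A₂ ≤ A₁ ⊔ A₂) hb)

theorem pay_one' (hτ : Tr τ) (hB : Blk B) {j : ℕ} {w w' y y' z : Q} (hw : Hp (B (2 * j)) w)
    (hw' : Hp (B (2 * j + 1)) w') (hy : y ∈ B (2 * j)) (hy' : y' ∈ B (2 * j + 1))
    (h : ∀ x ∈ B (2 * j) ⊔ B (2 * j + 1), Commute z x) {c e : ℝ} (hz : ‖z‖ ≤ c)
    (ey : ‖y - 1‖ ≤ e) (ey' : ‖y' - 1‖ ≤ e) : ‖τ (z * (y * y' * (w * w')))‖ ≤ e ^ 2 * c := by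
  refine (pay_one hτ (hB _ _ (by omega)) hw hw' hy hy'
    (fun x hx => h x ((le_sup_left : B (2 * j) ≤ _) hx))
    fun x hx => h x ((le_sup_right : B (2 * j + 1) ≤ _) hx)).trans ?_
  have h0 := (norm_nonneg _).trans hz
  have h1 := (norm_nonneg _).trans ey
  calc ‖z‖ * ‖y - 1‖ * ‖y' - 1‖ ≤ c * e * e := by gcongr
    _ = e ^ 2 * c := by ring

/-- replace the factors `rot φ s` by `cos φ` one at a time (induction on `n` for the second product
with the first product of fixed length, or on both with a general `x`) -/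
theorem pay_mom (hτ : Tr τ) (hB : Blk B) {w w' y y' : ℕ → Q} (hw : ∀ j, Hp (B (2 * j)) (w j))
    (hw' : ∀ j, Hp (B (2 * j + 1)) (w' j)) (hy : ∀ j, y j ∈ B (2 * j))
    (hy' : ∀ j, y' j ∈ B (2 * j + 1)) (uy : ∀ j, y j ∈ unitary Q) (uy' : ∀ j, y' j ∈ unitary Q)
    {e : ℝ} (ey : ∀ j, ‖y j - 1‖ ≤ e) (ey' : ∀ j, ‖y' j - 1‖ ≤ e) (φ : ℝ) {x : Q}
    (hx : ∀ i, ∀ z ∈ B i, Commute x z) (n : ℕ) :
    ‖τ (pr (fun j => y j * y' j) n * (x * pr (fun j => rot φ (w j * w' j)) n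
      - (Real.cos φ : ℂ) ^ n • x))‖ ≤ n * |φ| * e ^ 2 * ‖x‖ := by
  have hC := hB.pair
  have hY : ∀ j, y j * y' j ∈ B (2 * j) ⊔ B (2 * j + 1) := fun j => pay_mul_mem (hy j) (hy' j)
  have hR : ∀ j, rot φ (w j * w' j) ∈ B (2 * j) ⊔ B (2 * j + 1) := fun j =>
    rot_mem (pay_mul_mem (hw j).2.1 (hw' j).2.1) φ
  have uY : ∀ j, y j * y' j ∈ unitary Q := fun j => mul_mem (uy j) (uy' j)
  have uR : ∀ j, rot φ (w j * w' j) ∈ unitary Q := fun j => rot_unitary
    ((hw j).1.mul (hw' j).1 (hB _ _ (by omega) _ (hw j).2.1 _ (hw' j).2.1)) φ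
  have hx' : ∀ i < n, ∀ z ∈ B (2 * i) ⊔ B (2 * i + 1), Commute x z := fun i _ =>
    pay_commute_sup (hx _) (hx _)
  clear hx
  induction n generalizing x with
  | zero => simp [pr_zero]
  | succ n ih =>
    have h1 := ih (x := y n * y' n * x) fun i hi z hz =>
      (hC n i (by omega) _ (hY n) z hz).mul_left (hx' i (by omega) z hz)
    have h2 : ‖y n * y' n * x‖ ≤ ‖x‖ :=
      (norm_mul_le_of_le (norm_le_of_unitary (uY n)) le_rfl).trans_eq (one_mul _)
    have h3 : ‖pr (fun j => y j * y' j) n * x * pr (fun j => rot φ (w j * w' j)) n‖ ≤ ‖x‖ :=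
      (norm_mul_le_of_le (norm_mul_le_of_le (norm_le_of_unitary (pr_unitary fun i _ => uY i))
        le_rfl) (norm_le_of_unitary (pr_unitary fun i _ => uR i))).trans_eq (by ring)
    have h4 := pay_one' hτ hB (hw n) (hw' n) (hy n) (hy' n) (fun z hz =>
      ((pay_commute_pr hC hY le_rfl hz).mul_left (hx' n (by omega) z hz)).mul_left
        (pay_commute_pr hC hR le_rfl hz)) h3 (ey n) (ey' n)
    have c1 : Commute (x * pr (fun j => rot φ (w j * w' j)) n) (y n * y' n) :=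
      (hx' n (by omega) _ (hY n)).mul_left (pay_commute_pr hC hR le_rfl (hY n))
    have h5 : pr (fun j => y j * y' j) (n + 1) * (x * pr (fun j => rot φ (w j * w' j)) (n + 1)
        - (Real.cos φ : ℂ) ^ (n + 1) • x) = (Real.cos φ : ℂ) • (pr (fun j => y j * y' j) n *
          (y n * y' n * x * pr (fun j => rot φ (w j * w' j)) n -
            (Real.cos φ : ℂ) ^ n • (y n * y' n * x))) + ((Real.sin φ : ℂ) * Complex.I) •
          (pr (fun j => y j * y' j) n * x * pr (fun j => rot φ (w j * w' j)) n *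
            (y n * y' n * (w n * w' n))) := by
      rw [mul_assoc (pr _ n) x, mul_assoc (pr _ n) (x * _), ← mul_assoc (x * _) (y n * y' n),
        c1.eq, pr_succ, pr_succ]
      generalize pr (fun j => rot φ (w j * w' j)) n = P
      simp only [rot, mul_add, mul_sub, mul_smul_comm, mul_one, smul_sub, mul_assoc, smul_smul,
        pow_succ']
      abel
    have h6 : ‖(Real.cos φ : ℂ)‖ ≤ 1 := by
      rw [Complex.norm_real]
      exact Real.abs_cos_le_one φ
    have h7 : ‖(Real.sin φ : ℂ) * Complex.I‖ ≤ |φ| := by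
      rw [norm_mul, Complex.norm_I, mul_one, Complex.norm_real]
      exact Real.abs_sin_le_abs
    rw [h5, map_add, map_smul, map_smul, smul_eq_mul, smul_eq_mul]
    refine (norm_add_le _ _).trans ((add_le_add (norm_mul_le_of_le h6 (h1.trans
      (mul_le_mul_of_nonneg_left h2 (by positivity)))) (norm_mul_le_of_le h7 h4)).trans_eq ?_)
    push_cast
    ring

/-- the main term of `1 - pr u n` -/
noncomputable def payX (φ : ℝ) (s t : ℕ → Q) (n : ℕ) : Q :=
  ∑ j ∈ Finset.range n, ((Real.sin φ ^ 2 / 2 : ℝ) : ℂ) •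
    (pr (fun i => star (rot φ (s i)) * rot φ (t i)) j * dq (s j) (t j))

/-- `one_sub_pr`, `star_rot_mul_rot`; the linear terms by `pay_one`, the commutator term by
`Tr.comm0` after replacing `y j * y' j` by `1`. -/
theorem pay_dif (hτ : Tr τ) (hB : Blk B) {w w' v v' y y' : ℕ → Q}
    (hw : ∀ j, Hp (B (2 * j)) (w j)) (hw' : ∀ j, Hp (B (2 * j + 1)) (w' j))
    (hv : ∀ j, Hp (B (2 * j)) (v j)) (hv' : ∀ j, Hp (B (2 * j + 1)) (v' j))
    (hy : ∀ j, y j ∈ B (2 * j)) (hy' : ∀ j, y' j ∈ B (2 * j + 1)) (uy : ∀ j, y j ∈ unitary Q)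
    (uy' : ∀ j, y' j ∈ unitary Q) {e : ℝ} (ey : ∀ j, ‖y j - 1‖ ≤ e) (ey' : ∀ j, ‖y' j - 1‖ ≤ e)
    (φ : ℝ) (n : ℕ) :
    ‖τ (pr (fun j => y j * y' j) n * (1 - star (pr (fun j => rot φ (w j * w' j)) n) *
      pr (fun j => rot φ (v j * v' j)) n - payX φ (fun j => w j * w' j) (fun j => v j * v' j) n))‖
      ≤ n * (2 * |φ| * e ^ 2 + 2 * φ ^ 2 * e) := by
  have hC := hB.pair
  have he : 0 ≤ e := (norm_nonneg _).trans (ey 0)
  have hY : ∀ j, y j * y' j ∈ B (2 * j) ⊔ B (2 * j + 1) := fun j => pay_mul_mem (hy j) (hy' j)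
  have hS : ∀ j, w j * w' j ∈ B (2 * j) ⊔ B (2 * j + 1) := fun j =>
    pay_mul_mem (hw j).2.1 (hw' j).2.1
  have hT : ∀ j, v j * v' j ∈ B (2 * j) ⊔ B (2 * j + 1) := fun j =>
    pay_mul_mem (hv j).2.1 (hv' j).2.1
  have sS : ∀ j, Sy (w j * w' j) := fun j =>
    (hw j).1.mul (hw' j).1 (hB _ _ (by omega) _ (hw j).2.1 _ (hw' j).2.1)
  have sT : ∀ j, Sy (v j * v' j) := fun j =>
    (hv j).1.mul (hv' j).1 (hB _ _ (by omega) _ (hv j).2.1 _ (hv' j).2.1)
  have uY : ∀ j, y j * y' j ∈ unitary Q := fun j => mul_mem (uy j) (uy' j)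
  set r : ℕ → Q := fun i => star (rot φ (w i * w' i)) * rot φ (v i * v' i) with hr
  have hrC : ∀ j, r j ∈ B (2 * j) ⊔ B (2 * j + 1) := fun j =>
    mul_mem (star_mem (rot_mem (hS j) φ)) (rot_mem (hT j) φ)
  have hru : ∀ i, r i ∈ unitary Q := fun i =>
    mul_mem (Unitary.star_mem (rot_unitary (sS i) φ)) (rot_unitary (sT i) φ)
  have key : ∀ j ∈ Finset.range n, ‖τ (pr (fun j => y j * y' j) n * (pr r j * (1 - r j) -
      ((Real.sin φ ^ 2 / 2 : ℝ) : ℂ) • (pr r j * dq (w j * w' j) (v j * v' j))))‖ ≤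
      2 * |φ| * e ^ 2 + 2 * φ ^ 2 * e := by
    intro j hj
    set z := pr (Function.update (fun j => y j * y' j) j 1) n * pr r j with hz
    have z1 : ‖z‖ ≤ 1 := norm_le_of_unitary (mul_mem (pr_unitary fun i _ => by
      by_cases hi : i = j
      · rw [hi, Function.update_self]
        exact one_mem _
      · rw [Function.update_of_ne hi]
        exact uY i) (pr_unitary fun i _ => hru i))
    have zc : ∀ x ∈ B (2 * j) ⊔ B (2 * j + 1), Commute z x := fun x hx =>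
      (commute_pr_update hC hY n j hx).symm.mul_left (pay_commute_pr hC hrC le_rfl hx)
    have c1 : Commute (pr r j) (y j * y' j) := pay_commute_pr hC hrC le_rfl (hY j)
    have h1 : pr (fun j => y j * y' j) n * pr r j = z * (y j * y' j) := by
      rw [pr_split hC hY (Finset.mem_range.1 hj), hz, mul_assoc, ← c1.eq, ← mul_assoc]
    have h2 : pr (fun j => y j * y' j) n * (pr r j * (1 - r j) -
        ((Real.sin φ ^ 2 / 2 : ℝ) : ℂ) • (pr r j * dq (w j * w' j) (v j * v' j))) =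
        ((Real.sin φ ^ 2 / 2 : ℝ) : ℂ) • (z * (v j * v' j * (w j * w' j) -
          w j * w' j * (v j * v' j))) + ((Real.sin φ ^ 2 / 2 : ℝ) : ℂ) • (z * ((y j * y' j - 1) *
            (v j * v' j * (w j * w' j) - w j * w' j * (v j * v' j)))) -
          ((Real.sin φ * Real.cos φ : ℝ) * Complex.I : ℂ) • (z * (y j * y' j * (v j * v' j))) +
          ((Real.sin φ * Real.cos φ : ℝ) * Complex.I : ℂ) • (z * (y j * y' j * (w j * w' j))) := by
      rw [← mul_smul_comm, ← mul_sub, ← mul_assoc, h1]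
      have e : r j = _ := star_rot_mul_rot (sS j) (sT j) φ
      rw [e]
      generalize w j * w' j = S
      generalize v j * v' j = T
      generalize y j * y' j = Y
      simp only [mul_add, mul_sub, sub_mul, mul_smul_comm, mul_one, one_mul, smul_sub, mul_assoc]
      abel
    have h3 := pay_one' hτ hB (hw j) (hw' j) (hy j) (hy' j) zc z1 (ey j) (ey' j)
    have h4 := pay_one' hτ hB (hv j) (hv' j) (hy j) (hy' j) zc z1 (ey j) (ey' j)
    have h5 : ‖y j * y' j - 1‖ ≤ e + 1 * e := by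
      have h : y j * y' j - 1 = (y j - 1) + y j * (y' j - 1) := by noncomm_ring
      rw [h]
      exact (norm_add_le _ _).trans (add_le_add (ey j)
        (norm_mul_le_of_le (norm_le_of_unitary (uy j)) (ey' j)))
    have h6 := (norm_sub_le _ _).trans (add_le_add ((sT j).norm_le |> fun h =>
      norm_mul_le_of_le h (sS j).norm_le) (norm_mul_le_of_le (sS j).norm_le (sT j).norm_le))
    have h7 := (hτ.le _).trans (norm_mul_le_of_le z1 (norm_mul_le_of_le h5 h6))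
    have h8 : ‖((Real.sin φ ^ 2 / 2 : ℝ) : ℂ)‖ ≤ φ ^ 2 / 2 := by
      rw [Complex.norm_real, Real.norm_of_nonneg (by positivity)]
      linarith [Real.sin_sq_le_sq (x := φ)]
    have h9 : ‖((Real.sin φ * Real.cos φ : ℝ) * Complex.I : ℂ)‖ ≤ |φ| := by
      rw [norm_mul, Complex.norm_I, mul_one, Complex.norm_real, norm_mul]
      exact (mul_le_of_le_one_right (norm_nonneg _) (Real.abs_cos_le_one φ)).trans
        Real.abs_sin_le_abs
    rw [h2, map_add, map_sub, map_add, map_smul, map_smul, map_smul, map_smul,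
      hτ.comm0 (zc _ (hT j)), smul_zero, zero_add, smul_eq_mul, smul_eq_mul, smul_eq_mul]
    refine (norm_add_le _ _).trans ((add_le_add ((norm_sub_le _ _).trans (add_le_add
      (norm_mul_le_of_le h8 h7) (norm_mul_le_of_le h9 h4))) (norm_mul_le_of_le h9 h3)).trans_eq ?_)
    ring
  rw [star_pr hC fun j => rot_mem (hS j) φ, pr_mul hC (fun j => star_mem (rot_mem (hS j) φ))
    fun j => rot_mem (hT j) φ, one_sub_pr, payX, ← Finset.sum_sub_distrib, Finset.mul_sum, map_sum]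
  refine (norm_sum_le _ _).trans ((Finset.sum_le_sum key).trans_eq ?_)
  rw [Finset.sum_const, Finset.card_range, nsmul_eq_mul]

theorem norm_payX_le {s t : ℕ → Q} (hs : ∀ j, Sy (s j)) (ht : ∀ j, Sy (t j)) (φ : ℝ) (n : ℕ) :
    ‖payX φ s t n‖ ≤ 2 * n * φ ^ 2 := by
  have key : ∀ j ∈ Finset.range n, ‖((Real.sin φ ^ 2 / 2 : ℝ) : ℂ) •
      (pr (fun i => star (rot φ (s i)) * rot φ (t i)) j * dq (s j) (t j))‖ ≤ 2 * φ ^ 2 := by
    intro j _
    have h1 := norm_mul_le_of_le (norm_le_of_unitary (pr_unitary (n := j) fun i _ =>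
      mul_mem (Unitary.star_mem (rot_unitary (hs i) φ)) (rot_unitary (ht i) φ)))
      (norm_dq_le (hs j) (ht j))
    rw [norm_smul, Complex.norm_real, Real.norm_of_nonneg (by positivity)]
    refine (mul_le_mul_of_nonneg_left h1 (by positivity)).trans ?_
    linarith [Real.sin_sq_le_sq (x := φ)]
  refine (norm_sum_le _ _).trans ((Finset.sum_le_sum key).trans_eq ?_)
  rw [Finset.sum_const, Finset.card_range, nsmul_eq_mul]
  ring

theorem pay_rp_sum (c : ℝ) (f : ℕ → Q) (n : ℕ) :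
    rp (∑ j ∈ Finset.range n, (c : ℂ) • f j) = ∑ j ∈ Finset.range n, (c : ℂ) • rp (f j) := by
  simp only [rp, star_sum, star_smul, Complex.star_def, Complex.conj_ofReal,
    ← Finset.sum_add_distrib, Finset.smul_sum, ← smul_add, smul_comm (c : ℂ) (1 / 2 : ℂ)]

theorem pay_ps_rp {P d : Q} (hP : P ∈ unitary Q) (hd : Ps d) (h : Commute P d) :
    Ps (d - rp (P * d)) := by
  have h1 := (hd.conj (1 - P)).smul (c := 1 / 2) (by norm_num)
  have h2 : star P * d * P = d := by rw [mul_assoc, ← h.eq, ← mul_assoc, hP.1, one_mul]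
  have h3 : d * star P = star P * d := by
    have := h.star_star
    rw [hd.sa.star_eq] at this
    exact this.eq.symm
  have h4 : (((1 / 2 : ℝ) : ℂ)) • (star (1 - P) * d * (1 - P)) = d - rp (P * d) := by
    rw [rp, star_mul, hd.sa.star_eq, h3, star_sub, star_one, sub_mul, mul_sub, mul_one, sub_mul,
      h2, one_mul, h.eq]
    push_cast
    module
  exact h4 ▸ h1

theorem pay_ps_dq {w w' v v' : Q} (sw : Sy w) (sw' : Sy w') (sv : Sy v) (sv' : Sy v')
    (h1 : Commute w w') (h2 : Commute v w') (h3 : Commute v v') :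
    Ps ((2 : ℂ) • (dq w v + dq w' v') - dq (w * w') (v * v')) := by
  have a1 : star ((w - v) * w') * ((w - v) * w') = dq w v := by
    rw [star_mul, star_sub, sw.1.star_eq, sv.1.star_eq, sw'.1.star_eq, (h1.sub_left h2).eq,
      ← (h1.sub_left h2).eq, mul_assoc, ← mul_assoc w', ← (h1.sub_left h2).eq, mul_assoc, sw'.2,
      mul_one, dq]
  have a2 : star (v * (w' - v')) * (v * (w' - v')) = dq w' v' := by
    rw [star_mul, star_sub, sw'.1.star_eq, sv.1.star_eq, sv'.1.star_eq, mul_assoc, ← mul_assoc v,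
      sv.2, one_mul, dq]
  have a3 : star ((w - v) * w' + v * (w' - v')) * ((w - v) * w' + v * (w' - v')) =
      dq (w * w') (v * v') := by
    have e : (w - v) * w' + v * (w' - v') = w * w' - v * v' := by noncomm_ring
    rw [e, star_sub, (sw.mul sw' h1).1.star_eq, (sv.mul sv' h3).1.star_eq, dq]
  refine ⟨(w - v) * w' - v * (w' - v'), ?_⟩
  rw [← a1, ← a2, ← a3]
  generalize (w - v) * w' = a
  generalize v * (w' - v') = b
  rw [star_add, star_sub, two_smul]
  noncomm_ring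

/-- `rp (P d) ≤ d` for a unitary `P` commuting with `d ≥ 0` (`d - rp (P d) = d (1-P)* (1-P) / 2`),
`dq (w w') (v v') ≤ 2 dq w v + 2 dq w' v'`, `sin φ ^ 2 ≤ φ ^ 2`. -/
theorem pay_pos (hB : Blk B) {w w' v v' : ℕ → Q}
    (hw : ∀ j, Hp (B (2 * j)) (w j)) (hw' : ∀ j, Hp (B (2 * j + 1)) (w' j))
    (hv : ∀ j, Hp (B (2 * j)) (v j)) (hv' : ∀ j, Hp (B (2 * j + 1)) (v' j)) (φ : ℝ) (n : ℕ) :
    Ps (((φ ^ 2 : ℝ) : ℂ) • ∑ j ∈ Finset.range n, (dq (w j) (v j) + dq (w' j) (v' j))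
      - rp (payX φ (fun j => w j * w' j) (fun j => v j * v' j) n)) := by
  have hC := hB.pair
  have hS : ∀ j, w j * w' j ∈ B (2 * j) ⊔ B (2 * j + 1) := fun j =>
    pay_mul_mem (hw j).2.1 (hw' j).2.1
  have hT : ∀ j, v j * v' j ∈ B (2 * j) ⊔ B (2 * j + 1) := fun j =>
    pay_mul_mem (hv j).2.1 (hv' j).2.1
  have cm : ∀ j, ∀ a ∈ B (2 * j), ∀ b ∈ B (2 * j + 1), Commute a b := fun j =>
    hB _ _ (by omega)
  have sS : ∀ j, Sy (w j * w' j) := fun j => (hw j).1.mul (hw' j).1 (cm j _ (hw j).2.1 _ (hw' j).2.1)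
  have sT : ∀ j, Sy (v j * v' j) := fun j => (hv j).1.mul (hv' j).1 (cm j _ (hv j).2.1 _ (hv' j).2.1)
  rw [payX, pay_rp_sum, Finset.smul_sum, ← Finset.sum_sub_distrib]
  refine Ps.sum _ fun j _ => ?_
  have h1 := ((ps_dq (hw j).1.1 (hv j).1.1).add (ps_dq (hw' j).1.1 (hv' j).1.1)).smul
    (sub_nonneg.2 (Real.sin_sq_le_sq (x := φ)))
  have h2 := (pay_ps_dq (hw j).1 (hw' j).1 (hv j).1 (hv' j).1 (cm j _ (hw j).2.1 _ (hw' j).2.1)
    (cm j _ (hv j).2.1 _ (hw' j).2.1) (cm j _ (hv j).2.1 _ (hv' j).2.1)).smul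
    (c := Real.sin φ ^ 2 / 2) (by positivity)
  have h3 := (pay_ps_rp (pr_unitary (n := j) fun i _ =>
    mul_mem (Unitary.star_mem (rot_unitary (sS i) φ)) (rot_unitary (sT i) φ))
    (ps_dq (sS j).1 (sT j).1) (pay_commute_pr hC
      (fun i => mul_mem (star_mem (rot_mem (hS i) φ)) (rot_mem (hT i) φ)) le_rfl
      (mul_mem (sub_mem (hS j) (hT j)) (sub_mem (hS j) (hT j))))).smul
    (c := Real.sin φ ^ 2 / 2) (by positivity)
  have h4 := (h1.add h2).add h3
  refine Eq.mp (congrArg Ps ?_) h4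
  push_cast
  module


end Vale.Agent.P095.H
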