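import Vale.Agent.P095.H.Lim
import Vale.Agent.P095.H.Pay
import Vale.Agent.P095.H.NoAtom

/-! Stage B: the sequences. -/

open Filter Topology
open scoped BoundedContinuousFunction

namespace Vale.Agent.P095.H

variable {G Q : Type} [Group G] [CStarAlgebra Q]

variable {Q' : Type} [CStarAlgebra Q'] {α : G →* (Q ≃⋆ₐ[ℂ] Q)} {T : Set (Q →L[ℂ] ℂ)}
  {π : (ℕ →ᵇ Q) →⋆ₐ[ℂ] Q'} {α' : G →* (Q' ≃⋆ₐ[ℂ] Q')} {T' : Set (Q' →L[ℂ] ℂ)}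

/-- blocks with a symmetry each -/
structure Bk (α : G →* (Q ≃⋆ₐ[ℂ] Q)) (S : Set Q) (B : ℕ → StarSubalgebra ℂ Q) (a : ℕ → Q) :
    Prop where
  blk : Blk B
  inv : ∀ j g, ∀ x ∈ B j, α g x ∈ B j
  hp : ∀ j, Hp (B j) (a j)
  cS : ∀ j, ∀ x ∈ S, ∀ y ∈ B j, Commute x y

/-- the payload unitaries -/
noncomputable def Us (α : G →* (Q ≃⋆ₐ[ℂ] Q)) (a : ℕ → Q) (P K : ℕ) (c : Fin (P + 1) → G) (n : ℕ) :
    Q :=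
  pr (fun j => rot (th' K n) (α (c (Fin.ofNat (P + 1) j)) (a (2 * j)) *
    α (c (Fin.ofNat (P + 1) j)) (a (2 * j + 1)))) (NN n)

/-- the defects -/
noncomputable def Ds (α : G →* (Q ≃⋆ₐ[ℂ] Q)) (a : ℕ → Q) (P : ℕ) (i : Fin 2) (p : Fin (P + 1))
    (g h : G) (n : ℕ) : Q :=
  ((1 / NN n : ℝ) : ℂ) • ∑ j ∈ (Finset.range (NN n)).filter (fun j => Fin.ofNat (P + 1) j = p),
    dq (α g (a (2 * j + i))) (α h (a (2 * j + i)))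

/-- words in the translates of the hash unitaries -/
def Wd (B : ℕ → StarSubalgebra ℂ Q) (k : ℝ) (n : ℕ) (y : Q) : Prop :=
  ∃ f f' : ℕ → Q, (∀ j, f j ∈ B (2 * j)) ∧ (∀ j, f' j ∈ B (2 * j + 1)) ∧
    (∀ j, f j ∈ unitary Q) ∧ (∀ j, f' j ∈ unitary Q) ∧ (∀ j, ‖f j - 1‖ ≤ k * th n) ∧
    (∀ j, ‖f' j - 1‖ ≤ k * th n) ∧ y = pr (fun j => f j * f' j) (NN n)

/-- limits of words -/
def WW (π : (ℕ →ᵇ Q) →⋆ₐ[ℂ] Q') (B : ℕ → StarSubalgebra ℂ Q) (y : Q') : Prop :=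
  ∃ (k : ℝ) (f : ℕ → Q), (∀ n, Wd B k n (f n)) ∧ Rp π f y

end Vale.Agent.P095.H
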