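import Vale.Agent.P095.H.Alg

/-! An infinite sequence of blocks. Choose `(a j, b j)` recursively, commuting with the orbit of
`S` and of all earlier `a i, b i` (a countable set); `B j = StarAlgebra.adjoin` of the orbits of
`a j, b j`. For commutation use `StarAlgebra.adjoin_induction` on `Commute x y ∧ Commute x (star y)`
or centralizers. Also the partitions from invariant bits: induction on `k`, apply `IB` to
`S ∪ range q ∪ {x * q i}` and halve with `(1 ± s) / 2`; reindex by an equivalence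
`Fin (2 ^ k) × Bool ≃ Fin (2 ^ (k + 1))`. -/

open Filter Topology
open scoped BoundedContinuousFunction

namespace Vale.Agent.P095.H

variable {G Q : Type} [Group G] [CStarAlgebra Q]


theorem blocks_step [Countable G] (α : G →* (Q ≃⋆ₐ[ℂ] Q)) (h : M2e Q) {S : Set Q}
    (hS : S.Countable) : ∃ p : Q × Q, Sy p.1 ∧ Sy p.2 ∧ p.1 * p.2 = -(p.2 * p.1) ∧
      ∀ g, ∀ x ∈ S, ∀ y ∈ ({p.1, p.2} : Set Q), Commute x (α g y) ∧ Commute (star x) (α g y) := by
  obtain ⟨a, b, ha, hb, hab, h1⟩ := h (⋃ g : G, (α g '' S ∪ α g '' (star '' S)))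
    (Set.countable_iUnion fun g => (hS.image _).union ((hS.image _).image _))
  have key : ∀ (g : G) (x y : Q), Commute y (α g⁻¹ x) → Commute x (α g y) := by
    intro g x y hxy
    have h2 := hxy.map (α g)
    have h3 : α g (α g⁻¹ x) = x := by
      change (α g * α g⁻¹) x = x
      rw [← map_mul, mul_inv_cancel, map_one]
      rfl
    rw [h3] at h2
    exact h2.symm
  refine ⟨(a, b), ha, hb, hab, fun g x hx y hy => ?_⟩
  have h2 := h1 _ (Set.mem_iUnion.2 ⟨g⁻¹, Or.inl ⟨x, hx, rfl⟩⟩)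
  have h3 := h1 _ (Set.mem_iUnion.2 ⟨g⁻¹, Or.inr ⟨star x, ⟨x, hx, rfl⟩, rfl⟩⟩)
  rcases hy with rfl | rfl
  · exact ⟨key g _ _ h2.1, key g _ _ h3.1⟩
  · exact ⟨key g _ _ h2.2, key g _ _ h3.2⟩

theorem blocks_adj {s : Set Q} {x : Q} (h : ∀ y ∈ s, Commute x y ∧ Commute (star x) y) :
    ∀ y ∈ StarAlgebra.adjoin ℂ s, Commute x y ∧ Commute (star x) y := by
  have h1 : StarAlgebra.adjoin ℂ s ≤ StarSubalgebra.centralizer ℂ {x} :=
    StarAlgebra.adjoin_le fun y hy => (StarSubalgebra.mem_centralizer_iff ℂ).2 fun g hg => by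
      rw [Set.mem_singleton_iff.1 hg]
      exact ⟨(h y hy).1.eq, (h y hy).2.eq⟩
  exact fun y hy => (StarSubalgebra.mem_centralizer_iff ℂ).1 (h1 hy) x rfl

theorem exists_blocks [Countable G] (α : G →* (Q ≃⋆ₐ[ℂ] Q)) (h : M2e Q) {S : Set Q}
    (hS : S.Countable) : ∃ (B : ℕ → StarSubalgebra ℂ Q) (a b : ℕ → Q), Blk B ∧
      (∀ j g, ∀ x ∈ B j, α g x ∈ B j) ∧ (∀ j, Sy (a j) ∧ Sy (b j) ∧ a j * b j = -(b j * a j) ∧
        a j ∈ B j ∧ b j ∈ B j) ∧ ∀ j, ∀ x ∈ S, ∀ y ∈ B j, Commute x y := by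
  let O : Q × Q → Set Q := fun p => ⋃ g : G, α g '' {p.1, p.2}
  have hO : ∀ p, (O p).Countable := fun p =>
    Set.countable_iUnion fun g => (Set.toFinite _).countable
  choose st s1 s2 s3 s4 using fun T : {T : Set Q // T.Countable} => blocks_step α h T.2
  let T : ℕ → {T : Set Q // T.Countable} := fun n =>
    Nat.rec ⟨S, hS⟩ (fun _ T => ⟨T.1 ∪ O (st T), T.2.union (hO _)⟩) n
  have m1 : Monotone fun n => (T n).1 := monotone_nat_of_le_succ fun n => Set.subset_union_left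
  have m2 : ∀ i j, i < j → O (st (T i)) ⊆ (T j).1 := fun i j hij =>
    (Set.subset_union_right : _ ⊆ (T (i + 1)).1).trans (m1 (Nat.succ_le_of_lt hij))
  have c1 : ∀ j, ∀ x ∈ (T j).1, ∀ y ∈ StarAlgebra.adjoin ℂ (O (st (T j))),
      Commute x y ∧ Commute (star x) y := fun j x hx => blocks_adj fun y hy => by
    obtain ⟨g, z, hz, rfl⟩ := Set.mem_iUnion.1 hy
    exact s4 (T j) g x hx z hz
  have c2 : ∀ i j, i < j → ∀ x ∈ StarAlgebra.adjoin ℂ (O (st (T i))),
      ∀ y ∈ StarAlgebra.adjoin ℂ (O (st (T j))), Commute x y := fun i j hij x hx y hy =>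
    (blocks_adj (x := y) (fun z hz => ⟨(c1 j z (m2 i j hij hz) y hy).1.symm,
      (c1 j z (m2 i j hij hz) _ (star_mem hy)).1.symm⟩) x hx).1.symm
  have o1 : ∀ p : Q × Q, ∀ y ∈ ({p.1, p.2} : Set Q), y ∈ StarAlgebra.adjoin ℂ (O p) :=
    fun p y hy => StarAlgebra.subset_adjoin ℂ _ (Set.mem_iUnion.2 ⟨1, y, hy, by
      rw [map_one]
      rfl⟩)
  refine ⟨fun j => StarAlgebra.adjoin ℂ (O (st (T j))), fun j => (st (T j)).1,
    fun j => (st (T j)).2, fun i j hij x hx y hy => ?_, fun j g => ?_,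
    fun j => ⟨s1 _, s2 _, s3 _, o1 _ _ (Or.inl rfl), o1 _ _ (Or.inr rfl)⟩,
    fun j x hx y hy => (c1 j x (m1 (Nat.zero_le j) hx) y hy).1⟩
  · rcases lt_or_gt_of_ne hij with c | c
    · exact c2 i j c x hx y hy
    · exact (c2 j i c y hy x hx).symm
  · have h1 : StarAlgebra.adjoin ℂ (O (st (T j))) ≤
        (StarAlgebra.adjoin ℂ (O (st (T j)))).comap (α g : Q →⋆ₐ[ℂ] Q) :=
      StarAlgebra.adjoin_le fun y hy => by
        obtain ⟨k, z, hz, rfl⟩ := Set.mem_iUnion.1 hy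
        refine StarAlgebra.subset_adjoin ℂ _ (Set.mem_iUnion.2 ⟨g * k, z, hz, ?_⟩)
        rw [map_mul]
        rfl
    exact fun x hx => h1 hx

theorem Hp.act {α : G →* (Q ≃⋆ₐ[ℂ] Q)} {B : StarSubalgebra ℂ Q} (hB : ∀ g, ∀ x ∈ B, α g x ∈ B)
    {w : Q} (h : Hp B w) (g : G) : Hp B (α g w) := by
  obtain ⟨h1, h2, p, h3, h4, h5⟩ := h
  refine ⟨h1.map (α g), hB g w h2, α g p, hB g p h3, h4.map (α g), ?_⟩
  rw [← map_mul, h5, map_neg, map_mul]

/-- the two halves of a symmetry -/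
noncomputable def blocksHalf (s : Q) (b : Bool) : Q :=
  (1 / 2 : ℂ) • (1 + (if b then (1 : ℂ) else -1) • s)

theorem blocks_half {s : Q} (h : Sy s) : PU (blocksHalf s) := by
  refine PU.of_sum (fun b => ⟨?_, ?_⟩) ?_
  · cases b <;>
    · simp only [IsIdempotentElem, blocksHalf, smul_mul_smul_comm, add_mul, mul_add, one_mul,
        mul_one, smul_mul_assoc, mul_smul_comm, h.2]
      match_scalars <;> norm_num
  · cases b <;> simp [IsSelfAdjoint, blocksHalf, h.1.star_eq]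
  · simp only [Fintype.sum_bool, blocksHalf]
    match_scalars <;> norm_num

theorem blocks_comm {s x : Q} (h : Commute s x) (b : Bool) : Commute (blocksHalf s b) x :=
  ((Commute.one_left x).add_left (h.smul_left _)).smul_left _

theorem IB.part {α : G →* (Q ≃⋆ₐ[ℂ] Q)} {T : Set (Q →L[ℂ] ℂ)} (h : IB α T) {S : Set Q}
    (hS : S.Countable) (k : ℕ) : ∃ q : Fin (2 ^ k) → Q, PU q ∧ (∀ g i, α g (q i) = q i) ∧
      ∀ x ∈ S, ∀ i, Commute (q i) x ∧ ∀ τ ∈ T, τ (x * q i) = τ x / 2 ^ k := by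
  induction k with
  | zero =>
    refine ⟨fun _ => 1, ⟨fun _ => IsStarProjection.one Q, by simp, fun i j hij => ?_⟩,
      fun g _ => map_one _, fun x _ _ => ⟨Commute.one_left x, fun τ _ => by simp⟩⟩
    exact absurd (Fin.ext (by omega)) hij
  | succ k ih =>
    obtain ⟨q, h1, h2, h3⟩ := ih
    obtain ⟨s, s1, s2, s3⟩ := h (S ∪ Set.range q ∪ Set.image2 (· * ·) S (Set.range q))
      ((hS.union (Set.countable_range q)).union (hS.image2 (Set.countable_range q) _))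
    let e : Fin (2 ^ (k + 1)) ≃ Fin (2 ^ k) × Bool :=
      Fintype.equivOfCardEq (by simp [pow_succ])
    have p := h1.prod (blocks_half s1) fun i b =>
      (blocks_comm (s3 _ (Or.inl (Or.inr ⟨i, rfl⟩))).1 b).symm
    refine ⟨fun i => q (e i).1 * blocksHalf s (e i).2, ⟨fun i => p.proj (e i),
      (e.sum_comp fun x => q x.1 * blocksHalf s x.2).trans p.sum,
      fun i j hij => p.orth _ _ (e.injective.ne hij)⟩, fun g i => ?_, fun x hx i => ⟨?_, ?_⟩⟩
    · simp only [blocksHalf, map_mul, map_smul, map_add, map_one, h2, s2]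
    · exact (h3 x hx _).1.mul_left (blocks_comm (s3 _ (Or.inl (Or.inl hx))).1 _)
    · intro τ hτ
      have a1 := (h3 x hx (e i).1).2 τ hτ
      have a2 := (s3 _ (Or.inr ⟨x, hx, _, ⟨(e i).1, rfl⟩, rfl⟩)).2 τ hτ
      rw [← mul_assoc, blocksHalf, mul_smul_comm, mul_add, mul_one, mul_smul_comm, map_smul,
        map_add, map_smul, a1, a2, smul_zero, add_zero, smul_eq_mul, pow_succ]
      field_simp


end Vale.Agent.P095.H
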