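import Vale.Agent.P095.H.Alg

/-! Collisions of labels. -/

open Filter Topology
open scoped BoundedContinuousFunction

namespace Vale.Agent.P095.H

variable {G Q : Type} [Group G] [CStarAlgebra Q]

variable {Q' : Type} [CStarAlgebra Q'] {α : G →* (Q ≃⋆ₐ[ℂ] Q)} {T : Set (Q →L[ℂ] ℂ)}
  {π : (ℕ →ᵇ Q) →⋆ₐ[ℂ] Q'} {α' : G →* (Q' ≃⋆ₐ[ℂ] Q')} {T' : Set (Q' →L[ℂ] ℂ)}

theorem coll_star_pow_mul {Y : Q} (hY : Y ∈ unitary Q) (i k : ℕ) :
    star Y ^ i * Y ^ (i + k) = Y ^ k := by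
  have h : star (Y ^ i) * Y ^ i = 1 := Unitary.star_mul_self_of_mem (pow_mem hY i)
  rw [pow_add, ← mul_assoc, ← star_pow, h, one_mul]

theorem coll_star_pow_mul' {Y : Q} (hY : Y ∈ unitary Q) (i k : ℕ) :
    star Y ^ (i + k) * Y ^ i = star Y ^ k := by
  have h := congrArg star (coll_star_pow_mul hY i k)
  simpa only [star_mul, star_pow, star_star] using h

theorem coll_fej {τ : Q →L[ℂ] ℂ} (hτ : Tr τ) {Y D : Q} (hY : Y ∈ unitary Q) (hD : IsSelfAdjoint D)
    (h : ∀ m, 1 ≤ m → τ (Y ^ m * D) = 0) (M : ℕ) :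
    τ (star (∑ m ∈ Finset.range M, Y ^ m) * (∑ m ∈ Finset.range M, Y ^ m) * D) = M * τ D := by
  have h2 : ∀ m, 1 ≤ m → τ (star Y ^ m * D) = 0 := by
    intro m hm
    have e : star Y ^ m * D = star (D * Y ^ m) := by rw [star_mul, hD.star_eq, star_pow]
    rw [e, hτ.sa, hτ.tr, h m hm, map_zero]
  have h3 : ∀ i j : ℕ, τ (star Y ^ i * Y ^ j * D) = if i = j then τ D else 0 := by
    intro i j
    rcases lt_trichotomy i j with hij | hij | hij
    · obtain ⟨k, rfl⟩ := Nat.exists_eq_add_of_le hij.le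
      rw [coll_star_pow_mul hY, if_neg hij.ne, h k (by omega)]
    · subst hij
      have := coll_star_pow_mul hY i 0
      rw [add_zero] at this
      rw [this, if_pos rfl, pow_zero, one_mul]
    · obtain ⟨k, rfl⟩ := Nat.exists_eq_add_of_le hij.le
      rw [coll_star_pow_mul' hY, if_neg hij.ne', h2 k (by omega)]
  rw [star_sum, Finset.sum_mul_sum, Finset.sum_mul, map_sum]
  have h4 : ∀ i ∈ Finset.range M,
      τ ((∑ j ∈ Finset.range M, star (Y ^ i) * Y ^ j) * D) = τ D := by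
    intro i hi
    rw [Finset.sum_mul, map_sum]
    simp only [star_pow, h3]
    rw [Finset.sum_ite_eq, if_pos hi]
  rw [Finset.sum_congr rfl h4, Finset.sum_const, Finset.card_range, nsmul_eq_mul]

theorem coll_pow_le {P Y : Q} (hY : Y ∈ unitary Q) {r : ℝ} (hr : ‖P * (Y - 1)‖ ≤ r) (m : ℕ) :
    ‖P * (Y ^ m - 1)‖ ≤ m * r := by
  induction m with
  | zero => simp
  | succ m ih =>
    have e : P * (Y ^ (m + 1) - 1) = P * (Y ^ m - 1) * Y + P * (Y - 1) := by
      rw [pow_succ]; noncomm_ring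
    rw [e]
    have h1 : ‖P * (Y ^ m - 1) * Y‖ ≤ ‖P * (Y ^ m - 1)‖ :=
      (norm_mul_le _ _).trans (mul_le_of_le_one_right (norm_nonneg _) (norm_le_of_unitary hY))
    have h2 := norm_add_le (P * (Y ^ m - 1) * Y) (P * (Y - 1))
    push_cast
    linarith

/-- `S = (∑ m < M, Y ^ m) / M`, `‖P (S - 1)‖ ≤ 1/2`, so `P ≤ 4 P S* S P ≤ 4 S* S`, and
`τ (S* S D) = τ D / M` (for negative powers use `Tr.sa`, `Tr.tr`). -/
theorem coll {τ : Q →L[ℂ] ℂ} (hτ : Tr τ) {P Y D : Q} (hP : IsStarProjection P) (hY : Y ∈ unitary Q)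
    (hc : Commute P Y) {r : ℝ} (hr : ‖P * (Y - 1)‖ ≤ r) {M : ℕ} (hM : 0 < M)
    (hMr : M * r ≤ 1 / 2) (hD : Ps D) (h : ∀ m, 1 ≤ m → τ (Y ^ m * D) = 0) :
    (τ (P * D)).re ≤ 4 * ‖D‖ / M := by
  have hr0 : 0 ≤ r := (norm_nonneg _).trans hr
  have hM' : (0 : ℝ) < M := by exact_mod_cast hM
  set S : Q := ∑ m ∈ Finset.range M, Y ^ m with hS
  have hSn : ‖P * (S - (M : ℂ) • 1)‖ ≤ M * (1 / 2) := by
    have e : P * (S - (M : ℂ) • 1) = ∑ m ∈ Finset.range M, P * (Y ^ m - 1) := by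
      rw [← Finset.mul_sum, Finset.sum_sub_distrib, Finset.sum_const, Finset.card_range,
        Nat.cast_smul_eq_nsmul]
    rw [e]
    refine (norm_sum_le _ _).trans ?_
    have : ∀ m ∈ Finset.range M, ‖P * (Y ^ m - 1)‖ ≤ 1 / 2 := by
      intro m hm
      have hm' : (m : ℝ) ≤ M := by exact_mod_cast (Finset.mem_range.1 hm).le
      exact (coll_pow_le hY hr m).trans ((mul_le_mul_of_nonneg_right hm' hr0).trans hMr)
    refine (Finset.sum_le_sum this).trans ?_
    rw [Finset.sum_const, Finset.card_range, nsmul_eq_mul]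
  have hPS : Commute P S := Commute.sum_right _ _ _ fun m _ => hc.pow_right m
  have hPP : P * P = P := hP.isIdempotentElem
  have hP1 : ‖P‖ ≤ 1 := hP.norm_le
  obtain ⟨d, hd⟩ := hD
  have hD : Ps D := ⟨d, hd⟩
  have e1 : (τ (P * D)).re = n2 τ (P * star d) ^ 2 := by
    rw [hτ.n2_sq, star_mul, star_star, hP.isSelfAdjoint.star_eq, hd, ← mul_assoc, hτ.tr (P * star d) d]
    congr 2
    calc d * (P * star d) = d * (P * P * star d) := by rw [hPP]
      _ = _ := by noncomm_ring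
  have e2 : n2 τ (S * star d) ^ 2 = M * (τ D).re := by
    rw [hτ.n2_sq, star_mul, star_star, mul_assoc, hτ.tr d]
    have : star S * (S * star d) * d = star S * S * D := by rw [hd]; noncomm_ring
    rw [this, hS, coll_fej hτ hY hD.sa h M]
    simp
  have e3 : (M : ℂ) • (P * star d) =
      P * (S * star d) + -(P * (S - (M : ℂ) • 1) * (P * star d)) := by
    have : P * (S - (M : ℂ) • 1) * (P * star d) = P * (S * star d) - (M : ℂ) • (P * star d) := by
      have a1 : P * S * (P * star d) = P * (S * star d) := by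
        rw [hPS.eq, mul_assoc S, ← mul_assoc P P, hPP, ← mul_assoc, ← hPS.eq, mul_assoc]
      have a2 : P * ((M : ℂ) • (1 : Q)) * (P * star d) = (M : ℂ) • (P * star d) := by
        rw [mul_smul_comm, mul_one, smul_mul_assoc, ← mul_assoc, hPP]
      rw [mul_sub, sub_mul, a1, a2]
    rw [this]; abel
  have n0 := Tr.n2_nonneg τ (P * star d)
  have n0' := Tr.n2_nonneg τ (S * star d)
  have e4 : M * n2 τ (P * star d) ≤ n2 τ (S * star d) + M * (1 / 2) * n2 τ (P * star d) := by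
    have a1 := hτ.n2_smul (M : ℂ) (P * star d)
    rw [Complex.norm_natCast, e3] at a1
    rw [← a1]
    refine (hτ.n2_add _ _).trans (add_le_add ?_ ?_)
    · exact (hτ.n2_mul_left _ _).trans (mul_le_of_le_one_left n0' hP1)
    · rw [Tr.n2_neg]
      exact (hτ.n2_mul_left _ _).trans (mul_le_mul_of_nonneg_right hSn n0)
  have e5 : (τ D).re ≤ ‖D‖ := (Complex.re_le_norm _).trans (hτ.le D)
  have e6 : M * n2 τ (P * star d) ≤ 2 * n2 τ (S * star d) := by linarith
  have e7 : (M * n2 τ (P * star d)) ^ 2 ≤ (2 * n2 τ (S * star d)) ^ 2 :=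
    pow_le_pow_left₀ (by positivity) e6 2
  rw [mul_pow, mul_pow, e2, ← e1] at e7
  rw [le_div_iff₀ hM']
  have e8 : M * ((τ (P * D)).re * M) ≤ M * (4 * ‖D‖) := by nlinarith
  exact le_of_mul_le_mul_left e8 hM'

theorem same_proj {A : StarSubalgebra ℂ Q} (hA : CA α A) {Λ : Type} [Fintype Λ] {E : Λ → Q}
    (hE : PU E) (mem : ∀ l, E l ∈ A) (g h : G) :
    IsStarProjection (same α E g h) ∧ same α E g h ∈ A := by
  have hq : PU fun l => α g (E l) := hE.map (α g)
  have hq' : PU fun l => α h (E l) := hE.map (α h)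
  have hc : ∀ i j, Commute (α g (E i)) (α h (E j)) := fun i j =>
    hA.comm _ (hA.inv _ _ (mem i)) _ (hA.inv _ _ (mem j))
  refine ⟨⟨?_, ?_⟩, sum_mem fun l _ => mul_mem (hA.inv _ _ (mem l)) (hA.inv _ _ (mem l))⟩
  · have := hq.sum_mul_sum (x := fun l => α h (E l)) (y := fun l => α h (E l)) hc
    simp only [fun l => (hq'.proj l).isIdempotentElem.eq] at this
    exact this
  · have := hq.star_sum (x := fun l => α h (E l)) fun l => hc l l
    simp only [fun l => (hq'.proj l).isSelfAdjoint.star_eq] at this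
    exact this

/-- `coll` with `Y = (α g V)* α h V`; `PU.norm_sum_le` for the partition `α g (E l)`. -/
theorem same_small (hT : TS α T) {A : StarSubalgebra ℂ Q} (hA : CA α A) {Λ : Type} [Fintype Λ]
    {E : Λ → Q} (hE : PU E) (mem : ∀ l, E l ∈ A) {V : Q} (hV : V ∈ A) (uV : V ∈ unitary Q) {r : ℝ}
    (hr0 : 0 ≤ r) (hr : ∀ g h l, ‖α g (E l) * α h (E l) * (α g V - α h V)‖ ≤ r) {M : ℕ}
    (hM : 0 < M) (hMr : M * r ≤ 1 / 2) {D : G → G → Q} (H : Hsh α T V D)
    (hD : ∀ g h, Ps (D g h)) (g h : G) :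
    ∀ τ ∈ T, (τ (same α E g h * D g h)).re ≤ 4 * ‖D g h‖ / M := by
  intro τ hτ
  obtain ⟨hP, hPA⟩ := same_proj hA hE mem g h
  have hu : ∀ k, α k V ∈ unitary Q := fun k => Unitary.map_mem (α k) uV
  have huA : ∀ k, α k V ∈ A := fun k => hA.inv _ _ hV
  have hEA : ∀ k l, α k (E l) ∈ A := fun k l => hA.inv _ _ (mem l)
  have hYA : star (α g V) * α h V ∈ A := mul_mem (star_mem (huA g)) (huA h)
  refine coll (hT.tr τ hτ) hP (mul_mem (Unitary.star_mem (hu g)) (hu h)) (hA.comm _ hPA _ hYA)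
    (r := r) ?_ hM hMr (hD g h) fun m hm => ?_
  · rw [same, Finset.sum_mul]
    simp only [mul_assoc]
    refine (hE.map (α g)).norm_sum_le (fun l => hA.comm _ (hEA g l) _
      (mul_mem (hEA h l) (sub_mem hYA A.one_mem))) hr0 fun l => ?_
    have e : α g (E l) * (α h (E l) * (star (α g V) * α h V - 1)) =
        -(star (α g V) * (α g (E l) * α h (E l) * (α g V - α h V))) := by
      have c := (hA.comm _ (star_mem (huA g)) _ (mul_mem (hEA g l) (hEA h l))).eq
      have u1 : star (α g V) * α g V = 1 := Unitary.star_mul_self_of_mem (hu g)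
      rw [← mul_assoc (star (α g V)), c, ← u1]
      noncomm_ring
    rw [e, norm_neg]
    exact (norm_mul_le _ _).trans ((mul_le_of_le_one_left (norm_nonneg _)
      (norm_le_of_unitary (Unitary.star_mem (hu g)))).trans (hr g h l))
  · rw [(hA.comm _ (star_mem (huA g)) _ (huA h)).mul_pow]
    exact H g h m hm τ hτ

end Vale.Agent.P095.H
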