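import Mathlib

/-! Part II of P095: tracial dynamical systems. Definitions. -/

open Filter Topology
open scoped BoundedContinuousFunction

namespace Vale.Agent.P095.H

variable {G Q : Type} [Group G] [CStarAlgebra Q]

/-- positive elements, without an order instance -/
def Ps (x : Q) : Prop := ∃ y, x = star y * y

/-- symmetries -/
def Sy (a : Q) : Prop := IsSelfAdjoint a ∧ a * a = 1

/-- tracial states -/
structure Tr (τ : Q →L[ℂ] ℂ) : Prop where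
  one : τ 1 = 1
  pos : ∀ x, 0 ≤ (τ (star x * x)).re
  sa : ∀ x, τ (star x) = starRingEnd ℂ (τ x)
  tr : ∀ x y, τ (x * y) = τ (y * x)
  le : ∀ x, ‖τ x‖ ≤ ‖x‖

/-- the 2-seminorm -/
noncomputable def n2 (τ : Q →L[ℂ] ℂ) (x : Q) : ℝ := √(τ (star x * x)).re

/-- an invariant set of tracial states -/
structure TS (α : G →* (Q ≃⋆ₐ[ℂ] Q)) (T : Set (Q →L[ℂ] ℂ)) : Prop where
  tr : ∀ τ ∈ T, Tr τ
  inv : ∀ τ ∈ T, ∀ g, ∃ τ' ∈ T, ∀ x, τ' x = τ (α g x)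

/-- uniformly small 2-seminorm -/
def Sm (T : Set (Q →L[ℂ] ℂ)) (x : Q) (ε : ℝ) : Prop := ∀ τ ∈ T, n2 τ x ≤ ε

/-- the free ultrafilter -/
noncomputable abbrev om : Ultrafilter ℕ := hyperfilter ℕ

/-- uniformly 2-null sequences -/
def Nu (T : Set (Q →L[ℂ] ℂ)) (f : ℕ → Q) : Prop :=
  ∀ ε > 0, ∀ᶠ n in (om : Filter ℕ), Sm T (f n) ε

/-- `(Q', α', T')` is the tracial ultrapower of `(Q, α, T)` -/
structure UP (α : G →* (Q ≃⋆ₐ[ℂ] Q)) (T : Set (Q →L[ℂ] ℂ)) {Q' : Type} [CStarAlgebra Q']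
    (π : (ℕ →ᵇ Q) →⋆ₐ[ℂ] Q') (α' : G →* (Q' ≃⋆ₐ[ℂ] Q')) (T' : Set (Q' →L[ℂ] ℂ)) : Prop where
  ts : TS α T
  ts' : TS α' T'
  surj : Function.Surjective π
  sep : ∀ x, Sm T' x 0 → x = 0
  act : ∀ g (x y : ℕ →ᵇ Q), (∀ n, y n = α g (x n)) → π y = α' g (π x)
  lim : ∀ τ' ∈ T', ∃ τ : ℕ → (Q →L[ℂ] ℂ), (∀ n, τ n ∈ T) ∧
    ∀ x : ℕ →ᵇ Q, Tendsto (fun n => τ n (x n)) (om : Filter ℕ) (𝓝 (τ' (π x)))
  ex : ∀ τ : ℕ → (Q →L[ℂ] ℂ), (∀ n, τ n ∈ T) → ∃ τ' ∈ T',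
    ∀ x : ℕ →ᵇ Q, Tendsto (fun n => τ n (x n)) (om : Filter ℕ) (𝓝 (τ' (π x)))

/-- `x` is represented by the sequence `f` -/
def Rp {Q' : Type} [CStarAlgebra Q'] (π : (ℕ →ᵇ Q) →⋆ₐ[ℂ] Q') (f : ℕ → Q) (x : Q') : Prop :=
  ∃ y : ℕ →ᵇ Q, (∀ n, y n = f n) ∧ π y = x

/-- constant sequences -/
noncomputable def cst (Q : Type) [CStarAlgebra Q] : Q →⋆ₐ[ℂ] (ℕ →ᵇ Q) where
  toFun := BoundedContinuousFunction.const ℕ
  map_one' := rfl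
  map_mul' _ _ := rfl
  map_zero' := rfl
  map_add' _ _ := rfl
  commutes' c := by ext n; simp [Algebra.algebraMap_eq_smul_one]
  map_star' _ := rfl

/-- the diagonal embedding -/
noncomputable def cs {Q' : Type} [CStarAlgebra Q'] (π : (ℕ →ᵇ Q) →⋆ₐ[ℂ] Q') : Q →⋆ₐ[ℂ] Q' :=
  π.comp (cst Q)

/-- the elements represented by sequences in `A` -/
def lft {Q' : Type} [CStarAlgebra Q'] (π : (ℕ →ᵇ Q) →⋆ₐ[ℂ] Q') (A : StarSubalgebra ℂ Q) :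
    StarSubalgebra ℂ Q' where
  carrier := {x | ∃ y : ℕ →ᵇ Q, (∀ n, y n ∈ A) ∧ π y = x}
  mul_mem' := by
    rintro _ _ ⟨x, hx, rfl⟩ ⟨y, hy, rfl⟩
    exact ⟨x * y, fun n => mul_mem (hx n) (hy n), map_mul _ _ _⟩
  add_mem' := by
    rintro _ _ ⟨x, hx, rfl⟩ ⟨y, hy, rfl⟩
    exact ⟨x + y, fun n => add_mem (hx n) (hy n), map_add _ _ _⟩
  algebraMap_mem' c := ⟨algebraMap ℂ _ c, fun n => by
    simpa [Algebra.algebraMap_eq_smul_one] using A.smul_mem A.one_mem c, AlgHomClass.commutes _ _⟩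
  star_mem' := by
    rintro _ ⟨x, hx, rfl⟩
    exact ⟨star x, fun n => star_mem (hx n), map_star _ _⟩

/-- approximately anticommuting approximate symmetries in every relative commutant -/
def M2 (T : Set (Q →L[ℂ] ℂ)) : Prop :=
  ∀ S : Set Q, S.Countable → ∀ ε > 0, ∃ a b : Q, IsSelfAdjoint a ∧ IsSelfAdjoint b ∧ ‖a‖ ≤ 1 ∧
    ‖b‖ ≤ 1 ∧ Sm T (a * a - 1) ε ∧ Sm T (b * b - 1) ε ∧ Sm T (a * b + b * a) ε ∧
    ∀ x ∈ S, Commute a x ∧ Commute b x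

/-- anticommuting symmetries in every relative commutant -/
def M2e (Q : Type) [CStarAlgebra Q] : Prop :=
  ∀ S : Set Q, S.Countable → ∃ a b : Q, Sy a ∧ Sy b ∧ a * b = -(b * a) ∧
    ∀ x ∈ S, Commute a x ∧ Commute b x

open Classical in
/-- the number of elements of `F` outside `h F` -/
noncomputable def bd (F : Finset G) (h : G) : ℕ := (F.filter fun g => h⁻¹ * g ∉ F).card

/-- the Folner condition -/
def Fol (G : Type) [Group G] : Prop :=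
  ∀ (F₀ : Finset G) (η : ℝ), 0 < η → ∃ F : Finset G, F.Nonempty ∧
    ∀ h ∈ F₀, (bd F h : ℝ) ≤ η * F.card

/-- an approximately invariant approximately Haar unitary independent of `S` -/
def IHat (α : G →* (Q ≃⋆ₐ[ℂ] Q)) (T : Set (Q →L[ℂ] ℂ)) (S : Set Q) (F₀ : Finset G) (M : ℕ)
    (ε : ℝ) : Prop :=
  ∃ W : Q, ‖W‖ ≤ 1 ∧ Sm T (star W * W - 1) ε ∧ Sm T (W * star W - 1) ε ∧
    (∀ x ∈ S, Sm T (W * x - x * W) ε) ∧ (∀ h ∈ F₀, Sm T (α h W - W) ε) ∧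
    ∀ x ∈ S, ∀ m, 1 ≤ m → m ≤ M → ∀ τ ∈ T, ‖τ (x * W ^ m)‖ ≤ ε

/-- all approximate problems `IHat` are solvable -/
def IH (α : G →* (Q ≃⋆ₐ[ℂ] Q)) (T : Set (Q →L[ℂ] ℂ)) : Prop :=
  ∀ S : Set Q, S.Finite → ∀ (F₀ : Finset G) (M : ℕ) (ε : ℝ), 0 < ε → IHat α T S F₀ M ε

/-- invariant Haar unitaries independent of countable sets -/
def IHe (α : G →* (Q ≃⋆ₐ[ℂ] Q)) (T : Set (Q →L[ℂ] ℂ)) : Prop :=
  ∀ S : Set Q, S.Countable → ∃ W ∈ unitary Q, (∀ g, α g W = W) ∧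
    ∀ x ∈ S, Commute W x ∧ ∀ m, 1 ≤ m → ∀ τ ∈ T, τ (x * W ^ m) = 0

/-- invariant fair bits independent of countable sets -/
def IB (α : G →* (Q ≃⋆ₐ[ℂ] Q)) (T : Set (Q →L[ℂ] ℂ)) : Prop :=
  ∀ S : Set Q, S.Countable → ∃ s : Q, Sy s ∧ (∀ g, α g s = s) ∧
    ∀ x ∈ S, Commute s x ∧ ∀ τ ∈ T, τ (x * s) = 0

/-- partitions of unity by projections -/
structure PU {ι : Type} [Fintype ι] (q : ι → Q) : Prop where
  proj : ∀ i, IsStarProjection (q i)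
  sum : ∑ i, q i = 1
  orth : ∀ i j, i ≠ j → q i * q j = 0

/-- the output: approximately invariant approximately anticommuting approximate symmetries -/
def Out (α : G →* (Q ≃⋆ₐ[ℂ] Q)) (T : Set (Q →L[ℂ] ℂ)) (F₀ : Finset G) (ε : ℝ) : Prop :=
  ∃ a b : Q, IsSelfAdjoint a ∧ IsSelfAdjoint b ∧ ‖a‖ ≤ 1 ∧ ‖b‖ ≤ 1 ∧ Sm T (a * a - 1) ε ∧
    Sm T (b * b - 1) ε ∧ Sm T (a * b + b * a) ε ∧
    ∀ h ∈ F₀, Sm T (α h a - a) ε ∧ Sm T (α h b - b) ε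

/-- pairwise commuting blocks -/
def Blk (B : ℕ → StarSubalgebra ℂ Q) : Prop :=
  ∀ i j, i ≠ j → ∀ x ∈ B i, ∀ y ∈ B j, Commute x y

/-- a symmetry in `B` with an anticommuting partner in `B` -/
def Hp (B : StarSubalgebra ℂ Q) (w : Q) : Prop :=
  Sy w ∧ w ∈ B ∧ ∃ p ∈ B, Sy p ∧ p * w = -(w * p)

/-- `exp (i θ w)` for a symmetry `w` -/
noncomputable def rot (θ : ℝ) (w : Q) : Q :=
  (Real.cos θ : ℂ) • (1 : Q) + ((Real.sin θ : ℂ) * Complex.I) • w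

/-- ordered products -/
def pr (f : ℕ → Q) : ℕ → Q
  | 0 => 1
  | n + 1 => pr f n * f n

/-- the squared difference -/
def dq (u v : Q) : Q := (u - v) * (u - v)

/-- the real part -/
noncomputable def rp (V : Q) : Q := (1 / 2 : ℂ) • (V + star V)

/-- a closed commutative invariant subalgebra -/
structure CA (α : G →* (Q ≃⋆ₐ[ℂ] Q)) (A : StarSubalgebra ℂ Q) : Prop where
  comm : ∀ x ∈ A, ∀ y ∈ A, Commute x y
  inv : ∀ g, ∀ x ∈ A, α g x ∈ A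

/-- a Haar unitary for all traces -/
def Haar (T : Set (Q →L[ℂ] ℂ)) (V : Q) : Prop :=
  V ∈ unitary Q ∧ ∀ m, 1 ≤ m → ∀ τ ∈ T, τ (V ^ m) = 0

/-- the hash property: `D g h` lives where the translates of `V` are independent -/
def Hsh (α : G →* (Q ≃⋆ₐ[ℂ] Q)) (T : Set (Q →L[ℂ] ℂ)) (V : Q) (D : G → G → Q) : Prop :=
  ∀ g h m, 1 ≤ m → ∀ τ ∈ T, τ (star (α g V) ^ m * α h V ^ m * D g h) = 0

/-- the event that the labels of `g` and `h` agree -/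
def same {Λ : Type} [Fintype Λ] (α : G →* (Q ≃⋆ₐ[ℂ] Q)) (E : Λ → Q) (g h : G) : Q :=
  ∑ l, α g (E l) * α h (E l)

/-- the min-hash property -/
def MH {I Λ : Type} [Fintype I] [DecidableEq Λ] (P : ℕ) (sel : Fin (P + 1) → (I → Λ) → I) : Prop :=
  ∀ (w₁ w₂ : I → Λ) (J : Finset I) (σ : I → I), Set.InjOn σ J → (∀ i ∈ J, w₂ (σ i) = w₁ i) →
    ((Finset.univ.filter fun p => w₁ (sel p w₁) ≠ w₂ (sel p w₂)).card : ℝ) * Fintype.card I ≤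
      2 * ((Fintype.card I : ℝ) - J.card) * (P + 1)

/-- `q` is the family of atoms of the partitions `E i` -/
structure IsAt {I Λ : Type} [Fintype I] [DecidableEq I] [Fintype Λ] [DecidableEq Λ]
    (E : I → Λ → Q) (q : (I → Λ) → Q) : Prop where
  pu : PU q
  mul : ∀ w i l, q w * E i l = if w i = l then q w else 0

/-- the limit objects of stage B -/
structure DB (α : G →* (Q ≃⋆ₐ[ℂ] Q)) (T : Set (Q →L[ℂ] ℂ)) (S : Set Q) (P K : ℕ)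
    (A : StarSubalgebra ℂ Q) (V : Fin 2 → Q) (U : (Fin (P + 1) → G) → Q)
    (D : Fin 2 → Fin (P + 1) → G → G → Q) : Prop where
  ca : CA α A
  cl : IsClosed (A : Set Q)
  mem : ∀ i, V i ∈ A
  haar : ∀ i, Haar T (V i)
  uni : ∀ c, U c ∈ unitary Q
  act : ∀ h c, α h (U c) = U fun p => h * c p
  cA : ∀ c, ∀ y ∈ A, Commute (U c) y
  cS : ∀ x ∈ S, (∀ c, Commute (U c) x) ∧ ∀ y ∈ A, Commute y x
  ps : ∀ i p g h, Ps (D i p g h)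
  le : ∀ i p g h, ‖D i p g h‖ ≤ 8 / (P + 1)
  hsh : ∀ i, Hsh α T (V i) fun g h => ∑ p, D i p g h
  mom : ∀ m, 1 ≤ m → ∃ l : ℂ, ‖l‖ ^ 2 ≤ 3 / K ∧ ∀ c, ∀ x ∈ S, ∀ y ∈ A, ∀ τ ∈ T,
    τ (y * (x * U c ^ m - l • x)) = 0
  dif : ∀ c c', ∃ X, Ps ((K : ℂ) • ∑ p, (D 0 p (c p) (c' p) + D 1 p (c p) (c' p)) - rp X) ∧
    ∀ y ∈ A, ∀ τ ∈ T, τ (y * (1 - star (U c) * U c' - X)) = 0

/-- the limit objects of stage C -/
structure DC (α : G →* (Q ≃⋆ₐ[ℂ] Q)) (T : Set (Q →L[ℂ] ℂ)) (A : StarSubalgebra ℂ Q)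
    (V e : Fin 2 → Q) : Prop where
  ca : CA α A
  cl : IsClosed (A : Set Q)
  mem : ∀ i, V i ∈ A
  haar : ∀ i, Haar T (V i)
  sy : ∀ i, Sy (e i)
  anti : e 0 * e 1 = -(e 1 * e 0)
  cA : ∀ i g, ∀ y ∈ A, Commute (α g (e i)) y
  hsh : ∀ i, Hsh α T (V i) fun g h => dq (α g (e i)) (α h (e i))

end Vale.Agent.P095.H
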