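import Vale.Agent.P095.H.Alg

/-! Finitary estimates I. -/

open Filter Topology
open scoped BoundedContinuousFunction

namespace Vale.Agent.P095.H

variable {G Q : Type} [Group G] [CStarAlgebra Q]


variable {τ : Q →L[ℂ] ℂ} {B : ℕ → StarSubalgebra ℂ Q}

theorem hash_commute_pr (hB : Blk B) {f : ℕ → Q} (hf : ∀ i, f i ∈ B i) {n j : ℕ} (h : n ≤ j)
    {x : Q} (hx : x ∈ B j) : Commute (pr f n) x :=
  (commute_pr fun i hi => hB j i (by omega) x hx _ (hf i)).symm

theorem hash_norm_mul_sub {f g : Q} (uf : ‖f‖ ≤ 1) {e e' : ℝ} (ef : ‖f - 1‖ ≤ e)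
    (eg : ‖g - 1‖ ≤ e') : ‖f * g - 1‖ ≤ e + e' := by
  have h : f * g - 1 = (f - 1) + f * (g - 1) := by noncomm_ring
  rw [h]
  refine (norm_add_le _ _).trans (add_le_add ef ((norm_mul_le _ _).trans ?_))
  exact (mul_le_of_le_one_left (norm_nonneg _) uf).trans eg

/-- `(X Y)* (Y X) = pr r n`, `r = (f g)* (g f)`, `1 - r = [f,g] + ((f g)* - 1) [f,g]`,
`‖(f g)* - 1‖ ≤ 2 e`, `‖[f,g]‖ ≤ 2 e ^ 2`; `one_sub_pr`, `Tr.comm0`, `n2_sub_unitary`. -/
theorem comm_bound (hτ : Tr τ) (hB : Blk B) {f g : ℕ → Q} (hf : ∀ i, f i ∈ B i)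
    (hg : ∀ i, g i ∈ B i) (uf : ∀ i, f i ∈ unitary Q) (ug : ∀ i, g i ∈ unitary Q) {e : ℝ}
    (ef : ∀ i, ‖f i - 1‖ ≤ e) (eg : ∀ i, ‖g i - 1‖ ≤ e) (n : ℕ) :
    n2 τ (pr f n * pr g n - pr g n * pr f n) ^ 2 ≤ 8 * n * e ^ 3 := by
  have he : 0 ≤ e := (norm_nonneg _).trans (ef 0)
  have hfg : ∀ i, f i * g i ∈ B i := fun i => mul_mem (hf i) (hg i)
  have hgf : ∀ i, g i * f i ∈ B i := fun i => mul_mem (hg i) (hf i)
  set r : ℕ → Q := fun i => star (f i * g i) * (g i * f i) with hr
  have hrB : ∀ i, r i ∈ B i := fun i => mul_mem (star_mem (hfg i)) (hgf i)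
  have hru : ∀ i, r i ∈ unitary Q := fun i =>
    mul_mem (Unitary.star_mem (mul_mem (uf i) (ug i))) (mul_mem (ug i) (uf i))
  have key : ∀ j ∈ Finset.range n, (τ (pr r j * (1 - r j))).re ≤ 4 * e ^ 3 := by
    intro j _
    have h1 : star (f j * g j) * (f j * g j) = 1 := (mul_mem (uf j) (ug j)).1
    have h2 : pr r j * (1 - r j) = pr r j * (f j * g j - g j * f j) +
        pr r j * ((star (f j * g j) - 1) * (f j * g j - g j * f j)) := by
      rw [← mul_add, sub_mul, mul_sub (star _), h1, one_mul]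
      congr 1
      simp only [hr]
      abel
    have h3 : ‖star (f j * g j) - 1‖ ≤ e + e := by
      rw [← star_one Q, ← star_sub, norm_star]
      exact hash_norm_mul_sub (norm_le_of_unitary (uf j)) (ef j) (eg j)
    have h4 : ‖f j * g j - g j * f j‖ ≤ e * e + e * e := by
      have : f j * g j - g j * f j = (f j - 1) * (g j - 1) - (g j - 1) * (f j - 1) := by
        noncomm_ring
      rw [this]
      exact (norm_sub_le _ _).trans (add_le_add (norm_mul_le_of_le (ef j) (eg j))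
        (norm_mul_le_of_le (eg j) (ef j)))
    have h5 := norm_mul_le_of_le (norm_le_of_unitary (pr_unitary (n := j) fun i _ => hru i))
      (norm_mul_le_of_le h3 h4)
    rw [h2, map_add, hτ.comm0 (hash_commute_pr hB hrB le_rfl (hf j)), zero_add]
    refine (Complex.re_le_norm _).trans ((hτ.le _).trans (h5.trans_eq ?_))
    ring
  rw [hτ.n2_sub_unitary (mul_mem (pr_unitary fun i _ => uf i) (pr_unitary fun i _ => ug i))
    (mul_mem (pr_unitary fun i _ => ug i) (pr_unitary fun i _ => uf i)), pr_mul hB hf hg,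
    pr_mul hB hg hf, star_pr hB hfg, pr_mul hB (fun i => star_mem (hfg i)) hgf, one_sub_pr,
    map_sum, Complex.re_sum]
  have h6 := Finset.sum_le_sum key
  rw [Finset.sum_const, Finset.card_range, nsmul_eq_mul] at h6
  linarith

theorem haar_eq (hτ : Tr τ) (hB : Blk B) {w : ℕ → Q} (hw : ∀ i, Hp (B i) (w i)) (θ : ℝ) {x : Q}
    (hx : ∀ i, ∀ y ∈ B i, Commute x y) (n : ℕ) :
    τ (x * pr (fun i => rot θ (w i)) n) = (Real.cos θ : ℂ) ^ n * τ x := by
  induction n with
  | zero => simp [pr_zero]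
  | succ n ih =>
    obtain ⟨-, -, p, hp, sp, ap⟩ := hw n
    have h1 : Commute (x * pr (fun i => rot θ (w i)) n) p :=
      (hx n p hp).mul_left (hash_commute_pr hB (fun i => rot_mem (hw i).2.1 θ) le_rfl hp)
    rw [pr_succ, ← mul_assoc, rot, mul_add, mul_smul_comm, mul_smul_comm, mul_one, map_add,
      map_smul, map_smul, hτ.lin sp ap h1, ih, smul_zero, add_zero, smul_eq_mul]
    ring

theorem hash_repl (hτ : Tr τ) (hB : Blk B) {a b : ℕ → Q} (ha : ∀ i, a i ∈ B i)
    (hb : ∀ i, b i ∈ B i) {j : ℕ} (hj : a j = b j)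
    (H : ∀ i, i ≠ j → ∀ x, (∀ y ∈ B i, Commute x y) → τ (x * a i) = τ (x * b i)) (n : ℕ) :
    ∀ x, (∀ i < n, i ≠ j → ∀ y ∈ B i, Commute x y) → τ (x * pr a n) = τ (x * pr b n) := by
  induction n with
  | zero => exact fun x _ => rfl
  | succ n ih =>
    intro x hx
    have h1 := ih (a n * x) fun i hi hij y hy =>
      (hB n i (by omega) _ (ha n) y hy).mul_left (hx i (by omega) hij y hy)
    rw [pr_succ, pr_succ, ← mul_assoc, ← mul_assoc, hτ.tr, ← mul_assoc, h1, mul_assoc, hτ.tr]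
    by_cases hn : n = j
    · rw [hn, hj]
    · exact H n hn _ fun y hy =>
        (hx n (by omega) hn y hy).mul_left (hash_commute_pr hB hb le_rfl hy)

theorem hash_ps_pr (hB : Blk B) {f : ℕ → Q} (hf : ∀ i, f i ∈ B i) (hp : ∀ i, Ps (f i)) (n : ℕ) :
    Ps (pr f n) := by
  induction n with
  | zero => exact Ps.one
  | succ n ih => exact ih.mul (hp n) (hash_commute_pr hB hf le_rfl (hf n))

theorem hash_anti (hτ : Tr τ) (hB : Blk B) {f : ℕ → Q} (hf : ∀ i, f i ∈ B i) (hp : ∀ i, Ps (f i))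
    (hq : ∀ i, Ps (1 - f i)) {d : Q} (hd : Ps d) : Antitone fun n => (τ (pr f n * d)).re := by
  refine antitone_nat_of_succ_le fun n => ?_
  have h1 := hτ.re_mul_nonneg ((hash_ps_pr hB hf hp n).mul (hq n)
    (hash_commute_pr hB hf le_rfl (sub_mem (one_mem _) (hf n)))) hd
  rw [mul_sub, mul_one, sub_mul, map_sub, Complex.sub_re] at h1
  exact sub_nonneg.1 h1

/-- With `r i = (rot φ u)* (rot φ v)`, `k = sin φ ^ 2 / 2`, `d i = dq (u i) (v i)`:
`τ (pr r n * d j) = τ (pr (update r j 1) n * d j) + O(16 |φ|)`; replacing `r i` by `1 - k d i` for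
`i ≠ j` does not change the trace (`star_rot_mul_rot`, `Tr.lin`, `Tr.comm0`; induction on `n` with a
general `x` commuting with the blocks used); the commuting positive contractions `s i = 1 - k d i`
give `0 ≤ τ (pr (update s j 1) n * d j) ≤ τ (pr s j * d j)`, and
`∑ j, k τ (pr s j * d j) = τ (1 - pr s n) ≤ 1`. -/
theorem hash_bound (hτ : Tr τ) (hB : Blk B) {u v : ℕ → Q} (hu : ∀ i, Hp (B i) (u i))
    (hv : ∀ i, Hp (B i) (v i)) {φ : ℝ} (h0 : Real.sin φ ≠ 0) (h1 : Real.sin φ ^ 2 ≤ 1 / 2) (n : ℕ) :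
    ‖τ (star (pr (fun i => rot φ (u i)) n) * pr (fun i => rot φ (v i)) n *
      ∑ j ∈ Finset.range n, dq (u j) (v j))‖ ≤ 2 / Real.sin φ ^ 2 + 16 * n * |φ| := by
  have hs : 0 < Real.sin φ ^ 2 := by positivity
  set k : ℝ := Real.sin φ ^ 2 / 2 with hk
  have hk0 : 0 < k := by positivity
  set r : ℕ → Q := fun i => star (rot φ (u i)) * rot φ (v i) with hr
  set s : ℕ → Q := fun i => 1 - (k : ℂ) • dq (u i) (v i) with hs'
  have huB : ∀ i, rot φ (u i) ∈ B i := fun i => rot_mem (hu i).2.1 φ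
  have hvB : ∀ i, rot φ (v i) ∈ B i := fun i => rot_mem (hv i).2.1 φ
  have hdB : ∀ i, dq (u i) (v i) ∈ B i := fun i =>
    mul_mem (sub_mem (hu i).2.1 (hv i).2.1) (sub_mem (hu i).2.1 (hv i).2.1)
  have hrB : ∀ i, r i ∈ B i := fun i => mul_mem (star_mem (huB i)) (hvB i)
  have hsB : ∀ i, s i ∈ B i := fun i => sub_mem (one_mem _) (SMulMemClass.smul_mem _ (hdB i))
  have hd : ∀ i, Ps (dq (u i) (v i)) := fun i => ps_dq (hu i).1.1 (hv i).1.1
  have hd4 : ∀ i, ‖dq (u i) (v i)‖ ≤ 4 := fun i => norm_dq_le (hu i).1 (hv i).1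
  have hsq : ∀ i, Ps (1 - s i) := fun i => by
    rw [hs', sub_sub_cancel]
    exact (hd i).smul hk0.le
  have hsp : ∀ i, Ps (s i) := fun i => by
    have h2 := Ps.of_norm_le ((hd i).smul hk0.le).sa (c := 1) (by
      rw [norm_smul, Complex.norm_real, Real.norm_of_nonneg hk0.le]
      nlinarith [hd4 i, norm_nonneg (dq (u i) (v i))])
    rwa [Complex.ofReal_one, one_smul] at h2
  have hru : ∀ i, r i ∈ unitary Q := fun i =>
    mul_mem (Unitary.star_mem (rot_unitary (hu i).1 φ)) (rot_unitary (hv i).1 φ)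
  have hr1 : ∀ i, ‖r i - 1‖ ≤ 2 * |φ| + 2 * |φ| := fun i => by
    refine hash_norm_mul_sub (norm_le_of_unitary (Unitary.star_mem (rot_unitary (hu i).1 φ))) ?_
      (norm_rot_sub_one (hv i).1 φ)
    rw [← star_one Q, ← star_sub, norm_star]
    exact norm_rot_sub_one (hu i).1 φ
  have hrs : ∀ i x, (∀ y ∈ B i, Commute x y) → τ (x * r i) = τ (x * s i) := by
    intro i x hx
    obtain ⟨su, mu, p, hp, sp, ap⟩ := hu i
    obtain ⟨sv, mv, p', hp', sp', ap'⟩ := hv i
    simp only [hr, hs']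
    rw [star_rot_mul_rot su sv, mul_add, mul_sub x (1 - _), mul_smul_comm, mul_smul_comm,
      mul_sub x (v i), map_add, map_sub, map_smul, map_smul, map_sub, hτ.comm0 (hx _ mv),
      hτ.lin sp ap (hx p hp), hτ.lin sp' ap' (hx p' hp')]
    simp [hk]
  have upd : ∀ {f : ℕ → Q} {P : ℕ → Q → Prop} (j : ℕ), (∀ i, P i (f i)) → (∀ i, P i 1) →
      ∀ i, P i (Function.update f j 1 i) := by
    intro f P j h h' i
    by_cases hi : i = j
    · rw [hi, Function.update_self]
      exact h' j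
    · rw [Function.update_of_ne hi]
      exact h i
  have key : ∀ j ∈ Finset.range n, ‖τ (pr r n * dq (u j) (v j))‖ ≤
      (τ (pr s j * dq (u j) (v j))).re + 16 * |φ| := by
    intro j hj
    have hjn := Finset.mem_range.1 hj
    have rB := upd (P := fun i x => x ∈ B i) j hrB fun i => one_mem _
    have sB := upd (P := fun i x => x ∈ B i) j hsB fun i => one_mem _
    have sp := upd (P := fun _ x => Ps x) j hsp fun _ => Ps.one
    have sq := upd (P := fun _ x => Ps (1 - x)) j hsq fun _ => by simpa using Ps.zero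
    have h2 : pr r n * dq (u j) (v j) = pr (Function.update r j 1) n * dq (u j) (v j) +
        pr (Function.update r j 1) n * ((r j - 1) * dq (u j) (v j)) := by
      rw [pr_split hB hrB hjn]
      noncomm_ring
    have h3 := norm_mul_le_of_le (norm_le_of_unitary (pr_unitary (n := n) fun i _ =>
      upd (P := fun _ x => x ∈ unitary Q) j hru (fun _ => one_mem _) i))
      (norm_mul_le_of_le (hr1 j) (hd4 j))
    have h4 : τ (pr (Function.update r j 1) n * dq (u j) (v j)) =
        τ (pr (Function.update s j 1) n * dq (u j) (v j)) := by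
      rw [hτ.tr, hτ.tr (pr _ _)]
      refine hash_repl hτ hB rB sB (j := j) (by simp) (fun i hi x hx => ?_) n _
        fun i _ hi y hy => hB j i hi.symm _ (hdB j) y hy
      rw [Function.update_of_ne hi, Function.update_of_ne hi]
      exact hrs i x hx
    have h5 : Ps (pr (Function.update s j 1) n * dq (u j) (v j)) :=
      (hash_ps_pr hB sB sp n).mul (hd j) (commute_pr_update hB hsB n j (hdB j)).symm
    have h6 := hash_anti hτ hB sB sp sq (hd j) hjn.le
    have h7 : pr (Function.update s j 1) j = pr s j :=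
      pr_congr fun i hi => Function.update_of_ne hi.ne _ _
    simp only [h7] at h6
    have h8 := Complex.norm_le_abs_re_add_abs_im
      (τ (pr (Function.update s j 1) n * dq (u j) (v j)))
    rw [hτ.im_eq h5.sa, abs_zero, add_zero, abs_of_nonneg (hτ.re_nonneg h5)] at h8
    rw [h2, map_add, h4]
    refine (norm_add_le _ _).trans (add_le_add (h8.trans h6) ((hτ.le _).trans (h3.trans_eq ?_)))
    ring
  have h9 : k * ∑ j ∈ Finset.range n, (τ (pr s j * dq (u j) (v j))).re ≤ 1 := by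
    have h10 := congrArg (fun x => (τ x).re) (one_sub_pr s n)
    simp only [map_sub, map_sum, Complex.re_sum, Complex.sub_re, hτ.one, Complex.one_re] at h10
    have h11 : ∀ j ∈ Finset.range n,
        (τ (pr s j * (1 - s j))).re = k * (τ (pr s j * dq (u j) (v j))).re := by
      intro j _
      simp only [hs']
      rw [sub_sub_cancel, mul_smul_comm, map_smul, smul_eq_mul, Complex.re_ofReal_mul]
    rw [Finset.sum_congr rfl h11, ← Finset.mul_sum] at h10
    have := hτ.re_nonneg (hash_ps_pr hB hsB hsp n)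
    linarith
  have h12 : ∑ j ∈ Finset.range n, (τ (pr s j * dq (u j) (v j))).re ≤ 2 / Real.sin φ ^ 2 := by
    rw [le_div_iff₀ hs]
    rw [hk] at h9
    linarith
  rw [star_pr hB huB, pr_mul hB (fun i => star_mem (huB i)) hvB, Finset.mul_sum, map_sum]
  refine (norm_sum_le _ _).trans ((Finset.sum_le_sum key).trans ?_)
  rw [Finset.sum_add_distrib, Finset.sum_const, Finset.card_range, nsmul_eq_mul]
  linarith


end Vale.Agent.P095.H
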