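import Vale.Agent.P095.H.Rep
import Vale.Agent.P095.H.Hash
import Vale.Agent.P095.H.Blocks

/-! Scales and limit versions of the finitary estimates. -/

open Filter Topology
open scoped BoundedContinuousFunction

namespace Vale.Agent.P095.H

variable {G Q : Type} [Group G] [CStarAlgebra Q]

variable {Q' : Type} [CStarAlgebra Q'] {α : G →* (Q ≃⋆ₐ[ℂ] Q)} {T : Set (Q →L[ℂ] ℂ)}
  {π : (ℕ →ᵇ Q) →⋆ₐ[ℂ] Q'} {α' : G →* (Q' ≃⋆ₐ[ℂ] Q')} {T' : Set (Q' →L[ℂ] ℂ)}

/-- number of blocks -/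
def NN (n : ℕ) : ℕ := 32 ^ n

/-- hash angle -/
noncomputable def th (n : ℕ) : ℝ := 1 / 4 ^ n

/-- payload angle -/
noncomputable def th' (K n : ℕ) : ℝ := √(K / 32 ^ n)

/-- the hash unitaries -/
noncomputable def Vs (a : ℕ → Q) (n : ℕ) : Q := pr (fun j => rot (th n) (a j)) (NN n)

theorem NN_pos (n : ℕ) : 0 < NN n := by unfold NN; positivity
theorem th_pos (n : ℕ) : 0 < th n := by unfold th; positivity
theorem th'_nonneg (K n : ℕ) : 0 ≤ th' K n := Real.sqrt_nonneg _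
theorem NN_mul_th'_sq (K n : ℕ) : NN n * th' K n ^ 2 = K := by
  rw [th', Real.sq_sqrt (by positivity), NN]
  push_cast
  field_simp
theorem tendsto_NN : Tendsto NN atTop atTop :=
  tendsto_pow_atTop_atTop_of_one_lt (by norm_num)
theorem tendsto_th : Tendsto th atTop (𝓝 0) := by
  have := tendsto_pow_atTop_nhds_zero_of_lt_one (r := (1 / 4 : ℝ)) (by norm_num) (by norm_num)
  exact this.congr fun n => by rw [th, one_div_pow]

theorem lim_tendsto_sqrt (K : ℕ) {r : ℝ} (h0 : 0 ≤ r) (h1 : r < 1) :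
    Tendsto (fun n : ℕ => √(K * r ^ n)) atTop (𝓝 0) := by
  have := ((tendsto_pow_atTop_nhds_zero_of_lt_one h0 h1).const_mul (K : ℝ)).sqrt
  simpa using this

theorem lim_tendsto_th' (K : ℕ) : Tendsto (th' K) atTop (𝓝 0) :=
  (lim_tendsto_sqrt K (r := 1 / 32) (by norm_num) (by norm_num)).congr fun n => by
    rw [th', one_div_pow, mul_one_div]

theorem lim_NN_th_sq (n : ℕ) : NN n * th n ^ 2 = 2 ^ n := by
  have : (32 : ℝ) ^ n = 2 ^ n * (4 ^ n) ^ 2 := by
    rw [← pow_mul, mul_comm n 2, pow_mul, ← mul_pow]; norm_num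
  rw [NN, th]
  push_cast
  rw [this]
  field_simp

theorem lim_mix (K : ℕ) : Tendsto (fun n => NN n * th' K n * th n ^ 2) atTop (𝓝 0) := by
  refine (lim_tendsto_sqrt K (r := 1 / 8) (by norm_num) (by norm_num)).congr fun n => ?_
  rw [mul_right_comm, lim_NN_th_sq, th', ← Real.sqrt_sq (show (0 : ℝ) ≤ 2 ^ n by positivity),
    ← Real.sqrt_mul (by positivity)]
  congr 1
  have : (32 : ℝ) ^ n = 8 ^ n * (2 ^ n) ^ 2 := by
    rw [← pow_mul, mul_comm n 2, pow_mul, ← mul_pow]; norm_num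
  rw [this, one_div_pow]
  field_simp

theorem tendsto_cube (K : ℕ) (C : ℝ) :
    Tendsto (fun n => NN n * (C * (th n + th' K n)) ^ 3) atTop (𝓝 0) := by
  have h1 : Tendsto (fun n => NN n * th n ^ 3) atTop (𝓝 0) := by
    refine (tendsto_pow_atTop_nhds_zero_of_lt_one (r := (1 / 2 : ℝ)) (by norm_num)
      (by norm_num)).congr fun n => ?_
    have : (4 : ℝ) ^ n = 2 ^ n * 2 ^ n := by rw [← mul_pow]; norm_num
    rw [pow_succ (th n) 2, ← mul_assoc, lim_NN_th_sq, th, this, one_div_pow]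
    field_simp
  have h := (((h1.add ((lim_mix K).const_mul 3)).add (tendsto_th.const_mul (3 * K : ℝ))).add
    ((lim_tendsto_th' K).const_mul (K : ℝ))).const_mul (C ^ 3)
  simp only [mul_zero, add_zero] at h
  refine h.congr fun n => ?_
  rw [← NN_mul_th'_sq K n]
  ring
theorem tendsto_mix (K : ℕ) : Tendsto (fun n => NN n * th' K n * th n ^ 2) atTop (𝓝 0) :=
  lim_mix K

theorem lim_sin_sq {x : ℝ} (h0 : 0 < x) (h1 : x ≤ 1) : x ^ 2 / 3 ≤ Real.sin x ^ 2 := by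
  have h := Real.sin_gt_sub_cube h0
  have h2 : x ^ 3 ≤ x := by nlinarith [mul_le_mul h1 h1 h0.le zero_le_one]
  have h3 : 3 / 4 * x ≤ Real.sin x := by linarith
  nlinarith [pow_le_pow_left₀ (by positivity) h3 2]

theorem lim_cos_pow {x : ℝ} (h0 : 0 < x) (h1 : x ≤ 1) {N : ℕ} (hN : 0 < N) :
    (Real.cos x ^ N) ^ 2 ≤ 3 / (N * x ^ 2) := by
  set t := Real.sin x ^ 2 with ht
  have t0 : 0 ≤ t := sq_nonneg _
  have t1 : t ≤ 1 := Real.sin_sq_le_one x
  have hc : (Real.cos x ^ N) ^ 2 = (1 - t) ^ N := by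
    rw [← pow_mul, mul_comm, pow_mul, Real.cos_sq']
  have h2 : (1 - t) ^ N * (1 + N * t) ≤ 1 := by
    calc (1 - t) ^ N * (1 + N * t) ≤ (1 - t) ^ N * (1 + t) ^ N := by
          exact mul_le_mul_of_nonneg_left (one_add_mul_le_pow (by linarith) N)
            (pow_nonneg (by linarith) _)
      _ = (1 - t ^ 2) ^ N := by rw [← mul_pow]; congr 1; ring
      _ ≤ 1 := pow_le_one₀ (by nlinarith) (by nlinarith)
  have h3 := lim_sin_sq h0 h1
  have hN' : (0 : ℝ) < N := by exact_mod_cast hN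
  have h4 : 0 ≤ (1 - t) ^ N := pow_nonneg (by linarith) _
  rw [hc, le_div_iff₀ (by positivity)]
  have h5 : N * x ^ 2 ≤ 3 * (1 + N * t) := by nlinarith
  nlinarith [mul_le_mul_of_nonneg_left h5 h4]

theorem lim_ev_small {m : ℕ} {f : ℕ → ℝ} (hf : Tendsto f atTop (𝓝 0)) :
    ∀ᶠ n in atTop, m * f n ≤ 1 / 2 := by
  have := hf.const_mul (m : ℝ)
  rw [mul_zero] at this
  exact this.eventually (eventually_le_nhds (by norm_num))

theorem lim_half : Tendsto (fun n : ℕ => 1 / (2 : ℝ) ^ n) atTop (𝓝 0) :=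
  (tendsto_pow_atTop_nhds_zero_of_lt_one (r := (1 / 2 : ℝ)) (by norm_num)
    (by norm_num)).congr fun n => by rw [one_div_pow]

theorem lim_key {m : ℕ} (hm : 1 ≤ m) (n : ℕ) : 3 / (NN n * (m * th n) ^ 2) ≤ 3 * (1 / 2 ^ n) := by
  have h1 : (1 : ℝ) ≤ m := by exact_mod_cast hm
  rw [mul_pow, mul_left_comm, lim_NN_th_sq, mul_one_div]
  gcongr
  exact le_mul_of_one_le_left (by positivity) (one_le_pow₀ h1)

theorem tendsto_cos {m : ℕ} (hm : 1 ≤ m) :
    Tendsto (fun n => Real.cos (m * th n) ^ NN n) atTop (𝓝 0) := by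
  have h1 : (0 : ℝ) < m := by exact_mod_cast hm
  have h : Tendsto (fun n => (Real.cos (m * th n) ^ NN n) ^ 2) atTop (𝓝 0) := by
    have h3 := lim_half.const_mul 3
    rw [mul_zero] at h3
    refine squeeze_zero' (Eventually.of_forall fun n => sq_nonneg _) ?_ h3
    filter_upwards [lim_ev_small (m := m) tendsto_th] with n hn
    exact (lim_cos_pow (mul_pos h1 (th_pos n)) (by linarith) (NN_pos n)).trans (lim_key hm n)
  rw [tendsto_zero_iff_abs_tendsto_zero]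
  have := h.sqrt
  simp only [Real.sqrt_sq_eq_abs, Real.sqrt_zero] at this
  exact this
theorem tendsto_sin {m : ℕ} (hm : 1 ≤ m) :
    Tendsto (fun n => 2 / Real.sin (m * th n) ^ 2 / NN n) atTop (𝓝 0) := by
  have h1 : (0 : ℝ) < m := by exact_mod_cast hm
  have h3 := (lim_half.const_mul 3).const_mul 2
  rw [mul_zero, mul_zero] at h3
  refine squeeze_zero' (Eventually.of_forall fun n => by positivity) ?_ h3
  filter_upwards [lim_ev_small (m := m) tendsto_th] with n hn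
  have hx := mul_pos h1 (th_pos n)
  have h4 := lim_sin_sq hx (by linarith)
  have hN : (0 : ℝ) < NN n := by exact_mod_cast NN_pos n
  refine le_trans ?_ (mul_le_mul_of_nonneg_left (lim_key hm n) (by norm_num))
  calc 2 / Real.sin (m * th n) ^ 2 / NN n ≤ 2 / ((m * th n) ^ 2 / 3) / NN n := by gcongr
    _ = 2 * (3 / (NN n * (m * th n) ^ 2)) := by field_simp
theorem ev_sin {m : ℕ} (hm : 1 ≤ m) :
    ∀ᶠ n in atTop, Real.sin (m * th n) ≠ 0 ∧ Real.sin (m * th n) ^ 2 ≤ 1 / 2 := by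
  have h1 : (0 : ℝ) < m := by exact_mod_cast hm
  filter_upwards [lim_ev_small (m := m) tendsto_th] with n hn
  have hx := mul_pos h1 (th_pos n)
  have h4 := lim_sin_sq hx (by linarith)
  refine ⟨fun h => ?_, ?_⟩
  · rw [h] at h4
    nlinarith [pow_pos hx 2]
  · have := Real.sin_sq_le_sq (x := m * th n)
    nlinarith
/-- `sin² x ≥ (2 x / π)² ≥ x² / 3`, `(1 - t) ^ N ≤ 1 / (1 + N t)` -/
theorem ev_cos {K m : ℕ} (hK : 1 ≤ K) (hm : 1 ≤ m) :
    ∀ᶠ n in atTop, (Real.cos (m * th' K n) ^ NN n) ^ 2 ≤ 3 / K := by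
  have h1 : (1 : ℝ) ≤ m := by exact_mod_cast hm
  have h2 : (0 : ℝ) < K := by exact_mod_cast hK
  filter_upwards [lim_ev_small (m := m) (lim_tendsto_th' K)] with n hn
  have hp : 0 < th' K n := Real.sqrt_pos.2 (by positivity)
  refine (lim_cos_pow (mul_pos (by linarith) hp) (by linarith) (NN_pos n)).trans ?_
  rw [mul_pow, mul_left_comm, NN_mul_th'_sq]
  gcongr
  exact le_mul_of_one_le_left h2.le (one_le_pow₀ h1)

variable {B : ℕ → StarSubalgebra ℂ Q}

theorem lim_comm (hU : UP α T π α' T') (hB : Blk B) {f g : ℕ → ℕ → Q} (hf : ∀ n i, f n i ∈ B i)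
    (hg : ∀ n i, g n i ∈ B i) (uf : ∀ n i, f n i ∈ unitary Q) (ug : ∀ n i, g n i ∈ unitary Q)
    {e : ℕ → ℝ} (ef : ∀ n i, ‖f n i - 1‖ ≤ e n) (eg : ∀ n i, ‖g n i - 1‖ ≤ e n)
    (he : Tendsto (fun n => NN n * e n ^ 3) atTop (𝓝 0)) {x y : Q'}
    (hx : Rp π (fun n => pr (f n) (NN n)) x) (hy : Rp π (fun n => pr (g n) (NN n)) y) :
    Commute x y := by
  refine hU.eq_of (hx.mul hy) (hy.mul hx) fun ε hε => om_le ?_
  have h8 := he.const_mul 8
  rw [mul_zero] at h8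
  filter_upwards [h8.eventually (eventually_le_nhds (pow_pos hε 2))] with n hn τ hτ
  have := comm_bound (hU.ts.tr τ hτ) hB (hf n) (hg n) (uf n) (ug n) (ef n) (eg n) (NN n)
  exact (pow_le_pow_iff_left₀ (Tr.n2_nonneg _ _) hε.le two_ne_zero).1 (by linarith)

theorem act_Vs (g : G) (a : ℕ → Q) (n : ℕ) : α g (Vs a n) = Vs (fun j => α g (a j)) n := by
  simp only [Vs, map_pr, map_rot]

theorem Vs_unitary {a : ℕ → Q} (ha : ∀ j, Sy (a j)) (n : ℕ) : Vs a n ∈ unitary Q :=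
  pr_unitary fun j _ => rot_unitary (ha j) _

theorem lim_Vs_pow (hB : Blk B) {a : ℕ → Q} (ha : ∀ j, Hp (B j) (a j)) (n m : ℕ) :
    Vs a n ^ m = pr (fun j => rot (m * th n) (a j)) (NN n) := by
  rw [Vs, pr_pow hB fun j => rot_mem (ha j).2.1 _]
  exact pr_congr fun j _ => rot_pow (ha j).1 _ _

theorem lim_haar (hU : UP α T π α' T') (hB : Blk B) {a : ℕ → Q} (ha : ∀ j, Hp (B j) (a j))
    {V : Q'} (hV : Rp π (Vs a) V) : Haar T' V := by
  refine ⟨hV.unitary (Vs_unitary fun j => (ha j).1), fun m hm => ?_⟩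
  refine hU.tr_zero (hV.pow m) fun ε hε => om_le ?_
  have h := (tendsto_cos hm).abs
  rw [abs_zero] at h
  filter_upwards [h.eventually (eventually_le_nhds hε)] with n hn τ hτ
  have := haar_eq (hU.ts.tr τ hτ) hB ha (m * th n) (x := 1) (fun _ y _ => Commute.one_left y) (NN n)
  rw [one_mul, (hU.ts.tr τ hτ).one, mul_one] at this
  rw [lim_Vs_pow hB ha, this, ← Complex.ofReal_pow, Complex.norm_real]
  exact hn

theorem lim_hash (hT : ∀ τ ∈ T, Tr τ) (hB : Blk B) {u v : ℕ → Q} (hu : ∀ j, Hp (B j) (u j))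
    (hv : ∀ j, Hp (B j) (v j)) {m : ℕ} (hm : 1 ≤ m) {ε : ℝ} (hε : 0 < ε) :
    ∀ᶠ n in (om : Filter ℕ), ∀ τ ∈ T, ‖τ (star (Vs u n) ^ m * Vs v n ^ m *
      ((1 / NN n : ℝ) : ℂ) • ∑ j ∈ Finset.range (NN n), dq (u j) (v j))‖ ≤ ε := by
  refine om_le ?_
  have h := (tendsto_sin hm).add (tendsto_th.const_mul (16 * m : ℝ))
  rw [mul_zero, add_zero] at h
  filter_upwards [h.eventually (eventually_le_nhds hε), ev_sin hm] with n hn hs τ hτ
  have hb := hash_bound (hT τ hτ) hB hu hv hs.1 hs.2 (NN n)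
  have hN : (0 : ℝ) < NN n := by exact_mod_cast NN_pos n
  rw [← star_pow, lim_Vs_pow hB hu, lim_Vs_pow hB hv, mul_smul_comm, map_smul, norm_smul,
    Complex.norm_real, Real.norm_of_nonneg (by positivity)]
  refine (mul_le_mul_of_nonneg_left hb (by positivity)).trans (le_trans (le_of_eq ?_) hn)
  rw [abs_of_nonneg (mul_nonneg (Nat.cast_nonneg m) (th_pos n).le)]
  field_simp

end Vale.Agent.P095.H
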