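import Vale.Agent.P095.H.LimB1

/-! Stage B: the limit objects. `exists_blocks`; `V i` represented by `Vs (a (2 j + i))`, `U c` by `Us`,
`D` by `Ds`; `A = gen (fun (i, g) => α' g (V i))`. Commutation by `lim_comm` in the double blocks
`Blk.pair` with `e n = C (th n + th' K n)` (`‖rot θ w - 1‖ ≤ 2 |θ|`), `gen_ca`, `gen_commute`;
`le`: at most `NN n / (P+1) + 1` indices, `UP.norm_le`; `hsh`: `lim_hash` in the blocks
`B (2 j + i)`, `Finset.sum_fiberwise`; `mom`, `dif`: `gen_zero` with `exists_ww`. -/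

open Filter Topology
open scoped BoundedContinuousFunction

namespace Vale.Agent.P095.H

variable {G Q : Type} [Group G] [CStarAlgebra Q]

variable {Q' : Type} [CStarAlgebra Q'] {α : G →* (Q ≃⋆ₐ[ℂ] Q)} {T : Set (Q →L[ℂ] ℂ)}
  {π : (ℕ →ᵇ Q) →⋆ₐ[ℂ] Q'} {α' : G →* (Q' ≃⋆ₐ[ℂ] Q')} {T' : Set (Q' →L[ℂ] ℂ)}

/-- limits of products of almost trivial unitaries in the double blocks -/
def GdB (π : (ℕ →ᵇ Q) →⋆ₐ[ℂ] Q') (B : ℕ → StarSubalgebra ℂ Q) (K : ℕ) (x : Q') : Prop :=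
  ∃ f : ℕ → ℕ → Q, (∀ n j, f n j ∈ B (2 * j) ⊔ B (2 * j + 1)) ∧ (∀ n j, f n j ∈ unitary Q) ∧
    (∀ n j, ‖f n j - 1‖ ≤ 2 * (th n + th' K n)) ∧ Rp π (fun n => pr (f n) (NN n)) x

theorem GdB.commute {B : ℕ → StarSubalgebra ℂ Q} {K : ℕ} (hU : UP α T π α' T') (hB : Blk B)
    {x y : Q'} (hx : GdB π B K x) (hy : GdB π B K y) : Commute x y := by
  obtain ⟨f, f1, f2, f3, f4⟩ := hx
  obtain ⟨g, g1, g2, g3, g4⟩ := hy
  exact lim_comm hU hB.pair f1 g1 f2 g2 f3 g3 (tendsto_cube K 2) f4 g4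

theorem GdB.unitary {B : ℕ → StarSubalgebra ℂ Q} {K : ℕ} {x : Q'} (hx : GdB π B K x) :
    x ∈ unitary Q' := by
  obtain ⟨f, -, f2, -, f4⟩ := hx
  exact f4.unitary fun n => pr_unitary fun i _ => f2 n i

theorem GdB.cs {B : ℕ → StarSubalgebra ℂ Q} {K : ℕ} {x : Q'} (hx : GdB π B K x) {z : Q}
    (hz : ∀ j, ∀ y ∈ B j, Commute z y) : Commute (cs π z) x := by
  obtain ⟨f, f1, -, -, f4⟩ := hx
  exact (Rp.const π z).commute f4 fun n =>
    commute_pr fun i _ => pay_commute_sup (hz _) (hz _) _ (f1 n i)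

theorem limB_card (N P : ℕ) (p : Fin (P + 1)) (h : P + 1 ≤ N) :
    ((Finset.range N).filter (fun j => Fin.ofNat (P + 1) j = p)).card * (P + 1) ≤ 2 * N := by
  have h1 : ((Finset.range N).filter (fun j => Fin.ofNat (P + 1) j = p)).card ≤
      (Finset.range (N / (P + 1) + 1)).card := by
    refine Finset.card_le_card_of_injOn (· / (P + 1)) (fun j hj => ?_) fun i hi j hj hij => ?_
    · have := Finset.mem_range.1 (Finset.mem_filter.1 hj).1
      exact Finset.mem_range.2 (Nat.lt_succ_of_le (Nat.div_le_div_right this.le))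
    · have e : i % (P + 1) = j % (P + 1) :=
        congrArg Fin.val ((Finset.mem_filter.1 hi).2.trans (Finset.mem_filter.1 hj).2.symm)
      have e' : i / (P + 1) = j / (P + 1) := hij
      rw [← Nat.div_add_mod i (P + 1), ← Nat.div_add_mod j (P + 1), e, e']
  rw [Finset.card_range] at h1
  have h2 := Nat.div_mul_le_self N (P + 1)
  have h3 := Nat.mul_le_mul_right (P + 1) h1
  rw [add_mul] at h3
  omega

theorem limB_norm {S : Set Q} {B : ℕ → StarSubalgebra ℂ Q} {a : ℕ → Q} (h : Bk α S B a) (P : ℕ)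
    (i : Fin 2) (p : Fin (P + 1)) (g k : G) (n : ℕ) : ‖Ds α a P i p g k n‖ ≤ 1 / NN n *
      (((Finset.range (NN n)).filter (fun j => Fin.ofNat (P + 1) j = p)).card * 4) := by
  rw [Ds, norm_smul, Complex.norm_real, Real.norm_of_nonneg (by positivity)]
  refine mul_le_mul_of_nonneg_left ((norm_sum_le _ _).trans ?_) (by positivity)
  rw [← nsmul_eq_mul]
  exact Finset.sum_le_card_nsmul _ _ _ fun j _ =>
    norm_dq_le ((h.hp _).1.map (α g)) ((h.hp _).1.map (α k))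

theorem limB_gz {ι : Type} {x : ι → Q'} (W : Submonoid Q') (h1 : ∀ i, x i ∈ W)
    (h2 : ∀ i, star (x i) ∈ W) (z : Q') (τ : Q' →L[ℂ] ℂ) (hz : ∀ y ∈ W, τ (y * z) = 0) :
    ∀ y ∈ gen x, τ (y * z) = 0 := by
  have e : ∀ y, (τ.comp ((ContinuousLinearMap.mul ℂ Q').flip z)) y = τ (y * z) := fun y => by
    rw [ContinuousLinearMap.comp_apply, ContinuousLinearMap.flip_apply,
      ContinuousLinearMap.mul_apply']
  intro y hy
  rw [← e]
  exact gen_zero W h1 h2 _ (fun y hy => (e y).trans (hz y hy)) y hy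

section parts

variable {S : Set Q} {B : ℕ → StarSubalgebra ℂ Q} {a : ℕ → Q}

theorem Bk.hp' (h : Bk α S B a) (j : ℕ) (g : G) : Hp (B j) (α g (a j)) := (h.hp j).act (h.inv j) g

theorem Bk.sy2 (h : Bk α S B a) (j : ℕ) (g : G) : Sy (α g (a (2 * j)) * α g (a (2 * j + 1))) :=
  (h.hp' _ g).1.mul (h.hp' _ g).1 (h.blk _ _ (by omega) _ (h.hp' _ g).2.1 _ (h.hp' _ g).2.1)

theorem Bk.blk2 (h : Bk α S B a) (i : ℕ) : Blk fun j => B (2 * j + i) :=
  fun j k hjk => h.blk _ _ (by omega)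

theorem limB_bdd (h : Bk α S B a) (P : ℕ) (i : Fin 2) (p : Fin (P + 1)) (g k : G) (n : ℕ) :
    ‖Ds α a P i p g k n‖ ≤ 4 := by
  refine (limB_norm h P i p g k n).trans ?_
  have h1 : (0 : ℝ) < NN n := by exact_mod_cast NN_pos n
  have h2 : (((Finset.range (NN n)).filter (fun j => Fin.ofNat (P + 1) j = p)).card : ℝ) ≤
      NN n := by
    exact_mod_cast (Finset.card_filter_le _ _).trans_eq (Finset.card_range _)
  rw [one_div, inv_mul_le_iff₀ h1]
  linarith

theorem limB_gV (h : Bk α S B a) (K : ℕ) (i : Fin 2) (g : G) {x : Q'}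
    (hx : Rp π (Vs fun j => α g (a (2 * j + i))) x) : GdB π B K x := by
  refine ⟨fun n j => rot (th n) (α g (a (2 * j + i))), fun n j => rot_mem ?_ _,
    fun n j => rot_unitary (h.hp' _ g).1 _,
    fun n j => (norm_rot_sub_one (h.hp' _ g).1 _).trans ?_, hx⟩
  · have := (h.hp' (2 * j + i) g).2.1
    fin_cases i
    · exact (le_sup_left : B (2 * j) ≤ _) this
    · exact (le_sup_right : B (2 * j + 1) ≤ _) this
  · rw [abs_of_pos (th_pos n)]
    linarith [th'_nonneg K n]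

theorem limB_gU (h : Bk α S B a) {P K : ℕ} (c : Fin (P + 1) → G) {x : Q'}
    (hx : Rp π (Us α a P K c) x) : GdB π B K x := by
  refine ⟨fun n j => rot (th' K n) (α (c (Fin.ofNat (P + 1) j)) (a (2 * j)) *
    α (c (Fin.ofNat (P + 1) j)) (a (2 * j + 1))),
    fun n j => rot_mem (pay_mul_mem (h.hp' _ _).2.1 (h.hp' _ _).2.1) _,
    fun n j => rot_unitary (h.sy2 j _) _,
    fun n j => (norm_rot_sub_one (h.sy2 j _) _).trans ?_, hx⟩
  rw [abs_of_nonneg (th'_nonneg K n)]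
  linarith [th_pos n]

theorem limB_act (a : ℕ → Q) (P K : ℕ) (g : G) (c : Fin (P + 1) → G) (n : ℕ) :
    α g (Us α a P K c n) = Us α a P K (fun p => g * c p) n := by
  simp only [Us, map_pr, map_rot, map_mul]
  rfl

theorem limB_ps (h : Bk α S B a) (P : ℕ) (i : Fin 2) (p : Fin (P + 1)) (g k : G) (n : ℕ) :
    Ps (Ds α a P i p g k n) :=
  (Ps.sum _ fun _ _ => ps_dq (h.hp' _ g).1.1 (h.hp' _ k).1.1).smul (by positivity)

theorem limB_le (hU : UP α T π α' T') (h : Bk α S B a) {P : ℕ} {i : Fin 2} {p : Fin (P + 1)}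
    {g k : G} {x : Q'} (hx : Rp π (Ds α a P i p g k) x) : ‖x‖ ≤ 8 / (P + 1) := by
  refine hU.norm_le hx (by positivity) ?_
  filter_upwards [om_le (tendsto_NN.eventually_ge_atTop (P + 1))] with n hn
  refine (limB_norm h P i p g k n).trans ?_
  have h1 : (0 : ℝ) < NN n := by exact_mod_cast NN_pos n
  have h2 : (((Finset.range (NN n)).filter (fun j => Fin.ofNat (P + 1) j = p)).card : ℝ) *
      (P + 1) ≤ 2 * NN n := by exact_mod_cast limB_card (NN n) P p hn
  rw [one_div, inv_mul_le_iff₀ h1, ← mul_div_assoc, le_div_iff₀ (by positivity)]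
  linarith

theorem limB_hsh (hU : UP α T π α' T') (h : Bk α S B a) {P : ℕ} {i : Fin 2} {g k : G}
    {x y : Q'} (hx : Rp π (Vs fun j => α g (a (2 * j + i))) x)
    (hy : Rp π (Vs fun j => α k (a (2 * j + i))) y) {D : Fin (P + 1) → Q'}
    (hD : ∀ p, Rp π (Ds α a P i p g k) (D p)) {m : ℕ} (hm : 1 ≤ m) :
    ∀ τ ∈ T', τ (star x ^ m * y ^ m * ∑ p, D p) = 0 := by
  refine hU.tr_zero (((hx.star.pow m).mul (hy.pow m)).mul
    (Rp.sum Finset.univ fun p _ => hD p)) fun ε hε => ?_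
  filter_upwards [lim_hash hU.ts.tr (h.blk2 i) (fun j => h.hp' _ g) (fun j => h.hp' _ k) hm hε]
    with n hn
  simp only [Ds, ← Finset.smul_sum, Finset.sum_fiberwise]
  exact hn

end parts

theorem exists_db [Countable G] (hM : M2e Q) (hU : UP α T π α' T') {S : Set Q} (hS : S.Countable)
    (P : ℕ) {K : ℕ} (hK : 1 ≤ K) : ∃ A V U D, DB α' T' (cs π '' S) P K A V U D := by
  obtain ⟨B, a, b, hB, inv, hab, cS⟩ := exists_blocks α hM hS
  have h : Bk α S B a := ⟨hB, inv, fun j => ⟨(hab j).1, (hab j).2.2.2.1, b j, (hab j).2.2.2.2,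
    (hab j).2.1, by rw [(hab j).2.2.1, neg_neg]⟩, cS⟩
  choose V hV using fun i : Fin 2 => Rp.of_bdd π (Vs fun j => a (2 * j + i)) 1 fun n =>
    norm_le_of_unitary (Vs_unitary (fun j => (h.hp _).1) n)
  choose U hUc using fun c : Fin (P + 1) → G => Rp.of_bdd π (Us α a P K c) 1 fun n =>
    norm_le_of_unitary (pr_unitary fun j _ => rot_unitary (h.sy2 j _) _)
  choose D hD using fun (i : Fin 2) (p : Fin (P + 1)) (g k : G) =>
    Rp.of_bdd π (Ds α a P i p g k) 4 (limB_bdd h P i p g k)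
  have hVg : ∀ (i : Fin 2) g, Rp π (Vs fun j => α g (a (2 * j + i))) (α' g (V i)) := fun i g =>
    (hU.rp_act (hV i) g).congr fun n => act_Vs g _ n
  have gV : ∀ (i : Fin 2) g, GdB π B K (α' g (V i)) := fun i g => limB_gV h K i g (hVg i g)
  have gU : ∀ c, GdB π B K (U c) := fun c => limB_gU h c (hUc c)
  have xu : ∀ x : Fin 2 × G, α' x.2 (V x.1) ∈ unitary Q' := fun x => (gV x.1 x.2).unitary
  obtain ⟨W, W1, W2⟩ := exists_ww hU h
  have gz := limB_gz (x := fun x : Fin 2 × G => α' x.2 (V x.1)) W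
    (fun x => (W2 x.1 x.2 _ (hV x.1)).1) fun x => (W2 x.1 x.2 _ (hV x.1)).2
  refine ⟨gen fun x : Fin 2 × G => α' x.2 (V x.1), V, U, D, ?_⟩
  constructor
  · refine gen_ca xu (fun x y => (gV _ _).commute hU hB (gV _ _)) fun g x => ⟨(x.1, g * x.2), ?_⟩
    rw [map_mul]
    rfl
  · exact isClosed_gen _
  · intro i
    have := mem_gen (fun x : Fin 2 × G => α' x.2 (V x.1)) (i, 1)
    rw [map_one] at this
    exact this
  · exact fun i => lim_haar hU (h.blk2 i) (fun j => h.hp _) (hV i)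
  · exact fun c => (gU c).unitary
  · exact fun g c => ((hU.rp_act (hUc c) g).congr (limB_act a P K g c)).unique (hUc _)
  · exact fun c => gen_commute xu fun x => (gU c).commute hU hB (gV _ _)
  · rintro _ ⟨x, hx, rfl⟩
    exact ⟨fun c => ((gU c).cs fun j => cS j x hx).symm, fun y hy =>
      (gen_commute xu (fun z => (gV _ _).cs fun j => cS j x hx) y hy).symm⟩
  · exact fun i p g k => (hD i p g k).ps (limB_ps h P i p g k)
  · exact fun i p g k => limB_le hU h (hD i p g k)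
  · exact fun i g k m hm => limB_hsh hU h (hVg i g) (hVg i k) (fun p => hD i p g k) hm
  · intro m hm
    obtain ⟨l, l1, l2⟩ := limB_mom hU h P hK hm
    refine ⟨l, l1, fun c => ?_⟩
    rintro _ ⟨x, hx, rfl⟩ y hy τ hτ
    exact gz _ τ (fun y hy => l2 c _ (hUc c) x hx y (W1 y hy) τ hτ) y hy
  · intro c c'
    obtain ⟨X, X1, X2⟩ := limB_dif hU h P K c c' (hUc c) (hUc c')
      (D := fun i p => D i p (c p) (c' p)) fun i p => hD i p _ _
    exact ⟨X, X1, fun y hy τ hτ => gz _ τ (fun y hy => X2 y (W1 y hy) τ hτ) y hy⟩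

end Vale.Agent.P095.H
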