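import Vale.Agent.P095.H.BDefs

/-! Stage B: words, moments and differences in the limit. -/

open Filter Topology
open scoped BoundedContinuousFunction

namespace Vale.Agent.P095.H

variable {G Q : Type} [Group G] [CStarAlgebra Q]

variable {Q' : Type} [CStarAlgebra Q'] {α : G →* (Q ≃⋆ₐ[ℂ] Q)} {T : Set (Q →L[ℂ] ℂ)}
  {π : (ℕ →ᵇ Q) →⋆ₐ[ℂ] Q'} {α' : G →* (Q' ≃⋆ₐ[ℂ] Q')} {T' : Set (Q' →L[ℂ] ℂ)}

variable {S : Set Q} {B : ℕ → StarSubalgebra ℂ Q} {a : ℕ → Q}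

theorem limb1_one (B : ℕ → StarSubalgebra ℂ Q) (n : ℕ) : Wd B 0 n 1 :=
  ⟨fun _ => 1, fun _ => 1, fun _ => one_mem _, fun _ => one_mem _, fun _ => one_mem _,
    fun _ => one_mem _, fun _ => by simp, fun _ => by simp, by simp only [mul_one, pr_one]⟩

theorem limb1_mul (hB : Blk B) {k k' : ℝ} {n : ℕ} {y y' : Q} (h : Wd B k n y) (h' : Wd B k' n y') :
    Wd B (k + k') n (y * y') := by
  obtain ⟨f, f', m1, m2, u1, u2, e1, e2, rfl⟩ := h
  obtain ⟨g, g', m3, m4, u3, u4, e3, e4, rfl⟩ := h'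
  refine ⟨fun j => f j * g j, fun j => f' j * g' j, fun j => mul_mem (m1 j) (m3 j),
    fun j => mul_mem (m2 j) (m4 j), fun j => mul_mem (u1 j) (u3 j), fun j => mul_mem (u2 j) (u4 j),
    fun j => ?_, fun j => ?_, ?_⟩
  · rw [add_mul]
    exact hash_norm_mul_sub (norm_le_of_unitary (u1 j)) (e1 j) (e3 j)
  · rw [add_mul]
    exact hash_norm_mul_sub (norm_le_of_unitary (u2 j)) (e2 j) (e4 j)
  · rw [pr_mul hB.pair (fun j => pay_mul_mem (m1 j) (m2 j)) fun j => pay_mul_mem (m3 j) (m4 j)]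
    exact pr_congr fun j _ => (hB _ _ (by omega) _ (m2 j) _ (m3 j)).mul_mul_mul_comm _ _

theorem limb1_rot (i : Fin 2) {w : ℕ → Q} (hw : ∀ j, Hp (B (2 * j + i)) (w j)) {n : ℕ} {θ : ℝ}
    (hθ : |θ| = th n) : Wd B 2 n (pr (fun j => rot θ (w j)) (NN n)) := by
  have e1 : ∀ j, ‖rot θ (w j) - 1‖ ≤ 2 * th n := fun j => hθ ▸ norm_rot_sub_one (hw j).1 θ
  have e2 : ‖(1 : Q) - 1‖ ≤ 2 * th n := by
    rw [sub_self, norm_zero]
    exact mul_nonneg zero_le_two (th_pos n).le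
  fin_cases i
  · exact ⟨fun j => rot θ (w j), fun _ => 1, fun j => rot_mem (hw j).2.1 θ, fun _ => one_mem _,
      fun j => rot_unitary (hw j).1 θ, fun _ => one_mem _, e1, fun _ => e2,
      by simp only [mul_one]⟩
  · exact ⟨fun _ => 1, fun j => rot θ (w j), fun _ => one_mem _, fun j => rot_mem (hw j).2.1 θ,
      fun _ => one_mem _, fun j => rot_unitary (hw j).1 θ, fun _ => e2, e1,
      by simp only [one_mul]⟩

theorem limb1_sy (hB : Blk B) {j : ℕ} {w w' : Q} (hw : Hp (B (2 * j)) w)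
    (hw' : Hp (B (2 * j + 1)) w') : Sy (w * w') :=
  hw.1.mul hw'.1 (hB _ _ (by omega) _ hw.2.1 _ hw'.2.1)

theorem limb1_zero (hU : UP α T π α' T') {f : ℕ → Q} {x : Q'} (hf : Rp π f x) {e : ℕ → ℝ}
    (he : Tendsto e atTop (𝓝 0)) (H : ∀ n, ∀ τ ∈ T, ‖τ (f n)‖ ≤ e n) : ∀ τ ∈ T', τ x = 0 :=
  hU.tr_zero hf fun _ hε => ((he.eventually (ge_mem_nhds hε)).mono fun n hn τ hτ =>
    (H n τ hτ).trans hn).filter_mono om_le

/-- `WW` is closed under products (`pr_mul` for `Blk.pair`), contains `1`, and the translates of the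
hash unitaries and their adjoints (`k = 2`, one of `f, f'` is `1`). -/
theorem exists_ww (hU : UP α T π α' T') (h : Bk α S B a) : ∃ W : Submonoid Q',
    (∀ y ∈ W, WW π B y) ∧ ∀ (i : Fin 2) (g : G) (V : Q'),
      Rp π (Vs fun j => a (2 * j + i)) V → α' g V ∈ W ∧ star (α' g V) ∈ W := by
  refine ⟨⟨⟨{y | WW π B y}, ?_⟩, 0, fun _ => 1, limb1_one B, Rp.one⟩, fun _ hy => hy,
    fun i g V hV => ?_⟩
  · rintro y y' ⟨k, f, hf, rf⟩ ⟨k', f', hf', rf'⟩
    exact ⟨k + k', _, fun n => limb1_mul h.blk (hf n) (hf' n), rf.mul rf'⟩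
  · have hw : ∀ j, Hp (B (2 * j + i)) (α g (a (2 * j + i))) := fun j => (h.hp _).act (h.inv _) g
    have hB : Blk fun j => B (2 * j + i) := fun j l hl => h.blk _ _ (by omega)
    have r1 := (hU.rp_act hV g).congr (act_Vs g _)
    refine ⟨⟨2, _, fun n => limb1_rot i hw (abs_of_pos (th_pos n)), r1⟩,
      ⟨2, _, fun n => limb1_rot i hw ((abs_neg _).trans (abs_of_pos (th_pos n))),
        r1.star.congr fun n => ?_⟩⟩
    rw [Vs, star_pr hB fun j => rot_mem (hw j).2.1 _]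
    exact pr_congr fun j _ => star_rot (hw j).1 _

/-- `l` = limit along `om` of `cos (m th') ^ NN n`; `pr_pow`, `rot_pow`, `pay_mom`, `tendsto_mix`,
`UP.rp_smul`, `ev_cos`. -/
theorem limB_mom (hU : UP α T π α' T') (h : Bk α S B a) (P : ℕ) {K m : ℕ} (hK : 1 ≤ K)
    (hm : 1 ≤ m) : ∃ l : ℂ, ‖l‖ ^ 2 ≤ 3 / K ∧ ∀ c u, Rp π (Us α a P K c) u → ∀ x ∈ S, ∀ y,
      WW π B y → ∀ τ ∈ T', τ (y * (cs π x * u ^ m - l • cs π x)) = 0 := by
  have hc : ∀ n, ‖(Real.cos (m * th' K n) : ℂ) ^ NN n‖ ≤ 1 := fun n => by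
    rw [norm_pow, Complex.norm_real]
    exact pow_le_one₀ (norm_nonneg _) (Real.abs_cos_le_one _)
  obtain ⟨l, -, hl⟩ := (isCompact_closedBall (0 : ℂ) 1).ultrafilter_le_nhds'
    (om.map fun n => (Real.cos (m * th' K n) : ℂ) ^ NN n)
    (Ultrafilter.mem_map.2 (univ_mem' fun n => mem_closedBall_zero_iff.2 (hc n)))
  replace hl : Tendsto (fun n => (Real.cos (m * th' K n) : ℂ) ^ NN n) om (𝓝 l) := hl
  refine ⟨l, le_of_tendsto (hl.norm.pow 2) (((ev_cos hK hm).mono fun n hn => ?_).filter_mono om_le),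
    fun c u hu x hx y ⟨k, f, hf, rf⟩ => ?_⟩
  · rwa [← Complex.ofReal_pow, Complex.norm_real, Real.norm_eq_abs, sq_abs]
  have he := (tendsto_mix K).const_mul (m * k ^ 2 * ‖x‖)
  rw [mul_zero] at he
  refine limb1_zero hU (rf.mul (((Rp.const π x).mul (hu.pow m)).sub
    (hU.rp_smul (Rp.const π x) hc hl))) he fun n τ hτ => ?_
  obtain ⟨g, g', m1, m2, u1, u2, e1, e2, e⟩ := hf n
  have hw := fun j i => (h.hp i).act (h.inv i) (c (Fin.ofNat (P + 1) j))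
  have h1 := pay_mom (hU.ts.tr τ hτ) h.blk (fun j => hw j (2 * j)) (fun j => hw j (2 * j + 1))
    m1 m2 u1 u2 e1 e2 (m * th' K n) (fun i => h.cS i x hx) (NN n)
  rw [abs_of_nonneg (mul_nonneg m.cast_nonneg (th'_nonneg K n))] at h1
  rw [e, Us, pr_pow h.blk.pair fun j => rot_mem (pay_mul_mem (hw j _).2.1 (hw j _).2.1) _,
    pr_congr fun j _ => rot_pow (limb1_sy h.blk (hw j (2 * j)) (hw j (2 * j + 1))) _ m]
  exact h1.trans_eq (by ring)

/-- `X` is represented by `payX (th' K n) ..` (`norm_payX_le`); `pay_dif`, `pay_pos`,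
`th' ^ 2 = K / NN n`, `Finset.sum_fiberwise`. -/
theorem limB_dif (hU : UP α T π α' T') (h : Bk α S B a) (P K : ℕ) (c c' : Fin (P + 1) → G)
    {u u' : Q'} (hu : Rp π (Us α a P K c) u) (hu' : Rp π (Us α a P K c') u')
    {D : Fin 2 → Fin (P + 1) → Q'} (hD : ∀ i p, Rp π (Ds α a P i p (c p) (c' p)) (D i p)) :
    ∃ X, Ps ((K : ℂ) • ∑ p, (D 0 p + D 1 p) - rp X) ∧
      ∀ y, WW π B y → ∀ τ ∈ T', τ (y * (1 - star u * u' - X)) = 0 := by
  have hw := fun (c : Fin (P + 1) → G) j i => (h.hp i).act (h.inv i) (c (Fin.ofNat (P + 1) j))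
  have hs := fun c j => limb1_sy h.blk (hw c j (2 * j)) (hw c j (2 * j + 1))
  obtain ⟨X, rX⟩ := Rp.of_bdd π _ (2 * K) fun n => (norm_payX_le (hs c) (hs c') (th' K n)
    (NN n)).trans_eq (by rw [mul_assoc, NN_mul_th'_sq])
  refine ⟨X, (((Rp.sum Finset.univ fun p _ => (hD 0 p).add (hD 1 p)).smul (K : ℂ)).sub
    ((rX.add rX.star).smul (1 / 2))).ps fun n => ?_, fun y ⟨k, f, hf, rf⟩ => ?_⟩
  · have h1 := pay_pos h.blk (fun j => hw c j (2 * j)) (fun j => hw c j (2 * j + 1))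
      (fun j => hw c' j (2 * j)) (fun j => hw c' j (2 * j + 1)) (th' K n) (NN n)
    have h2 : ∀ i : Fin 2, ∑ p, Ds α a P i p (c p) (c' p) n = ((1 / NN n : ℝ) : ℂ) •
        ∑ j ∈ Finset.range (NN n), dq (α (c (Fin.ofNat (P + 1) j)) (a (2 * j + i)))
          (α (c' (Fin.ofNat (P + 1) j)) (a (2 * j + i))) := fun i => by
      rw [← Finset.sum_fiberwise _ (Fin.ofNat (P + 1)), Finset.smul_sum]
      refine Finset.sum_congr rfl fun p _ => congrArg _ (Finset.sum_congr rfl fun j hj => ?_)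
      rw [(Finset.mem_filter.1 hj).2]
    have h3 : (K : ℂ) * ((1 / NN n : ℝ) : ℂ) = ((th' K n ^ 2 : ℝ) : ℂ) := by
      have h4 : (0 : ℝ) < NN n := Nat.cast_pos.2 (NN_pos n)
      rw [← Complex.ofReal_natCast K, ← Complex.ofReal_mul, ← NN_mul_th'_sq K n]
      congr 1
      field_simp
    rw [Finset.sum_add_distrib, h2, h2, ← smul_add, smul_smul, h3, ← Finset.sum_add_distrib]
    exact h1
  · have he := ((tendsto_mix K).const_mul (2 * k ^ 2)).add (tendsto_th.const_mul (2 * k * K))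
    rw [mul_zero, mul_zero, add_zero] at he
    refine limb1_zero hU (rf.mul ((Rp.one.sub (hu.star.mul hu')).sub rX)) he fun n τ hτ => ?_
    obtain ⟨g, g', m1, m2, u1, u2, e1, e2, e⟩ := hf n
    have h1 := pay_dif (hU.ts.tr τ hτ) h.blk (fun j => hw c j (2 * j)) (fun j => hw c j (2 * j + 1))
      (fun j => hw c' j (2 * j)) (fun j => hw c' j (2 * j + 1)) m1 m2 u1 u2 e1 e2 (th' K n) (NN n)
    rw [abs_of_nonneg (th'_nonneg K n)] at h1
    rw [e, ← NN_mul_th'_sq K n]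
    exact h1.trans_eq (by ring)

end Vale.Agent.P095.H
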