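import Vale.Agent.P095.H.Lim
import Vale.Agent.P095.H.NoAtom

/-! Stage C: the limit objects. `exists_blocks` (with `S = ∅`) gives `a j, b j`; `x 0 = a`, `x 1 = b`;
`V i` represented by `Vs (x i)`; `q n` from `IB.part` with `k = 5 n` (`2 ^ (5 n) = NN n`) for the
countable set of all `α g (x i j)`, `α g (Vs (x i) n)` and
`star (α g Vs) ^ m * α h Vs ^ m * dq (α g (x i j)) (α h (x i j))`; `e i` represented by
`∑ j, q n j * x i j`. `dq (α g e) (α h e) = ∑ j, q n j * dq ..` (`PU.sum_mul_sum`), so its trace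
against the word is that of the average (`lim_hash`). `‖[α g e, α h Vs]‖ ≤ 4 th n` by
`PU.norm_sum_le`, `norm_comm_pr`. `A = gen`. -/

open Filter Topology
open scoped BoundedContinuousFunction

namespace Vale.Agent.P095.H

variable {G Q : Type} [Group G] [CStarAlgebra Q]

variable {Q' : Type} [CStarAlgebra Q'] {α : G →* (Q ≃⋆ₐ[ℂ] Q)} {T : Set (Q →L[ℂ] ℂ)}
  {π : (ℕ →ᵇ Q) →⋆ₐ[ℂ] Q'} {α' : G →* (Q' ≃⋆ₐ[ℂ] Q')} {T' : Set (Q' →L[ℂ] ℂ)}

theorem limC_part (hB : IB α T) {S : Set Q} (hS : S.Countable) (n : ℕ) :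
    ∃ q : Fin (NN n) → Q, PU q ∧ (∀ g i, α g (q i) = q i) ∧
      ∀ x ∈ S, ∀ i, Commute (q i) x ∧ ∀ τ ∈ T, τ (x * q i) = τ x / NN n := by
  have e : NN n = 2 ^ (5 * n) := by
    rw [NN, pow_mul]
    norm_num
  rw [e]
  obtain ⟨q, h1, h2, h3⟩ := hB.part hS (5 * n)
  exact ⟨q, h1, h2, by simpa using h3⟩

section fin

variable {ι : Type} [Fintype ι] {q u v : ι → Q}

theorem limC_sy (h : PU q) (hu : ∀ j, Sy (u j)) (hc : ∀ i j, Commute (q i) (u j)) :
    Sy (∑ j, q j * u j) := by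
  refine ⟨?_, ?_⟩
  · rw [IsSelfAdjoint, h.star_sum fun i => hc i i]
    exact Finset.sum_congr rfl fun j _ => by rw [(hu j).1.star_eq]
  · rw [h.sum_mul_sum hc, ← h.sum]
    exact Finset.sum_congr rfl fun j _ => by rw [(hu j).2, mul_one]

theorem limC_anti (h : PU q) (hu : ∀ i j, Commute (q i) (u j)) (hv : ∀ i j, Commute (q i) (v j))
    (ha : ∀ j, u j * v j = -(v j * u j)) :
    (∑ j, q j * u j) * (∑ j, q j * v j) + (∑ j, q j * v j) * ∑ j, q j * u j = 0 := by
  rw [h.sum_mul_sum hu, h.sum_mul_sum hv, ← Finset.sum_add_distrib]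
  exact Finset.sum_eq_zero fun j _ => by rw [ha, mul_neg, neg_add_cancel]

theorem limC_dq (h : PU q) (hu : ∀ i j, Commute (q i) (u j)) (hv : ∀ i j, Commute (q i) (v j)) :
    dq (∑ j, q j * u j) (∑ j, q j * v j) = ∑ j, dq (u j) (v j) * q j := by
  have e : ∑ j, q j * u j - ∑ j, q j * v j = ∑ j, q j * (u j - v j) := by
    simp only [mul_sub, Finset.sum_sub_distrib]
  have hc : ∀ i j, Commute (q i) (u j - v j) := fun i j => (hu i j).sub_right (hv i j)
  rw [dq, e, h.sum_mul_sum hc]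
  exact Finset.sum_congr rfl fun j _ => ((hc j j).mul_right (hc j j)).eq

theorem limC_comm (h : PU q) (hu : ∀ j, Commute (q j) (u j)) {W : Q}
    (hW : ∀ j, Commute (q j) W) {c : ℝ} (hc : 0 ≤ c) (hb : ∀ j, ‖W * u j - u j * W‖ ≤ c) :
    ‖W * (∑ j, q j * u j) - (∑ j, q j * u j) * W‖ ≤ c := by
  have e : W * (∑ j, q j * u j) - (∑ j, q j * u j) * W = ∑ j, q j * (W * u j - u j * W) := by
    rw [Finset.mul_sum, Finset.sum_mul, ← Finset.sum_sub_distrib]
    refine Finset.sum_congr rfl fun j _ => ?_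
    rw [mul_sub, ← mul_assoc, ← (hW j).eq, mul_assoc, mul_assoc]
  rw [e]
  refine h.norm_sum_le (fun j => ((hW j).mul_right (hu j)).sub_right ((hu j).mul_right (hW j))) hc
    fun j => (norm_mul_le _ _).trans ?_
  exact (mul_le_of_le_one_left (norm_nonneg _) (h.proj j).norm_le).trans (hb j)

end fin

theorem exists_dc [Countable G] (hM : M2e Q) (hB : IB α T) (hU : UP α T π α' T') :
    ∃ A V e, DC α' T' A V e := by
  obtain ⟨B, a, b, blk, inv, hab, -⟩ := exists_blocks α hM Set.countable_empty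
  obtain ⟨x, x0, x1⟩ : ∃ x : Fin 2 → ℕ → Q, x 0 = a ∧ x 1 = b := ⟨![a, b], rfl, rfl⟩
  have hp : ∀ i j, Hp (B j) (x i j) := by
    intro i j
    obtain ⟨h1, h2, h3, h4, h5⟩ := hab j
    fin_cases i
    · exact x0 ▸ ⟨h1, h4, b j, h5, h2, by rw [h3, neg_neg]⟩
    · exact x1 ▸ ⟨h2, h5, a j, h4, h1, h3⟩
  have hp' : ∀ i g j, Hp (B j) (α g (x i j)) := fun i g j => (hp i j).act (inv j) g
  have hS : (Set.range (fun z : Fin 2 × G × ℕ => α z.2.1 (x z.1 z.2.2)) ∪
      Set.range (fun z : Fin 2 × G × ℕ => Vs (fun j => α z.2.1 (x z.1 j)) z.2.2) ∪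
      Set.range (fun z : Fin 2 × (G × G) × ℕ × ℕ × ℕ =>
        star (Vs (fun j => α z.2.1.1 (x z.1 j)) z.2.2.1) ^ z.2.2.2.1 *
          Vs (fun j => α z.2.1.2 (x z.1 j)) z.2.2.1 ^ z.2.2.2.1 *
          dq (α z.2.1.1 (x z.1 z.2.2.2.2)) (α z.2.1.2 (x z.1 z.2.2.2.2)))).Countable :=
    ((Set.countable_range _).union (Set.countable_range _)).union (Set.countable_range _)
  choose q pu qi qS using limC_part hB hS
  have c1 : ∀ n k i g j, Commute (q n k) (α g (x i j)) := fun n k i g j =>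
    (qS n _ (Or.inl (Or.inl ⟨(i, g, j), rfl⟩)) k).1
  have c0 : ∀ n k i j, Commute (q n k) (x i j) := fun n k i j => by
    simpa using c1 n k i 1 j
  have c2 : ∀ n k i g, Commute (q n k) (Vs (fun j => α g (x i j)) n) := fun n k i g =>
    (qS n _ (Or.inl (Or.inr ⟨(i, g, n), rfl⟩)) k).1
  have c3 : ∀ n k i g h m j, ∀ τ ∈ T, τ (star (Vs (fun j => α g (x i j)) n) ^ m *
      Vs (fun j => α h (x i j)) n ^ m * dq (α g (x i j)) (α h (x i j)) * q n k) =
      τ (star (Vs (fun j => α g (x i j)) n) ^ m * Vs (fun j => α h (x i j)) n ^ m *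
        dq (α g (x i j)) (α h (x i j))) / NN n := fun n k i g h m j =>
    (qS n _ (Or.inr ⟨(i, (g, h), n, m, j), rfl⟩) k).2
  have sy : ∀ i n, Sy (∑ j : Fin (NN n), q n j * x i j) := fun i n =>
    limC_sy (pu n) (fun j => (hp i j).1) fun k j => c0 n k i j
  choose V hV using fun i : Fin 2 => Rp.of_bdd π (Vs (x i)) 1 fun n =>
    norm_le_of_unitary (Vs_unitary (fun j => (hp i j).1) n)
  choose e he using fun i : Fin 2 =>
    Rp.of_bdd π (fun n => ∑ j : Fin (NN n), q n j * x i j) 1 fun n => (sy i n).norm_le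
  have hVg : ∀ i g, Rp π (Vs fun j => α g (x i j)) (α' g (V i)) := fun i g =>
    (hU.rp_act (hV i) g).congr fun n => act_Vs g _ n
  have heg : ∀ i g, Rp π (fun n => ∑ j : Fin (NN n), q n j * α g (x i j)) (α' g (e i)) :=
    fun i g => (hU.rp_act (he i) g).congr fun n => by simp only [map_sum, map_mul, qi]
  have xu : ∀ z : Fin 2 × G, α' z.2 (V z.1) ∈ unitary Q' := fun z =>
    (hVg z.1 z.2).unitary (Vs_unitary fun j => (hp' _ _ j).1)
  have r1 : ∀ i g n j, ‖rot (th n) (α g (x i j)) - 1‖ ≤ 2 * th n := fun i g n j =>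
    (norm_rot_sub_one (hp' i g j).1 _).trans_eq (by rw [abs_of_pos (th_pos n)])
  have r2 : ∀ i g n j, ‖rot (th n) (α g (x i j)) - 1‖ ≤ 2 * (th n + th' 0 n) := fun i g n j =>
    (r1 i g n j).trans (by linarith [th'_nonneg 0 n])
  refine ⟨gen fun z : Fin 2 × G => α' z.2 (V z.1), V, e, ?_⟩
  constructor
  · refine gen_ca xu (fun y z => ?_) fun g z => ⟨(z.1, g * z.2), ?_⟩
    · exact lim_comm hU blk (fun n j => rot_mem (hp' _ _ j).2.1 _)
        (fun n j => rot_mem (hp' _ _ j).2.1 _) (fun n j => rot_unitary (hp' _ _ j).1 _)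
        (fun n j => rot_unitary (hp' _ _ j).1 _) (r2 y.1 y.2) (r2 z.1 z.2) (tendsto_cube 0 2)
        (hVg y.1 y.2) (hVg z.1 z.2)
    · rw [map_mul]
      rfl
  · exact isClosed_gen _
  · intro i
    have := mem_gen (fun z : Fin 2 × G => α' z.2 (V z.1)) (i, 1)
    rw [map_one] at this
    exact this
  · exact fun i => lim_haar hU blk (hp i) (hV i)
  · exact fun i => ⟨(he i).sa fun n => (sy i n).1,
      (((he i).mul (he i)).congr fun n => (sy i n).2).unique Rp.one⟩
  · refine eq_neg_of_add_eq_zero_left ?_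
    refine ((((he 0).mul (he 1)).add ((he 1).mul (he 0))).congr fun n => ?_).unique Rp.zero
    refine limC_anti (pu n) (fun k j => c0 n k 0 j) (fun k j => c0 n k 1 j) fun j => ?_
    rw [x0, x1]
    exact (hab j).2.2.1
  · intro i g
    refine gen_commute xu fun z => Commute.symm ?_
    refine hU.eq_of ((hVg z.1 z.2).mul (heg i g)) ((heg i g).mul (hVg z.1 z.2))
      (UP.nu_of_norm hU.ts fun ε hε => ?_)
    filter_upwards [om_le (tendsto_th.eventually_le_const (by positivity : (0 : ℝ) < ε / 4))]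
      with n hn
    refine limC_comm (pu n) (fun j => c1 n j i g j) (fun j => c2 n j z.1 z.2) hε.le fun j => ?_
    refine (norm_comm_pr blk (fun j => rot_mem (hp' _ _ j).2.1 _)
      (fun j => norm_le_of_unitary (rot_unitary (hp' _ _ j).1 _)) (r1 z.1 z.2 n) (NN n) j
      (hp' i g j).2.1).trans ?_
    have h1 := (hp' i g j).1.norm_le
    nlinarith [th_pos n]
  · intro i g h m hm
    have hD : Rp π (fun n => dq (∑ j : Fin (NN n), q n j * α g (x i j))
        (∑ j : Fin (NN n), q n j * α h (x i j))) (dq (α' g (e i)) (α' h (e i))) :=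
      ((heg i g).sub (heg i h)).mul ((heg i g).sub (heg i h))
    refine hU.tr_zero ((((hVg i g).star.pow m).mul ((hVg i h).pow m)).mul hD) fun ε hε => ?_
    filter_upwards [lim_hash hU.ts.tr blk (hp' i g) (hp' i h) hm hε] with n hn τ hτ
    refine le_of_eq_of_le (congrArg norm ?_) (hn τ hτ)
    rw [limC_dq (pu n) (fun k j => c1 n k i g j) (fun k j => c1 n k i h j), Finset.mul_sum,
      map_sum, mul_smul_comm, map_smul, Finset.mul_sum, map_sum, ← Fin.sum_univ_eq_sum_range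
        (fun j => τ (star (Vs (fun j => α g (x i j)) n) ^ m * Vs (fun j => α h (x i j)) n ^ m *
          dq (α g (x i j)) (α h (x i j)))), Finset.smul_sum]
    refine Finset.sum_congr rfl fun j _ => ?_
    rw [← mul_assoc, c3 n j i g h m j τ hτ, smul_eq_mul]
    push_cast
    ring

end Vale.Agent.P095.H
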