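import Vale.Agent.P095.H.Defs

/-! Positivity and tracial states. Use `let _ := CStarAlgebra.spectralOrder Q`,
`have _ := CStarAlgebra.spectralOrderedRing Q` and `ps_iff` for the order facts. -/

open Filter Topology
open scoped BoundedContinuousFunction

namespace Vale.Agent.P095.H

variable {G Q : Type} [Group G] [CStarAlgebra Q]


theorem ps_iff [PartialOrder Q] [StarOrderedRing Q] {x : Q} : Ps x ↔ 0 ≤ x :=
  CStarAlgebra.nonneg_iff_eq_star_mul_self.symm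

theorem Ps.zero : Ps (0 : Q) := ⟨0, by simp⟩
theorem Ps.one : Ps (1 : Q) := ⟨1, by simp⟩
theorem Ps.sq (x : Q) : Ps (star x * x) := ⟨x, rfl⟩
theorem Ps.sa {x : Q} (h : Ps x) : IsSelfAdjoint x := by
  obtain ⟨y, rfl⟩ := h
  exact IsSelfAdjoint.star_mul_self y
theorem Ps.add {x y : Q} (hx : Ps x) (hy : Ps y) : Ps (x + y) := by
  let _ := CStarAlgebra.spectralOrder Q
  have _ := CStarAlgebra.spectralOrderedRing Q
  exact ps_iff.2 (add_nonneg (ps_iff.1 hx) (ps_iff.1 hy))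
theorem Ps.sum {ι : Type} (s : Finset ι) {f : ι → Q} (h : ∀ i ∈ s, Ps (f i)) :
    Ps (∑ i ∈ s, f i) :=
  Finset.sum_induction f Ps (fun _ _ => Ps.add) Ps.zero h
theorem Ps.smul {x : Q} (hx : Ps x) {c : ℝ} (hc : 0 ≤ c) : Ps ((c : ℂ) • x) := by
  obtain ⟨y, rfl⟩ := hx
  refine ⟨((√c : ℝ) : ℂ) • y, ?_⟩
  rw [star_smul, smul_mul_smul_comm, Complex.star_def, Complex.conj_ofReal, ← Complex.ofReal_mul,
    Real.mul_self_sqrt hc]
theorem Ps.conj {x : Q} (hx : Ps x) (y : Q) : Ps (star y * x * y) := by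
  obtain ⟨z, rfl⟩ := hx
  exact ⟨z * y, by simp only [star_mul, mul_assoc]⟩
theorem Ps.mul {x y : Q} (hx : Ps x) (hy : Ps y) (h : Commute x y) : Ps (x * y) := by
  let _ := CStarAlgebra.spectralOrder Q
  have _ := CStarAlgebra.spectralOrderedRing Q
  exact ps_iff.2 (Commute.mul_nonneg (ps_iff.1 hx) (ps_iff.1 hy) h)
theorem Ps.map {Q' F : Type} [CStarAlgebra Q'] [FunLike F Q Q'] [MulHomClass F Q Q']
    [StarHomClass F Q Q'] (φ : F) {x : Q} (hx : Ps x) : Ps (φ x) := by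
  obtain ⟨y, rfl⟩ := hx
  exact ⟨φ y, by rw [map_mul, map_star]⟩
theorem Ps.of_norm_le {x : Q} (hx : IsSelfAdjoint x) {c : ℝ} (h : ‖x‖ ≤ c) :
    Ps ((c : ℂ) • (1 : Q) - x) := by
  let _ := CStarAlgebra.spectralOrder Q
  have _ := CStarAlgebra.spectralOrderedRing Q
  have h1 : Ps (((‖x‖ : ℝ) : ℂ) • (1 : Q) - x) := by
    have h2 := hx.le_algebraMap_norm_self
    rw [Algebra.algebraMap_eq_smul_one, ← Complex.coe_smul] at h2
    exact ps_iff.2 (sub_nonneg.2 h2)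
  have h2 := (Ps.one.smul (sub_nonneg.2 h) : Ps (((c - ‖x‖ : ℝ) : ℂ) • (1 : Q))).add h1
  rwa [Complex.ofReal_sub, sub_smul, sub_add_sub_cancel] at h2
theorem Ps.norm_le {x y : Q} (hx : Ps x) (h : Ps (y - x)) : ‖x‖ ≤ ‖y‖ := by
  let _ := CStarAlgebra.spectralOrder Q
  have _ := CStarAlgebra.spectralOrderedRing Q
  exact CStarAlgebra.norm_le_norm_of_nonneg_of_le (ps_iff.1 hx) (sub_nonneg.1 (ps_iff.1 h))
theorem Ps.proj {p : Q} (h : IsStarProjection p) : Ps p :=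
  ⟨p, by rw [h.isSelfAdjoint.star_eq, h.isIdempotentElem.eq]⟩
theorem ps_dq {u v : Q} (hu : IsSelfAdjoint u) (hv : IsSelfAdjoint v) : Ps (dq u v) :=
  ⟨u - v, by rw [(hu.sub hv).star_eq, dq]⟩

theorem Sy.unitary {a : Q} (h : Sy a) : a ∈ unitary Q := by
  rw [Unitary.mem_iff, h.1.star_eq]
  exact ⟨h.2, h.2⟩
theorem norm_le_of_unitary {u : Q} (h : u ∈ unitary Q) : ‖u‖ ≤ 1 := by
  nontriviality Q
  exact (CStarRing.norm_of_mem_unitary h).le
theorem Sy.norm_le {a : Q} (h : Sy a) : ‖a‖ ≤ 1 := norm_le_of_unitary h.unitary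
theorem norm_dq_le {u v : Q} (hu : Sy u) (hv : Sy v) : ‖dq u v‖ ≤ 4 := by
  have h1 : ‖u - v‖ ≤ 2 := (norm_sub_le u v).trans (by linarith [hu.norm_le, hv.norm_le])
  refine (norm_mul_le _ _).trans ?_
  nlinarith [norm_nonneg (u - v)]
theorem Sy.map {Q' F : Type} [CStarAlgebra Q'] [FunLike F Q Q'] [MonoidHomClass F Q Q']
    [StarHomClass F Q Q'] (φ : F) {a : Q} (h : Sy a) : Sy (φ a) :=
  ⟨h.1.map φ, by rw [← map_mul, h.2, map_one]⟩
theorem Sy.mul {a b : Q} (ha : Sy a) (hb : Sy b) (h : Commute a b) : Sy (a * b) := by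
  refine ⟨?_, ?_⟩
  · rw [IsSelfAdjoint, star_mul, ha.1.star_eq, hb.1.star_eq, h.eq]
  · rw [h.symm.mul_mul_mul_comm, ha.2, hb.2, one_mul]

theorem pos_cs {τ : Q →L[ℂ] ℂ} (h2 : ∀ x, 0 ≤ (τ (star x * x)).re)
    (h3 : ∀ x, τ (star x) = starRingEnd ℂ (τ x)) (x y : Q) :
    ‖τ (star x * y)‖ ≤ n2 τ x * n2 τ y := by
  let c : PreInnerProductSpace.Core ℂ Q :=
    { inner := fun x y => τ (star x * y)
      conj_inner_symm := fun x y => by
        change starRingEnd ℂ (τ (star y * x)) = τ (star x * y)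
        rw [← h3, star_mul, star_star]
      re_inner_nonneg := h2
      add_left := fun x y z => by
        change τ (star (x + y) * z) = τ (star x * z) + τ (star y * z)
        rw [star_add, add_mul, map_add]
      smul_left := fun x y r => by
        change τ (star (r • x) * y) = starRingEnd ℂ r * τ (star x * y)
        rw [star_smul, smul_mul_assoc, map_smul]
        rfl }
  have h4 : ‖τ (star x * y)‖ * ‖τ (star y * x)‖ ≤ (τ (star x * x)).re * (τ (star y * y)).re :=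
    @InnerProductSpace.Core.inner_mul_inner_self_le ℂ Q _ _ _ c x y
  have h5 : ‖τ (star y * x)‖ = ‖τ (star x * y)‖ := by
    rw [← Complex.norm_conj, ← h3, star_mul, star_star]
  rw [h5] at h4
  unfold n2
  rw [← Real.sqrt_mul (h2 x)]
  exact Real.le_sqrt_of_sq_le (by rwa [sq])

theorem pos_n2_le {τ : Q →L[ℂ] ℂ} (h1 : τ 1 = 1) (h2 : ∀ x, 0 ≤ (τ (star x * x)).re) (x : Q) :
    n2 τ x ≤ ‖x‖ := by
  obtain ⟨y, hy⟩ := Ps.of_norm_le (IsSelfAdjoint.star_mul_self x)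
    (CStarRing.norm_star_mul_self (x := x)).le
  have h3 := h2 y
  rw [← hy, map_sub, map_smul, h1, smul_eq_mul, mul_one, Complex.sub_re, Complex.ofReal_re] at h3
  exact Real.sqrt_le_iff.2 ⟨norm_nonneg x, by nlinarith⟩

/-- For a positive unital functional use `PositiveLinearMap` API or Cauchy-Schwarz; the trace
property follows from `τ (x* x) = τ (x x*)` by polarization. -/
theorem Tr.of_pos {τ : Q →L[ℂ] ℂ} (h1 : τ 1 = 1)
    (h2 : ∀ x, 0 ≤ (τ (star x * x)).re ∧ (τ (star x * x)).im = 0)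
    (h3 : ∀ x, τ (star x * x) = τ (x * star x)) : Tr τ := by
  have a1 : ∀ x, (τ (star x)).im = -(τ x).im := by
    intro x
    have e := (h2 (1 + x)).2
    rw [star_add, star_one, add_mul, mul_add, mul_add, one_mul, one_mul, mul_one, map_add, map_add,
      map_add, h1] at e
    simp only [Complex.add_im, Complex.one_im, (h2 x).2] at e
    linarith
  have a2 : ∀ x, τ (star x) = starRingEnd ℂ (τ x) := by
    intro x
    have e := a1 (Complex.I • x)
    rw [star_smul, map_smul, map_smul] at e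
    apply Complex.ext
    · simpa using e
    · simpa using a1 x
  have a3 : ∀ x y, τ (star x * y) - τ (y * star x) + (τ (star y * x) - τ (x * star y)) = 0 := by
    intro x y
    have e := h3 (x + y)
    simp only [star_add, add_mul, mul_add, map_add] at e
    linear_combination e - h3 x - h3 y
  refine ⟨h1, fun x => (h2 x).1, a2, fun x y => ?_, fun x => ?_⟩
  · have e1 := a3 (star x) y
    have e2 := a3 (star x) (Complex.I • y)
    simp only [star_star, star_smul, mul_smul_comm, smul_mul_assoc, map_smul, smul_eq_mul,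
      Complex.star_def, Complex.conj_I] at e1 e2
    linear_combination (1 / 2 : ℂ) * e1 - (Complex.I / 2) * e2 +
      (1 / 2 : ℂ) * (τ (x * y) - τ (y * x) - τ (star y * star x) + τ (star x * star y)) *
        Complex.I_sq
  · have e := pos_cs (fun x => (h2 x).1) a2 1 x
    rw [star_one, one_mul] at e
    refine e.trans ?_
    have e1 : n2 τ 1 = 1 := by simp [n2, h1]
    rw [e1, one_mul]
    exact pos_n2_le h1 (fun x => (h2 x).1) x

namespace Tr

variable {τ : Q →L[ℂ] ℂ}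

theorem im_eq (h : Tr τ) {x : Q} (hx : IsSelfAdjoint x) : (τ x).im = 0 := by
  have e := h.sa x
  rw [hx.star_eq] at e
  exact Complex.conj_eq_iff_im.1 e.symm
theorem re_nonneg (h : Tr τ) {x : Q} (hx : Ps x) : 0 ≤ (τ x).re := by
  obtain ⟨y, rfl⟩ := hx
  exact h.pos y
theorem re_mul_nonneg (h : Tr τ) {x y : Q} (hx : Ps x) (hy : Ps y) : 0 ≤ (τ (x * y)).re := by
  obtain ⟨b, rfl⟩ := hy
  have e := h.re_nonneg (hx.conj (star b))
  rwa [star_star, mul_assoc, h.tr, mul_assoc] at e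
theorem re_mul_le (h : Tr τ) {x y : Q} (hx : Ps x) (hy : IsSelfAdjoint y) :
    (τ (x * y)).re ≤ ‖y‖ * (τ x).re := by
  have e := h.re_mul_nonneg hx (Ps.of_norm_le hy le_rfl)
  rw [mul_sub, mul_smul_comm, mul_one, map_sub, map_smul, smul_eq_mul, Complex.sub_re,
    Complex.re_ofReal_mul] at e
  linarith
theorem re_mul_rp (h : Tr τ) {p : Q} (hp : IsSelfAdjoint p) (X : Q) :
    (τ (p * X)).re = (τ (p * rp X)).re := by
  have e : τ (p * star X) = starRingEnd ℂ (τ (p * X)) := by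
    rw [← h.sa, star_mul, hp.star_eq, h.tr]
  rw [rp, mul_smul_comm, mul_add, map_smul, map_add, e, Complex.add_conj, smul_eq_mul]
  simp
theorem n2_nonneg (τ : Q →L[ℂ] ℂ) (x : Q) : 0 ≤ n2 τ x := Real.sqrt_nonneg _
theorem n2_sq (h : Tr τ) (x : Q) : n2 τ x ^ 2 = (τ (star x * x)).re := Real.sq_sqrt (h.pos x)
theorem n2_le_of (h : Tr τ) {x : Q} {ε : ℝ} (hε : 0 ≤ ε) (hx : (τ (star x * x)).re ≤ ε ^ 2) :
    n2 τ x ≤ ε := by
  have _ := h
  exact Real.sqrt_le_iff.2 ⟨hε, hx⟩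
theorem cs_le (h : Tr τ) (x y : Q) : ‖τ (star x * y)‖ ≤ n2 τ x * n2 τ y := pos_cs h.pos h.sa x y
theorem norm_le_n2 (h : Tr τ) (x : Q) : ‖τ x‖ ≤ n2 τ x := by
  have e := h.cs_le 1 x
  have e1 : n2 τ 1 = 1 := by simp [n2, h.one]
  rwa [star_one, one_mul, e1, one_mul] at e
theorem n2_le (h : Tr τ) (x : Q) : n2 τ x ≤ ‖x‖ := pos_n2_le h.one h.pos x
theorem n2_zero (τ : Q →L[ℂ] ℂ) : n2 τ 0 = 0 := by simp [n2]
theorem n2_neg (τ : Q →L[ℂ] ℂ) (x : Q) : n2 τ (-x) = n2 τ x := by simp [n2]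
theorem n2_star (h : Tr τ) (x : Q) : n2 τ (star x) = n2 τ x := by
  rw [n2, n2, star_star, h.tr]
theorem n2_smul (h : Tr τ) (c : ℂ) (x : Q) : n2 τ (c • x) = ‖c‖ * n2 τ x := by
  have _ := h
  rw [n2, n2, star_smul, smul_mul_smul_comm, map_smul, smul_eq_mul, Complex.star_def,
    Complex.conj_mul', ← Complex.ofReal_pow, Complex.re_ofReal_mul, Real.sqrt_mul (sq_nonneg _),
    Real.sqrt_sq (norm_nonneg c)]
theorem n2_add (h : Tr τ) (x y : Q) : n2 τ (x + y) ≤ n2 τ x + n2 τ y := by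
  refine h.n2_le_of (add_nonneg (n2_nonneg τ x) (n2_nonneg τ y)) ?_
  have e1 := (Complex.re_le_norm _).trans (h.cs_le x y)
  have e2 := (Complex.re_le_norm _).trans (h.cs_le y x)
  simp only [star_add, add_mul, mul_add, map_add, Complex.add_re, ← h.n2_sq]
  nlinarith
theorem n2_sum (h : Tr τ) {ι : Type} (s : Finset ι) (f : ι → Q) :
    n2 τ (∑ i ∈ s, f i) ≤ ∑ i ∈ s, n2 τ (f i) :=
  Finset.le_sum_of_subadditive (n2 τ) (n2_zero τ).le h.n2_add s f
theorem n2_mul_left (h : Tr τ) (x y : Q) : n2 τ (x * y) ≤ ‖x‖ * n2 τ y := by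
  refine h.n2_le_of (mul_nonneg (norm_nonneg x) (n2_nonneg τ y)) ?_
  have e := h.re_nonneg ((Ps.of_norm_le (IsSelfAdjoint.star_mul_self x)
    (CStarRing.norm_star_mul_self (x := x)).le).conj y)
  rw [mul_sub, sub_mul, mul_smul_comm, smul_mul_assoc, mul_one, map_sub, map_smul, smul_eq_mul,
    Complex.sub_re, Complex.re_ofReal_mul, ← h.n2_sq] at e
  rw [star_mul, ← mul_assoc, mul_assoc (star y)]
  nlinarith
theorem n2_mul_right (h : Tr τ) (x y : Q) : n2 τ (x * y) ≤ n2 τ x * ‖y‖ := by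
  have e := h.n2_mul_left (star y) (star x)
  rwa [← star_mul, h.n2_star, h.n2_star, norm_star, mul_comm] at e
/-- `|τ (x y)| ≤ ‖y‖ τ x` for positive `x = z* z`: Cauchy-Schwarz for `τ (z y z*)`. -/
theorem norm_mul_le (h : Tr τ) {x : Q} (hx : Ps x) (y : Q) :
    ‖τ (x * y)‖ ≤ ‖y‖ * (τ x).re := by
  obtain ⟨z, rfl⟩ := hx
  rw [mul_assoc, ← h.n2_sq]
  refine (h.cs_le z (z * y)).trans ?_
  have e := mul_le_mul_of_nonneg_left (h.n2_mul_right z y) (n2_nonneg τ z)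
  nlinarith
theorem n2_sub_unitary (h : Tr τ) {u v : Q} (hu : u ∈ unitary Q) (hv : v ∈ unitary Q) :
    n2 τ (u - v) ^ 2 = 2 * (τ (1 - star u * v)).re := by
  have e : (τ (star v * u)).re = (τ (star u * v)).re := by
    rw [← Complex.conj_re, ← h.sa, star_mul, star_star]
  rw [h.n2_sq]
  simp only [star_sub, sub_mul, mul_sub, map_sub, Complex.sub_re, (Unitary.mem_iff.1 hu).1,
    (Unitary.mem_iff.1 hv).1, e]
  ring
/-- `τ (x w) = τ (p p x w) = τ (x p w p) = - τ (x w)` -/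
theorem lin (h : Tr τ) {x w p : Q} (hp : Sy p) (hw : p * w = -(w * p)) (hx : Commute x p) :
    τ (x * w) = 0 := by
  have e1 : τ (x * w) = τ (p * (x * w * p)) := by
    rw [h.tr p, mul_assoc _ p p, hp.2, mul_one]
  have e2 : p * (x * w * p) = -(x * w) := by
    rw [← mul_assoc, ← mul_assoc, ← hx.eq, mul_assoc x p w, hw, mul_neg, neg_mul, mul_assoc,
      mul_assoc, hp.2, mul_one]
  rw [e2, map_neg] at e1
  linear_combination (1 / 2 : ℂ) * e1
theorem comm0 (h : Tr τ) {x y : Q} (hx : Commute x y) (z : Q) : τ (x * (y * z - z * y)) = 0 := by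
  rw [mul_sub, map_sub, ← mul_assoc, ← mul_assoc, h.tr (x * z), ← mul_assoc, hx.eq, sub_self]

end Tr

theorem TS.sm_act {α : G →* (Q ≃⋆ₐ[ℂ] Q)} {T : Set (Q →L[ℂ] ℂ)} (h : TS α T) {x : Q} {ε : ℝ}
    (hx : Sm T x ε) (g : G) : Sm T (α g x) ε := by
  intro τ hτ
  obtain ⟨τ', h1, h2⟩ := h.inv τ hτ g
  have e := hx τ' h1
  rwa [n2, h2, map_mul, map_star] at e

theorem TS.haar {α : G →* (Q ≃⋆ₐ[ℂ] Q)} {T : Set (Q →L[ℂ] ℂ)} (h : TS α T) {V : Q}
    (hV : Haar T V) (g : G) : Haar T (α g V) := by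
  refine ⟨?_, fun m hm τ hτ => ?_⟩
  · have e := Unitary.mem_iff.1 hV.1
    rw [Unitary.mem_iff, ← map_star, ← map_mul, ← map_mul, e.1, e.2, map_one]
    exact ⟨rfl, rfl⟩
  · obtain ⟨τ', h1, h2⟩ := h.inv τ hτ g
    rw [← map_pow, ← h2]
    exact hV.2 m hm τ' h1

theorem Sm.mono {T : Set (Q →L[ℂ] ℂ)} {x : Q} {ε δ : ℝ} (h : Sm T x ε) (hδ : ε ≤ δ) : Sm T x δ :=
  fun τ hτ => (h τ hτ).trans hδ


end Vale.Agent.P095.H
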