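import Vale.Agent.P095.H.Alg

/-! Calculus of representing sequences in the tracial ultrapower.
For the `_ev` lemmas argue by contradiction: choose bad traces `τ n` on an `om`-large set
(any element of `T` elsewhere) and use `UP.ex`. -/

open Filter Topology
open scoped BoundedContinuousFunction

namespace Vale.Agent.P095.H

variable {G Q : Type} [Group G] [CStarAlgebra Q]

variable {Q' : Type} [CStarAlgebra Q'] {α : G →* (Q ≃⋆ₐ[ℂ] Q)} {T : Set (Q →L[ℂ] ℂ)}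
  {π : (ℕ →ᵇ Q) →⋆ₐ[ℂ] Q'} {α' : G →* (Q' ≃⋆ₐ[ℂ] Q')} {T' : Set (Q' →L[ℂ] ℂ)}


theorem om_le : (om : Filter ℕ) ≤ atTop := by
  exact Nat.hyperfilter_le_atTop

namespace Rp

variable {f g : ℕ → Q} {x y : Q'}

theorem of_bdd (π : (ℕ →ᵇ Q) →⋆ₐ[ℂ] Q') (f : ℕ → Q) (C : ℝ) (h : ∀ n, ‖f n‖ ≤ C) :
    ∃ x, Rp π f x := by
  exact ⟨_, BoundedContinuousFunction.ofNormedAddCommGroupDiscrete f C h, fun _ => rfl, rfl⟩
theorem bdd (h : Rp π f x) : ∃ C, ∀ n, ‖f n‖ ≤ C := by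
  obtain ⟨u, hu, -⟩ := h
  exact ⟨‖u‖, fun n => hu n ▸ u.norm_coe_le_norm n⟩
theorem unique (h : Rp π f x) (h' : Rp π f y) : x = y := by
  obtain ⟨u, hu, rfl⟩ := h
  obtain ⟨v, hv, rfl⟩ := h'
  exact congrArg π (BoundedContinuousFunction.ext fun n => (hu n).trans (hv n).symm)
theorem congr (h : Rp π f x) (hg : ∀ n, f n = g n) : Rp π g x := by
  obtain ⟨u, hu, rfl⟩ := h
  exact ⟨u, fun n => (hu n).trans (hg n), rfl⟩
theorem const (π : (ℕ →ᵇ Q) →⋆ₐ[ℂ] Q') (a : Q) : Rp π (fun _ => a) (cs π a) := by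
  exact ⟨cst Q a, fun _ => rfl, rfl⟩
theorem one : Rp π (fun _ => (1 : Q)) 1 := by
  exact ⟨1, fun _ => rfl, map_one π⟩
theorem zero : Rp π (fun _ => (0 : Q)) 0 := by
  exact ⟨0, fun _ => rfl, map_zero π⟩
theorem add (h : Rp π f x) (h' : Rp π g y) : Rp π (fun n => f n + g n) (x + y) := by
  obtain ⟨u, hu, rfl⟩ := h
  obtain ⟨v, hv, rfl⟩ := h'
  exact ⟨u + v, fun n => congrArg₂ (· + ·) (hu n) (hv n), map_add π u v⟩
theorem sub (h : Rp π f x) (h' : Rp π g y) : Rp π (fun n => f n - g n) (x - y) := by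
  obtain ⟨u, hu, rfl⟩ := h
  obtain ⟨v, hv, rfl⟩ := h'
  exact ⟨u - v, fun n => congrArg₂ (· - ·) (hu n) (hv n), map_sub π u v⟩
theorem mul (h : Rp π f x) (h' : Rp π g y) : Rp π (fun n => f n * g n) (x * y) := by
  obtain ⟨u, hu, rfl⟩ := h
  obtain ⟨v, hv, rfl⟩ := h'
  exact ⟨u * v, fun n => congrArg₂ (· * ·) (hu n) (hv n), map_mul π u v⟩
theorem star (h : Rp π f x) : Rp π (fun n => star (f n)) (star x) := by
  obtain ⟨u, hu, rfl⟩ := h
  exact ⟨Star.star u, fun n => congrArg Star.star (hu n), map_star π u⟩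
theorem smul (h : Rp π f x) (c : ℂ) : Rp π (fun n => c • f n) (c • x) := by
  obtain ⟨u, hu, rfl⟩ := h
  exact ⟨c • u, fun n => congrArg (c • ·) (hu n), map_smul π c u⟩
theorem pow (h : Rp π f x) (m : ℕ) : Rp π (fun n => f n ^ m) (x ^ m) := by
  induction m with
  | zero => simpa only [pow_zero] using one
  | succ m ih => simpa only [pow_succ] using ih.mul h
theorem sum {ι : Type} (s : Finset ι) {f : ι → ℕ → Q} {x : ι → Q'} (h : ∀ i ∈ s, Rp π (f i) (x i)) :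
    Rp π (fun n => ∑ i ∈ s, f i n) (∑ i ∈ s, x i) := by
  classical
  induction s using Finset.induction_on with
  | empty => simpa only [Finset.sum_empty] using zero
  | insert i s hi ih =>
    simpa only [Finset.sum_insert hi] using (h i (Finset.mem_insert_self i s)).add
      (ih fun j hj => h j (Finset.mem_insert_of_mem hj))
theorem ps (h : Rp π f x) (hf : ∀ n, Ps (f n)) : Ps x := by
  choose g hg using hf
  obtain ⟨C, hC⟩ := h.bdd
  obtain ⟨z, hz⟩ := of_bdd π g √C fun n => Real.le_sqrt_of_sq_le (by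
    rw [sq, ← CStarRing.norm_star_mul_self, ← hg]
    exact hC n)
  exact ⟨z, h.unique ((hz.star.mul hz).congr fun n => (hg n).symm)⟩
theorem sa (h : Rp π f x) (hf : ∀ n, IsSelfAdjoint (f n)) : IsSelfAdjoint x := by
  exact (h.star.congr fun n => (hf n).star_eq).unique h
theorem unitary (h : Rp π f x) (hf : ∀ n, f n ∈ unitary Q) : x ∈ unitary Q' := by
  exact Unitary.mem_iff.2
    ⟨((h.star.mul h).congr fun n => (Unitary.mem_iff.1 (hf n)).1).unique one,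
      ((h.mul h.star).congr fun n => (Unitary.mem_iff.1 (hf n)).2).unique one⟩
theorem commute (h : Rp π f x) (h' : Rp π g y) (hc : ∀ n, Commute (f n) (g n)) : Commute x y := by
  exact ((h.mul h').congr fun n => (hc n).eq).unique (h'.mul h)
theorem mem_lft (h : Rp π f x) {A : StarSubalgebra ℂ Q} (hf : ∀ n, f n ∈ A) : x ∈ lft π A := by
  obtain ⟨u, hu, rfl⟩ := h
  exact ⟨u, fun n => (hu n).symm ▸ hf n, rfl⟩

end Rp

theorem of_mem_lft {A : StarSubalgebra ℂ Q} {x : Q'} (h : x ∈ lft π A) :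
    ∃ f, (∀ n, f n ∈ A) ∧ Rp π f x := by
  obtain ⟨u, hu, rfl⟩ := h
  exact ⟨u, hu, u, fun _ => rfl, rfl⟩

namespace UP

variable {f g : ℕ → Q} {x y : Q'}

theorem exists_rp (h : UP α T π α' T') (x : Q') : ∃ f, Rp π f x ∧ ∀ n, ‖f n‖ ≤ ‖x‖ := by
  obtain ⟨r, h1, h2⟩ := lift_norm π h.surj x
  exact ⟨r, ⟨r, fun _ => rfl, h1⟩, fun n => (r.norm_coe_le_norm n).trans h2⟩
theorem exists_rp_sa (h : UP α T π α' T') (hx : IsSelfAdjoint x) :
    ∃ f, Rp π f x ∧ ∀ n, ‖f n‖ ≤ ‖x‖ ∧ IsSelfAdjoint (f n) := by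
  obtain ⟨r, h1, h2, h3⟩ := lift_sa π h.surj hx
  exact ⟨r, ⟨r, fun _ => rfl, h1⟩, fun n => ⟨(r.norm_coe_le_norm n).trans h2,
    congrArg (fun u : ℕ →ᵇ Q => u n) h3.star_eq⟩⟩
theorem rp_act (h : UP α T π α' T') (hf : Rp π f x) (a : G) :
    Rp π (fun n => α a (f n)) (α' a x) := by
  obtain ⟨u, hu, rfl⟩ := hf
  exact ⟨BoundedContinuousFunction.ofNormedAddCommGroupDiscrete (fun n => α a (u n)) ‖u‖
    fun n => (StarAlgEquiv.norm_map (α a) _).trans_le (u.norm_coe_le_norm n),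
    fun n => congrArg (α a) (hu n), h.act a u _ fun _ => rfl⟩
theorem act_cs (h : UP α T π α' T') (a : G) (z : Q) : α' a (cs π z) = cs π (α a z) := by
  exact (h.rp_act (Rp.const π z) a).unique (Rp.const π (α a z))
theorem tendsto (h : UP α T π α' T') {τ' : Q' →L[ℂ] ℂ} (hτ : τ' ∈ T') :
    ∃ τ : ℕ → (Q →L[ℂ] ℂ), (∀ n, τ n ∈ T) ∧ ∀ f x, Rp π f x →
      Tendsto (fun n => τ n (f n)) (om : Filter ℕ) (𝓝 (τ' x)) := by
  obtain ⟨τ, h1, h2⟩ := h.lim τ' hτ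
  refine ⟨τ, h1, ?_⟩
  rintro f _ ⟨u, hu, rfl⟩
  simpa only [hu] using h2 u
theorem tr_le (h : UP α T π α' T') (hf : Rp π f x) {ε : ℝ}
    (H : ∀ᶠ n in (om : Filter ℕ), ∀ τ ∈ T, ‖τ (f n)‖ ≤ ε) : ∀ τ ∈ T', ‖τ x‖ ≤ ε := by
  intro τ' hτ
  obtain ⟨τ, h1, h2⟩ := h.tendsto hτ
  exact le_of_tendsto (h2 f x hf).norm (H.mono fun n hn => hn _ (h1 n))
theorem tr_zero (h : UP α T π α' T') (hf : Rp π f x)
    (H : ∀ ε > 0, ∀ᶠ n in (om : Filter ℕ), ∀ τ ∈ T, ‖τ (f n)‖ ≤ ε) : ∀ τ ∈ T', τ x = 0 := by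
  intro τ hτ
  exact norm_le_zero_iff.1 (le_of_forall_pos_le_add fun ε hε => by
    rw [zero_add]
    exact h.tr_le hf (H ε hε) τ hτ)
theorem re_le (h : UP α T π α' T') (hf : Rp π f x) {c : ℝ}
    (H : ∀ᶠ n in (om : Filter ℕ), ∀ τ ∈ T, (τ (f n)).re ≤ c) : ∀ τ ∈ T', (τ x).re ≤ c := by
  intro τ' hτ
  obtain ⟨τ, h1, h2⟩ := h.tendsto hτ
  exact le_of_tendsto ((Complex.continuous_re.tendsto _).comp (h2 f x hf))
    (H.mono fun n hn => hn _ (h1 n))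
theorem rep_bad (h : UP α T π α' T') {P : ℕ → (Q →L[ℂ] ℂ) → Prop}
    (hc : ¬ ∀ᶠ n in (om : Filter ℕ), ∀ τ ∈ T, P n τ) : ∃ τ' ∈ T', ∃ τ : ℕ → (Q →L[ℂ] ℂ),
      (∀ᶠ n in (om : Filter ℕ), ¬ P n (τ n)) ∧ ∀ f x, Rp π f x →
        Tendsto (fun n => τ n (f n)) (om : Filter ℕ) (𝓝 (τ' x)) := by
  have h1 := Ultrafilter.eventually_not.2 hc
  obtain ⟨n0, h2⟩ := h1.exists
  push Not at h2
  obtain ⟨τ0, h2, -⟩ := h2
  have h3 : ∀ n, ∃ τ ∈ T, (¬ ∀ τ ∈ T, P n τ) → ¬ P n τ := by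
    intro n
    by_cases e : ∀ τ ∈ T, P n τ
    · exact ⟨τ0, h2, fun h0 => absurd e h0⟩
    · push Not at e
      obtain ⟨τ, a, b⟩ := e
      exact ⟨τ, a, fun _ => b⟩
  choose τ a b using h3
  obtain ⟨τ', c, d⟩ := h.ex τ a
  refine ⟨τ', c, τ, h1.mono fun n hn => b n hn, ?_⟩
  rintro f _ ⟨u, hu, rfl⟩
  simpa only [hu] using d u
theorem rep_n2 {τ : ℕ → (Q →L[ℂ] ℂ)} {τ' : Q' →L[ℂ] ℂ} (h : ∀ f x, Rp π f x →
    Tendsto (fun n => τ n (f n)) (om : Filter ℕ) (𝓝 (τ' x))) (hf : Rp π f x) :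
    Tendsto (fun n => n2 (τ n) (f n)) (om : Filter ℕ) (𝓝 (n2 τ' x)) :=
  ((Complex.continuous_re.tendsto _).comp (h _ _ (hf.star.mul hf))).sqrt
theorem tr_ev (h : UP α T π α' T') (hf : Rp π f x) {ε δ : ℝ} (H : ∀ τ ∈ T', ‖τ x‖ ≤ ε)
    (hδ : ε < δ) : ∀ᶠ n in (om : Filter ℕ), ∀ τ ∈ T, ‖τ (f n)‖ ≤ δ := by
  by_contra hc
  obtain ⟨τ', h1, τ, h2, h3⟩ := h.rep_bad hc
  have h4 : δ ≤ ‖τ' x‖ := ge_of_tendsto (h3 f x hf).norm (h2.mono fun n hn => (not_le.1 hn).le)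
  exact absurd (h4.trans (H τ' h1)) (not_le.2 hδ)
theorem sm_le (h : UP α T π α' T') (hf : Rp π f x) {ε : ℝ}
    (H : ∀ᶠ n in (om : Filter ℕ), Sm T (f n) ε) : Sm T' x ε := by
  intro τ' hτ
  obtain ⟨τ, h1, h2⟩ := h.tendsto hτ
  exact le_of_tendsto (rep_n2 h2 hf) (H.mono fun n hn => hn _ (h1 n))
theorem sm_ev (h : UP α T π α' T') (hf : Rp π f x) {ε δ : ℝ} (H : Sm T' x ε) (hδ : ε < δ) :
    ∀ᶠ n in (om : Filter ℕ), Sm T (f n) δ := by
  by_contra hc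
  obtain ⟨τ', h1, τ, h2, h3⟩ := h.rep_bad hc
  have h4 : δ ≤ n2 τ' x := ge_of_tendsto (rep_n2 h3 hf) (h2.mono fun n hn => (not_le.1 hn).le)
  exact absurd (h4.trans (H τ' h1)) (not_le.2 hδ)
theorem eq_zero (h : UP α T π α' T') (hf : Rp π f x) (H : Nu T f) : x = 0 := by
  refine h.sep x fun τ hτ => le_of_forall_pos_le_add fun ε hε => ?_
  rw [zero_add]
  exact h.sm_le hf (H ε hε) τ hτ
theorem eq_of (h : UP α T π α' T') (hf : Rp π f x) (hg : Rp π g y)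
    (H : Nu T fun n => f n - g n) : x = y := by
  exact sub_eq_zero.1 (h.eq_zero (hf.sub hg) H)
theorem eq_of_ev (h : UP α T π α' T') (hf : Rp π f x) (hg : Rp π g y)
    (H : ∀ᶠ n in (om : Filter ℕ), f n = g n) : x = y := by
  refine h.eq_of hf hg fun ε hε => H.mono fun n hn τ _ => ?_
  simp only [hn, sub_self, Tr.n2_zero]
  exact hε.le
theorem nu_of_norm (h : TS α T) (H : ∀ ε > 0, ∀ᶠ n in (om : Filter ℕ), ‖f n‖ ≤ ε) : Nu T f := by
  exact fun ε hε => (H ε hε).mono fun n hn τ hτ => ((h.tr τ hτ).n2_le _).trans hn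
/-- change the sequence to `0` off the large set -/
theorem norm_le (h : UP α T π α' T') (hf : Rp π f x) {c : ℝ} (hc : 0 ≤ c)
    (H : ∀ᶠ n in (om : Filter ℕ), ‖f n‖ ≤ c) : ‖x‖ ≤ c := by
  have h1 : ∀ n, ‖if ‖f n‖ ≤ c then f n else 0‖ ≤ c := by
    intro n
    split_ifs with e
    · exact e
    · rwa [norm_zero]
  let u := BoundedContinuousFunction.ofNormedAddCommGroupDiscrete _ c h1
  have h2 : x = π u := h.eq_of_ev hf ⟨u, fun _ => rfl, rfl⟩ (H.mono fun n hn => (if_pos hn).symm)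
  rw [h2]
  exact (NonUnitalStarAlgHom.norm_apply_le π u).trans
    ((BoundedContinuousFunction.norm_le hc).2 h1)
theorem ps_ev (h : UP α T π α' T') (hf : Rp π f x) (H : ∀ᶠ n in (om : Filter ℕ), Ps (f n)) :
    Ps x := by
  classical
  obtain ⟨C, hC⟩ := hf.bdd
  obtain ⟨z, hz⟩ := Rp.of_bdd π (fun n => if Ps (f n) then f n else 0) C fun n => by
    split_ifs
    · exact hC n
    · exact (norm_zero (E := Q)).trans_le ((norm_nonneg _).trans (hC n))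
  rw [h.eq_of_ev hf hz (H.mono fun n hn => (if_pos hn).symm)]
  refine hz.ps fun n => ?_
  split_ifs with e
  · exact e
  · exact Ps.zero
theorem rp_smul (h : UP α T π α' T') (hf : Rp π f x) {c : ℕ → ℂ} {l : ℂ} {C : ℝ}
    (hC : ∀ n, ‖c n‖ ≤ C) (hc : Tendsto c (om : Filter ℕ) (𝓝 l)) :
    Rp π (fun n => c n • f n) (l • x) := by
  obtain ⟨D, hD⟩ := hf.bdd
  have D0 : 0 ≤ D := (norm_nonneg _).trans (hD 0)
  obtain ⟨z, hz⟩ := Rp.of_bdd π (fun n => c n • f n) (C * D) fun n => by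
    rw [norm_smul]
    exact mul_le_mul (hC n) (hD n) (norm_nonneg _) ((norm_nonneg _).trans (hC n))
  have h1 : Tendsto (fun n => ‖c n - l‖ * D) (om : Filter ℕ) (𝓝 0) := by
    simpa using (tendsto_iff_norm_sub_tendsto_zero.1 hc).mul_const D
  rwa [h.eq_of hz (hf.smul l) (nu_of_norm h.ts fun ε hε =>
    (h1.eventually (ge_mem_nhds hε)).mono fun n hn => le_trans (by
      rw [← sub_smul, norm_smul]
      exact mul_le_mul_of_nonneg_left (hD n) (norm_nonneg _)) hn)] at hz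
theorem ca_lft (h : UP α T π α' T') {A : StarSubalgebra ℂ Q} (hA : CA α A) : CA α' (lft π A) := by
  refine ⟨fun x hx y hy => ?_, fun g x hx => ?_⟩
  · obtain ⟨f, h1, h2⟩ := of_mem_lft hx
    obtain ⟨g, h3, h4⟩ := of_mem_lft hy
    exact h2.commute h4 fun n => hA.comm _ (h1 n) _ (h3 n)
  · obtain ⟨f, h1, h2⟩ := of_mem_lft hx
    exact (h.rp_act h2 g).mem_lft fun n => hA.inv g _ (h1 n)
theorem commute_lft {A : StarSubalgebra ℂ Q} {z : Q} (hz : ∀ y ∈ A, Commute z y) :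
    ∀ y ∈ lft π A, Commute (cs π z) y := by
  intro y hy
  obtain ⟨f, h1, h2⟩ := of_mem_lft hy
  exact (Rp.const π z).commute h2 fun n => hz _ (h1 n)
theorem cs_mem_lft {A : StarSubalgebra ℂ Q} {z : Q} (hz : z ∈ A) : cs π z ∈ lft π A := by
  exact (Rp.const π z).mem_lft fun _ => hz
theorem transfer (h : UP α T π α' T') {A : StarSubalgebra ℂ Q} {z : Q}
    (hz : ∀ y ∈ A, ∀ τ ∈ T, τ (y * z) = 0) : ∀ y ∈ lft π A, ∀ τ ∈ T', τ (y * cs π z) = 0 := by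
  intro y hy
  obtain ⟨f, h1, h2⟩ := of_mem_lft hy
  refine h.tr_zero (h2.mul (Rp.const π z)) fun ε hε => Eventually.of_forall fun n τ hτ => ?_
  rw [hz _ (h1 n) τ hτ, norm_zero]
  exact hε.le
theorem tr_cs (h : UP α T π α' T') {z : Q} (hz : ∀ τ ∈ T, τ z = 0) :
    ∀ τ ∈ T', τ (cs π z) = 0 := by
  refine h.tr_zero (Rp.const π z) fun ε hε => Eventually.of_forall fun n τ hτ => ?_
  rw [hz τ hτ, norm_zero]
  exact hε.le
theorem hsh_cs (h : UP α T π α' T') {V : Q} {D : G → G → Q} (H : Hsh α T V D) :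
    Hsh α' T' (cs π V) fun g k => cs π (D g k) := by
  intro g k m hm τ hτ
  have h1 := h.tr_cs (H g k m hm) τ hτ
  rwa [map_mul (cs π), map_mul (cs π), map_pow (cs π), map_pow (cs π), map_star (cs π),
    ← h.act_cs, ← h.act_cs] at h1
/-- a countable set of the ultrapower is represented by sequences in a countable set -/
theorem exists_countable (h : UP α T π α' T') {S : Set Q'} (hS : S.Countable) :
    ∃ S₀ : Set Q, S₀.Countable ∧ ∀ x ∈ S, ∃ f, Rp π f x ∧ ∀ n, f n ∈ S₀ := by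
  choose f hf using h.exists_rp
  exact ⟨⋃ x ∈ S, Set.range (f x), hS.biUnion fun x _ => Set.countable_range _,
    fun x hx => ⟨f x, (hf x).1, fun n => Set.mem_biUnion hx ⟨n, rfl⟩⟩⟩

end UP


end Vale.Agent.P095.H
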